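import Vale.Agent.P219.TP.Conv

/-! # Equality case: from pairs of boundary points to a flat ball -/

open MeasureTheory Set Metric Filter Topology
open scoped ENNReal ContDiff

namespace Vale.Agent.P219.TP

variable {n : ℕ} (G : Geo n)

/-- PROOF: `‖z‖ ≤ ‖T z‖` (norm_le_T) and `|det T| = 1`. -/
theorem isometry_of_det (x v : E n) (h : |(G.T x v).det| = 1) (z : E n) :
    ‖G.T x v z‖ = ‖z‖ := by
  by_contra hne
  have hlt : ‖z‖ < ‖G.T x v z‖ := lt_of_le_of_ne (G.norm_le_T x v z) (Ne.symm hne)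
  have hpos : 0 < ‖G.T x v z‖ := lt_of_le_of_lt (norm_nonneg _) hlt
  -- rescale so that `‖c z‖ < 1 < ‖T (c z)‖`
  obtain ⟨c, hc0, hc1, hc2⟩ : ∃ c : ℝ, 0 < c ∧ c * ‖z‖ < 1 ∧ 1 < c * ‖G.T x v z‖ := by
    set a := ‖z‖
    set b := ‖G.T x v z‖
    have ha : 0 ≤ a := norm_nonneg _
    have hab : 0 < a + b := by linarith
    refine ⟨2 / (a + b), by positivity, ?_, ?_⟩
    · rw [div_mul_eq_mul_div, div_lt_one hab]; linarith
    · rw [div_mul_eq_mul_div, one_lt_div hab]; linarith
  set T := G.T x v with hT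
  have hdet : (T : E n →L[ℝ] E n).det ≠ 0 := G.det_T_ne x v
  have hpre : (volume : Measure (E n)) (T ⁻¹' closedBall (0 : E n) 1) =
      (volume : Measure (E n)) (closedBall (0 : E n) 1) := by
    rw [Measure.addHaar_preimage_continuousLinearMap _ hdet, abs_inv, h]
    simp
  have hsub : T ⁻¹' closedBall (0 : E n) 1 ⊆ closedBall (0 : E n) 1 := by
    intro y hy
    rw [mem_preimage, mem_closedBall_zero_iff] at hy
    rw [mem_closedBall_zero_iff]
    exact (G.norm_le_T x v y).trans hy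
  set U : Set (E n) := ball (0 : E n) 1 \ (T ⁻¹' closedBall (0 : E n) 1) with hU
  have hcl : IsClosed (T ⁻¹' closedBall (0 : E n) 1) :=
    isClosed_closedBall.preimage T.continuous
  have hUo : IsOpen U := isOpen_ball.sdiff hcl
  have hUne : U.Nonempty := by
    refine ⟨c • z, ?_, ?_⟩
    · rw [mem_ball_zero_iff, norm_smul, Real.norm_of_nonneg hc0.le]
      exact hc1
    · rw [mem_preimage, mem_closedBall_zero_iff, map_smul, norm_smul, Real.norm_of_nonneg hc0.le]
      exact not_le.2 hc2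
  have hUpos : 0 < (volume : Measure (E n)) U := hUo.measure_pos _ hUne
  have hdisj : Disjoint (T ⁻¹' closedBall (0 : E n) 1) U := disjoint_sdiff_right
  have hun : T ⁻¹' closedBall (0 : E n) 1 ∪ U ⊆ closedBall (0 : E n) 1 := by
    refine union_subset hsub (fun y hy => ball_subset_closedBall hy.1)
  have hle := measure_mono (μ := (volume : Measure (E n))) hun
  rw [measure_union hdisj hUo.measurableSet, hpre] at hle
  have hfin : (volume : Measure (E n)) (closedBall (0 : E n) 1) ≠ ⊤ := measure_closedBall_lt_top.ne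
  have := ENNReal.add_lt_add_left (a := (volume : Measure (E n)) (closedBall (0 : E n) 1)) hfin hUpos
  rw [add_zero] at this
  exact absurd hle (not_le.2 this)

/-- The exponential map as a homeomorphism. -/
noncomputable def exHomeo (p : E n) : E n ≃ₜ E n where
  toFun := G.ex p
  invFun := G.lg p
  left_inv := G.lg_ex p
  right_inv := G.ex_lg p
  continuous_toFun :=
    (G.ex_smooth.comp (contDiff_const.prodMk contDiff_id)).continuous
  continuous_invFun :=
    (G.lg_smooth.comp (contDiff_const.prodMk contDiff_id)).continuous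

theorem mem_sphere_iff_inner {N v : E n} {R : ℝ} (hR : 0 < R) (hN : ‖N‖ = 1) :
    v ∈ sphere (R • N) R ↔ 2 * R * inner ℝ v N = ‖v‖ ^ 2 := by
  rw [mem_sphere_iff_norm, ← sq_eq_sq₀ (norm_nonneg _) hR.le, norm_sub_sq_real, norm_smul, hN,
    mul_one, Real.norm_of_nonneg hR.le, inner_smul_right]
  constructor <;> intro h <;> linarith

theorem mem_ball_iff_inner {N v : E n} {R : ℝ} (hR : 0 < R) (hN : ‖N‖ = 1) :
    v ∈ ball (R • N) R ↔ ‖v‖ ^ 2 < 2 * R * inner ℝ v N := by
  rw [mem_ball_iff_norm, ← sq_lt_sq₀ (norm_nonneg _) hR.le, norm_sub_sq_real, norm_smul, hN,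
    mul_one, Real.norm_of_nonneg hR.le, inner_smul_right]
  constructor <;> intro h <;> linarith

/-- An open bounded set `Ω` whose frontier lies in the image of a sphere through `p` is the image of
the ball. PROOF: `Ω' = {v | ex p v ∈ Ω}` is open, bounded (`lg p` is continuous, `Ω` bounded), its
frontier lies in the sphere `S = {v | ‖v - R N‖ = R}` (or is `{0}`, which is in `S`); the open ball and
the exterior of `S` are connected (n ≥ 2), hence `Ω'` is the open ball. -/
theorem eq_ball (hn : 2 ≤ n) {Ω : Set (E n)} (ho : IsOpen Ω) (hb : Bornology.IsBounded Ω)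
    (hne : Ω.Nonempty) {p N : E n} {R : ℝ} (hR : 0 < R) (hN : ‖N‖ = 1)
    (hfr : ∀ q ∈ frontier Ω, q ≠ p → 2 * R * inner ℝ (G.lg p q) N = ‖G.lg p q‖ ^ 2) :
    Ω = G.ex p '' ball (R • N) R ∧ frontier Ω = G.ex p '' sphere (R • N) R := by
  set e : E n ≃ₜ E n := exHomeo G p with he
  have hev : ∀ v, e v = G.ex p v := fun v => rfl
  set W : Set (E n) := e ⁻¹' Ω with hW
  have hWo : IsOpen W := ho.preimage e.continuous
  have hWfr : frontier W ⊆ sphere (R • N) R := by
    intro v hv
    rw [hW, ← e.preimage_frontier] at hv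
    rw [mem_sphere_iff_inner hR hN]
    by_cases hq : e v = p
    · have h0 : v = 0 := by
        have h1 : G.ex p v = G.ex p 0 := by rw [G.ex_zero]; exact hq
        have h2 := congrArg (G.lg p) h1
        rwa [G.lg_ex, G.lg_ex] at h2
      rw [h0]; simp
    · have h1 := hfr (e v) hv hq
      rw [hev, G.lg_ex] at h1
      exact h1
  have hWne : W.Nonempty := by
    obtain ⟨y, hy⟩ := hne
    refine ⟨e.symm y, ?_⟩
    rw [hW, mem_preimage, e.apply_symm_apply]
    exact hy
  have hWb : Bornology.IsBounded W := by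
    have hc : IsCompact (closure Ω) := hb.isCompact_closure
    have hc2 : IsCompact (e.symm '' closure Ω) := hc.image e.symm.continuous
    refine hc2.isBounded.subset ?_
    intro v hv
    exact ⟨e v, subset_closure hv, e.symm_apply_apply v⟩
  have hconn : ∀ t : Set (E n), IsPreconnected t → (t ∩ W).Nonempty →
      Disjoint t (sphere (R • N) R) → t ⊆ W := by
    intro t ht h1 h2
    refine ht.subset_left_of_subset_union hWo isClosed_closure.isOpen_compl
      (disjoint_compl_right_iff_subset.2 subset_closure) ?_ h1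
    intro y hy
    by_cases hyW : y ∈ closure W
    · left
      by_contra hyn
      have : y ∈ frontier W := ⟨hyW, by rwa [hWo.interior_eq]⟩
      exact (Set.disjoint_left.1 h2) hy (hWfr this)
    · right; exact hyW
  have hWcb : W ⊆ closedBall (R • N) R := by
    intro v hv
    by_contra hout
    rw [mem_closedBall_iff_norm, not_le] at hout
    set d := v - R • N with hd
    have hdpos : 0 < ‖d‖ := hR.trans hout
    have hray : (fun t : ℝ => R • N + t • d) '' Ici 1 ⊆ W := by
      refine hconn _ (isPreconnected_Ici.image _ (by fun_prop)) ?_ ?_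
      · refine ⟨v, ⟨1, self_mem_Ici, ?_⟩, hv⟩
        simp [hd]
      · rw [Set.disjoint_left]
        rintro _ ⟨t, ht, rfl⟩ hs
        rw [mem_sphere_iff_norm, add_sub_cancel_left, norm_smul, Real.norm_of_nonneg
          (zero_le_one.trans ht)] at hs
        have : ‖d‖ ≤ t * ‖d‖ := le_mul_of_one_le_left hdpos.le ht
        linarith
    obtain ⟨M, hM⟩ := hWb.exists_norm_le
    set t : ℝ := max 1 ((M + R + 1) / ‖d‖) with ht
    have h1 := hM _ (hray ⟨t, mem_Ici.2 (le_max_left _ _), rfl⟩)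
    have h2 : (M + R + 1) ≤ t * ‖d‖ := by
      rw [← div_le_iff₀ hdpos]; exact le_max_right _ _
    have h3 : ‖t • d‖ ≤ ‖R • N + t • d‖ + ‖R • N‖ := by
      calc ‖t • d‖ = ‖(R • N + t • d) - R • N‖ := by rw [add_sub_cancel_left]
        _ ≤ _ := norm_sub_le _ _
    rw [norm_smul, norm_smul, hN, mul_one, Real.norm_of_nonneg hR.le,
      Real.norm_of_nonneg (zero_le_one.trans (le_max_left _ _) : (0:ℝ) ≤ t)] at h3
    simp only at h1
    linarith
  have hWb' : W ⊆ ball (R • N) R := by
    rw [← interior_closedBall _ hR.ne']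
    exact hWo.subset_interior_iff.2 hWcb
  have hWeq : W = ball (R • N) R := by
    refine Subset.antisymm hWb' (hconn _ (convex_ball _ _).isPreconnected ?_ ?_)
    · obtain ⟨v, hv⟩ := hWne
      exact ⟨v, hWb' hv, hv⟩
    · rw [Set.disjoint_left]
      intro y h1 h2
      rw [mem_ball] at h1
      rw [mem_sphere] at h2
      linarith
  have hΩ : Ω = e '' ball (R • N) R := by
    rw [← hWeq, hW, e.image_preimage]
  refine ⟨hΩ, ?_⟩
  have h2 := e.image_frontier (ball (R • N) R)
  rw [frontier_ball _ hR.ne', ← hΩ] at h2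
  exact h2.symm

/-- Equality case: `Ω` is isometric to a Euclidean ball. PROOF: eq_ball, isometry_of_det at the
points of the sphere, and mono (`‖T p (s v) z‖ ≤ ‖T p v z‖` for `z ⟂ v`, gauss, norm_le_T). -/
theorem flat_ball (hn : 2 ≤ n) {Ω : Set (E n)} (ho : IsOpen Ω) (hb : Bornology.IsBounded Ω)
    (hne : Ω.Nonempty) {p N : E n} {R : ℝ} (hR : 0 < R) (hN : ‖N‖ = 1)
    (hfr : ∀ q ∈ frontier Ω, q ≠ p → 2 * R * inner ℝ (G.lg p q) N = ‖G.lg p q‖ ^ 2 ∧
      |(G.T p (G.lg p q)).det| = 1) :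
    Ω = G.ex p '' ball (R • N) R ∧
      ∀ v ∈ ball (R • N) R, ∀ z, ‖G.T p v z‖ = ‖z‖ := by
  obtain ⟨h1, h2⟩ := eq_ball G hn ho hb hne hR hN (fun q hq hqp => (hfr q hq hqp).1)
  refine ⟨h1, fun v hv z => ?_⟩
  rw [mem_ball_iff_inner hR hN] at hv
  have hv0 : v ≠ 0 := by
    rintro rfl
    simp at hv
  have hvpos : 0 < ‖v‖ ^ 2 := pow_pos (norm_pos_iff.2 hv0) 2
  set t : ℝ := 2 * R * inner ℝ v N / ‖v‖ ^ 2 with ht
  have ht1 : 1 < t := by rw [ht, one_lt_div hvpos]; exact hv
  have ht0 : 0 < t := zero_lt_one.trans ht1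
  set u : E n := t • v with hu
  have hu0 : u ≠ 0 := smul_ne_zero ht0.ne' hv0
  have hus : u ∈ sphere (R • N) R := by
    rw [mem_sphere_iff_inner hR hN, hu, inner_smul_left, norm_smul, Real.norm_of_nonneg ht0.le]
    have : t * ‖v‖ ^ 2 = 2 * R * inner ℝ v N := by rw [ht, div_mul_cancel₀ _ hvpos.ne']
    simp only [conj_trivial]
    calc 2 * R * (t * inner ℝ v N) = t * (2 * R * inner ℝ v N) := by ring
      _ = t * (t * ‖v‖ ^ 2) := by rw [this]
      _ = _ := by ring
  have hq : G.ex p u ∈ frontier Ω := by rw [h2]; exact ⟨u, hus, rfl⟩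
  have hqp : G.ex p u ≠ p := by
    intro h
    have h3 : G.ex p u = G.ex p 0 := by rw [G.ex_zero]; exact h
    have h4 := congrArg (G.lg p) h3
    rw [G.lg_ex, G.lg_ex] at h4
    exact hu0 h4
  have hdet := (hfr _ hq hqp).2
  rw [G.lg_ex] at hdet
  have hiso := isometry_of_det G p u hdet
  set s : ℝ := t⁻¹ with hs
  have hs0 : 0 ≤ s := inv_nonneg.2 ht0.le
  have hs1 : s ≤ 1 := inv_le_one_of_one_le₀ ht1.le
  have hvs : v = s • u := by rw [hs, hu, smul_smul, inv_mul_cancel₀ ht0.ne', one_smul]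
  -- orthogonal decomposition
  have hv2 : (inner ℝ v v : ℝ) ≠ 0 := by
    rw [real_inner_self_eq_norm_sq]
    exact hvpos.ne'
  set c : ℝ := inner ℝ v z / inner ℝ v v with hc
  set z' : E n := z - c • v with hz'
  have hz : z = c • v + z' := by rw [hz']; abel
  have hoo : (inner ℝ v z' : ℝ) = 0 := by
    rw [hz', inner_sub_right, inner_smul_right, hc, div_mul_cancel₀ _ hv2, sub_self]
  have hou : (inner ℝ u z' : ℝ) = 0 := by
    rw [hu, inner_smul_left, hoo, mul_zero]
  have k1 : ‖G.T p v z'‖ ≤ ‖z'‖ := by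
    have := G.mono p u z' s hou hs0 hs1
    rwa [← hvs, hiso] at this
  have k2 : ‖z'‖ ≤ ‖G.T p v z'‖ := G.norm_le_T p v z'
  have k3 : ‖G.T p v z'‖ = ‖z'‖ := le_antisymm k1 k2
  have e2 : (inner ℝ (G.T p v v) (G.T p v z') : ℝ) = 0 := by rw [G.gauss, hoo]
  have e3 : (inner ℝ (G.T p v v) (G.T p v v) : ℝ) = inner ℝ v v := G.gauss p v v
  have e4 : ‖G.T p v z‖ ^ 2 = c ^ 2 * ‖v‖ ^ 2 + ‖G.T p v z'‖ ^ 2 := by
    rw [hz, map_add, map_smul, ← real_inner_self_eq_norm_sq, inner_add_left, inner_add_right,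
      inner_add_right, inner_smul_left, inner_smul_right, inner_smul_left, inner_smul_right, e2, e3,
      real_inner_comm (G.T p v v) (G.T p v z'), e2, real_inner_self_eq_norm_sq,
      real_inner_self_eq_norm_sq]
    simp
    ring
  have e5 : ‖z‖ ^ 2 = c ^ 2 * ‖v‖ ^ 2 + ‖z'‖ ^ 2 := by
    conv_lhs => rw [hz]
    rw [← real_inner_self_eq_norm_sq, inner_add_left, inner_add_right,
      inner_add_right, inner_smul_left, inner_smul_right, inner_smul_left, inner_smul_right, hoo,
      real_inner_comm v z', hoo, real_inner_self_eq_norm_sq, real_inner_self_eq_norm_sq]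
    simp
    ring
  have e6 : ‖G.T p v z‖ ^ 2 = ‖z‖ ^ 2 := by rw [e4, e5, k3]
  exact (sq_eq_sq₀ (norm_nonneg _) (norm_nonneg _)).1 e6

end Vale.Agent.P219.TP
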