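import Vale.Agent.P219.TPR.RigPair
import Vale.Agent.P219.TPR.RigGeo
import Vale.Agent.P219.CH.ToGeo

set_option linter.all false

/-! # Equality case for domains -/

open MeasureTheory Set Metric Filter Topology
open scoped ENNReal ContDiff

noncomputable section

namespace Vale.Agent.P219.CH

variable {n : ℕ}

/-- The inner unit normal of the level sets of `ρ`, in the frame. -/
def nrm (G : TP.Geo n) (ρ : E n → ℝ) (x : E n) : E n :=
  ‖G.D (fun y => -ρ y) x‖⁻¹ • G.D (fun y => -ρ y) x

theorem rd_D_cont (G : TP.Geo n) {h : E n → ℝ} (hh : ContDiff ℝ 1 h) : Continuous (G.D h) := by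
  unfold TP.Geo.D
  exact (InnerProductSpace.toDual ℝ (E n)).symm.continuous.comp
    ((hh.continuous_fderiv one_ne_zero).clm_comp G.A_smooth.continuous)

theorem rd_A_surj (G : TP.Geo n) (x : E n) : Function.Surjective (G.A x) :=
  (LinearMap.injective_iff_surjective (f := (G.A x : E n →ₗ[ℝ] E n))).1 (G.A_injective x)

theorem rd_D_ne (G : TP.Geo n) {h : E n → ℝ} {x : E n} (hx : fderiv ℝ h x ≠ 0) :
    G.D h x ≠ 0 := by
  intro h0
  apply hx
  ext v
  obtain ⟨z, rfl⟩ := rd_A_surj G x v
  rw [← G.inner_D h x z, h0, inner_zero_left]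
  rfl

theorem rd_fderiv_neg (D : SmoothDomain n) (x : E n) :
    fderiv ℝ (fun y => -D.ρ y) x = -fderiv ℝ D.ρ x := fderiv_fun_neg

theorem nrm_norm (G : TP.Geo n) (D : SmoothDomain n) {p : E n} (hp : D.ρ p = 0) :
    ContinuousAt (nrm G D.ρ) p ∧ ∀ᶠ y in 𝓝 p, ‖nrm G D.ρ y‖ = 1 := by
  have hc : Continuous (G.D fun y => -D.ρ y) := rd_D_cont G (D.smooth.neg.of_le (by simp))
  have h0 : G.D (fun y => -D.ρ y) p ≠ 0 := by
    apply rd_D_ne
    rw [rd_fderiv_neg]
    exact neg_ne_zero.2 (D.regular p hp)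
  constructor
  · exact (hc.norm.continuousAt.inv₀ (norm_ne_zero_iff.2 h0)).smul hc.continuousAt
  · filter_upwards [hc.continuousAt.eventually_ne h0] with y hy
    unfold nrm
    rw [norm_smul, norm_inv, norm_norm, inv_mul_cancel₀ (norm_ne_zero_iff.2 hy)]

theorem D_feps (G : TP.Geo n) (D : SmoothDomain n) {ε : ℝ} (hε : 0 < ε) (y : E n) :
    G.D (Feps D ε) y = ‖G.D (Feps D ε) y‖ • nrm G D.ρ y := by
  have h1 : G.D (Feps D ε) y = (ε⁻¹ * Coarea.chi' (-D.ρ y / ε)) • G.D (fun y => -D.ρ y) y := by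
    unfold TP.Geo.D
    rw [Feps_fderiv, rd_fderiv_neg, ← map_smul]
    congr 1
    ext v
    simp
  have hc : 0 ≤ ε⁻¹ * Coarea.chi' (-D.ρ y / ε) :=
    mul_nonneg (inv_pos.2 hε).le (Coarea.chi'_nonneg _)
  rw [h1, norm_smul, Real.norm_of_nonneg hc]
  unfold nrm
  by_cases h0 : G.D (fun y => -D.ρ y) y = 0
  · rw [h0]; simp
  · rw [smul_smul, mul_assoc, mul_inv_cancel₀ (norm_ne_zero_iff.2 h0), mul_one]

theorem rd_pos {X : Type*} [TopologicalSpace X] {K : Set X} (hK : IsCompact K) {f : X → ℝ}
    (hf : Continuous f) (hp : ∀ x ∈ K, 0 < f x) : ∃ c > 0, ∀ x ∈ K, c ≤ f x := by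
  rcases K.eq_empty_or_nonempty with h | h
  · subst h
    exact ⟨1, one_pos, fun x hx => absurd hx (Set.notMem_empty x)⟩
  · obtain ⟨x, hx, hmin⟩ := hK.exists_isMinOn h hf.continuousOn
    exact ⟨f x, hp x hx, fun y hy => hmin hy⟩

theorem rd_A_inv (G : TP.Geo n) {K : Set (E n)} (hK : IsCompact K) :
    ∃ C > 0, ∀ x ∈ K, ∀ ν : E n, ∃ z, G.A x z = ν ∧ ‖z‖ ≤ C * ‖ν‖ := by
  have hS : IsCompact (K ×ˢ sphere (0 : E n) 1) := hK.prod (isCompact_sphere 0 1)
  have hF : Continuous fun q : E n × E n => ‖G.A q.1 q.2‖ :=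
    ((G.A_smooth.continuous.comp continuous_fst).clm_apply continuous_snd).norm
  obtain ⟨m, hm, hmin⟩ := rd_pos hS hF (by
    rintro ⟨x, z⟩ ⟨_, hz⟩
    refine norm_pos_iff.2 fun h0 => ?_
    have h1 : z = 0 := G.A_injective x (by rw [h0, map_zero])
    rw [h1] at hz
    simp at hz)
  refine ⟨m⁻¹, inv_pos.2 hm, fun x hx ν => ?_⟩
  obtain ⟨z, rfl⟩ := rd_A_surj G x ν
  refine ⟨z, rfl, ?_⟩
  by_cases h0 : z = 0
  · rw [h0]; simp
  have hz : 0 < ‖z‖ := norm_pos_iff.2 h0
  have h1 := hmin (x, ‖z‖⁻¹ • z) ⟨hx, by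
    rw [mem_sphere_zero_iff_norm, norm_smul, norm_inv, norm_norm, inv_mul_cancel₀ hz.ne']⟩
  simp only [map_smul, norm_smul, norm_inv, norm_norm] at h1
  rw [inv_mul_eq_div, le_div_iff₀ hm, mul_comm]
  rwa [inv_mul_eq_div, le_div_iff₀ hz] at h1

/-- a bound for directional derivatives -/
theorem rd_fderiv_le (G : TP.Geo n) {K : Set (E n)} (hK : IsCompact K) (ν : E n) :
    ∃ C > 0, ∀ x ∈ K, ∀ h : E n → ℝ, |fderiv ℝ h x ν| ≤ C * (‖G.D h x‖ * G.w x) := by
  obtain ⟨C, hC, hCz⟩ := rd_A_inv G hK
  obtain ⟨m, hm, hmw⟩ := rd_pos hK G.w_smooth.continuous fun x _ => G.w_pos x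
  refine ⟨C * (‖ν‖ + 1) / m, by positivity, fun x hx h => ?_⟩
  obtain ⟨z, hz, hz2⟩ := hCz x hx ν
  have h1 : |fderiv ℝ h x ν| ≤ ‖G.D h x‖ * (C * (‖ν‖ + 1)) := by
    rw [← hz, ← G.inner_D h x z]
    refine (abs_real_inner_le_norm _ _).trans (mul_le_mul_of_nonneg_left ?_ (norm_nonneg _))
    rw [hz]
    refine hz2.trans (mul_le_mul_of_nonneg_left (by linarith) hC.le)
  refine h1.trans ?_
  have h2 : 1 ≤ G.w x / m := by rw [one_le_div hm]; exact hmw x hx
  calc ‖G.D h x‖ * (C * (‖ν‖ + 1)) ≤ ‖G.D h x‖ * (C * (‖ν‖ + 1)) * (G.w x / m) :=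
        le_mul_of_one_le_right (by positivity) h2
    _ = _ := by ring

/-- near a boundary point there are two small balls, translates of each other, one outside and
one inside the domain -/
theorem rd_two_balls (D : SmoothDomain n) {p : E n} (hp : D.ρ p = 0) {δ : ℝ} (hδ : 0 < δ) :
    ∃ (ν : E n) (s η r : ℝ), ‖ν‖ = 1 ∧ 0 < s ∧ 0 < η ∧ 0 < r ∧ r + s ≤ δ ∧
      ∀ x ∈ ball (p - s • ν) r, 0 < D.ρ x ∧ D.ρ (x + (2 * s) • ν) < -η := by
  obtain ⟨ν, hν, hν2⟩ := Coarea.exists_unit (φ := -fderiv ℝ D.ρ p) (neg_ne_zero.2 (D.regular p hp))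
  have hneg : fderiv ℝ D.ρ p ν < 0 := by
    have h1 : 0 < ‖-fderiv ℝ D.ρ p‖ := norm_pos_iff.2 (neg_ne_zero.2 (D.regular p hp))
    rw [← hν2, neg_apply] at h1
    linarith
  have hder : HasDerivAt (fun t : ℝ => D.ρ (p + t • ν)) (fderiv ℝ D.ρ p ν) 0 := by
    have h1 : HasFDerivAt D.ρ (fderiv ℝ D.ρ p) (p + (0 : ℝ) • ν) := by
      rw [zero_smul, add_zero]
      exact (D.smooth.differentiable (by simp) p).hasFDerivAt
    have h2 : HasDerivAt (fun t : ℝ => p + t • ν) ν 0 := by
      have := ((hasDerivAt_id (0 : ℝ)).smul_const ν).const_add p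
      simpa using this
    exact h1.comp_hasDerivAt 0 h2
  have hsl := (hasDerivAt_iff_tendsto_slope.1 hder).eventually (gt_mem_nhds hneg)
  rw [eventually_nhdsWithin_iff, Metric.eventually_nhds_iff] at hsl
  obtain ⟨τ, hτ, hsl⟩ := hsl
  set s : ℝ := min (τ / 2) (δ / 2) with hs
  have hs0 : 0 < s := lt_min (by linarith) (by linarith)
  have hsτ : s < τ := (min_le_left _ _).trans_lt (by linarith)
  have hsδ : s ≤ δ / 2 := min_le_right _ _
  have e0 : D.ρ (p + (0 : ℝ) • ν) = 0 := by rw [zero_smul, add_zero]; exact hp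
  have hin : D.ρ (p + s • ν) < 0 := by
    have h1 := hsl (y := s) (by rw [Real.dist_eq, sub_zero, abs_of_pos hs0]; exact hsτ)
      (by simpa using hs0.ne')
    rw [slope_def_field, e0, sub_zero, sub_zero] at h1
    by_contra h2
    exact absurd h1 (not_lt.2 (div_nonneg (not_lt.1 h2) hs0.le))
  have hout : 0 < D.ρ (p - s • ν) := by
    have h1 := hsl (y := -s) (by rw [Real.dist_eq, sub_zero, abs_neg, abs_of_pos hs0]; exact hsτ)
      (by simpa using hs0.ne')
    rw [slope_def_field, e0, sub_zero, sub_zero, neg_smul, ← sub_eq_add_neg] at h1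
    by_contra h2
    exact absurd h1 (not_lt.2 (div_nonneg_of_nonpos (not_lt.1 h2) (by linarith)))
  set η : ℝ := -D.ρ (p + s • ν) / 2 with hη
  have hη0 : 0 < η := by rw [hη]; linarith
  have hc := D.smooth.continuous
  have ho : IsOpen ({x | 0 < D.ρ x} ∩ {x | D.ρ (x + (2 * s) • ν) < -η}) :=
    (isOpen_lt continuous_const hc).inter
      (isOpen_lt (hc.comp (continuous_id.add continuous_const)) continuous_const)
  have hmem : p - s • ν ∈ {x | 0 < D.ρ x} ∩ {x | D.ρ (x + (2 * s) • ν) < -η} := by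
    refine ⟨hout, ?_⟩
    have e1 : p - s • ν + (2 * s) • ν = p + s • ν := by
      rw [two_mul, add_smul]; abel
    change D.ρ (p - s • ν + (2 * s) • ν) < -η
    rw [e1, hη]
    linarith
  obtain ⟨r0, hr0, hball⟩ := Metric.isOpen_iff.1 ho _ hmem
  refine ⟨ν, s, η, min r0 (δ / 2), hν, hs0, hη0, lt_min hr0 (by linarith), ?_, ?_⟩
  · have := min_le_right r0 (δ / 2)
    linarith
  · intro x hx
    exact hball (ball_subset_ball (min_le_left _ _) hx)

/-- integration over a ball of points, along segments in a fixed direction -/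
theorem rd_segments {g : E n → ℝ} (hgc : Continuous g) (hg0 : ∀ y, 0 ≤ g y) {B : Set (E n)}
    (hmB : MeasurableSet B) {p ν : E n} {δ s : ℝ} (hs : 0 < s)
    (hin : ∀ x ∈ B, ∀ t ∈ Icc (0 : ℝ) (2 * s), x + t • ν ∈ ball p δ)
    (hseg : ∀ x ∈ B, (1 : ℝ≥0∞) ≤ ∫⁻ t in Icc (0 : ℝ) (2 * s), ENNReal.ofReal (g (x + t • ν))) :
    (volume B).toReal ≤ 2 * s * ∫ y in ball p δ, g y := by
  have hmeas : Measurable fun q : E n × ℝ => ENNReal.ofReal (g (q.1 + q.2 • ν)) :=
    (hgc.comp (continuous_fst.add
      (continuous_snd.smul continuous_const))).measurable.ennreal_ofReal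
  have hint : volume B ≤ ENNReal.ofReal (2 * s) * ∫⁻ y in ball p δ, ENNReal.ofReal (g y) := by
    calc volume B = ∫⁻ x in B, 1 := by rw [setLIntegral_one]
      _ ≤ ∫⁻ x in B, ∫⁻ t in Icc (0 : ℝ) (2 * s), ENNReal.ofReal (g (x + t • ν)) :=
          setLIntegral_mono' hmB fun x hx => hseg x hx
      _ = ∫⁻ t in Icc (0 : ℝ) (2 * s), ∫⁻ x in B, ENNReal.ofReal (g (x + t • ν)) :=
          lintegral_lintegral_swap hmeas.aemeasurable
      _ ≤ ∫⁻ t in Icc (0 : ℝ) (2 * s), ∫⁻ y in ball p δ, ENNReal.ofReal (g y) := by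
          refine setLIntegral_mono' measurableSet_Icc fun t ht => ?_
          rw [← lintegral_indicator hmB, ← lintegral_indicator isOpen_ball.measurableSet]
          calc ∫⁻ x, B.indicator (fun x => ENNReal.ofReal (g (x + t • ν))) x
              ≤ ∫⁻ x, (ball p δ).indicator (fun y => ENNReal.ofReal (g y)) (x + t • ν) := by
                refine lintegral_mono fun x => ?_
                by_cases hx : x ∈ B
                · rw [indicator_of_mem hx, indicator_of_mem (hin x hx t ht)]
                · rw [indicator_of_notMem hx]; exact zero_le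
            _ = _ := lintegral_add_right_eq_self _ _
      _ = _ := by
          rw [setLIntegral_const, Real.volume_Icc, sub_zero, mul_comm]
  have hgi : IntegrableOn g (ball p δ) :=
    (hgc.continuousOn.integrableOn_compact
      (isCompact_closedBall p δ)).mono_set ball_subset_closedBall
  have h7 : ∫⁻ y in ball p δ, ENNReal.ofReal (g y) =
      ENNReal.ofReal (∫ y in ball p δ, g y) :=
    (ofReal_integral_eq_lintegral_ofReal hgi (Eventually.of_forall fun t => hg0 _)).symm
  have hIg : 0 ≤ ∫ y in ball p δ, g y := integral_nonneg fun y => hg0 _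
  rw [h7, ← ENNReal.ofReal_mul (by linarith)] at hint
  exact ENNReal.toReal_le_of_le_ofReal (by positivity) hint

theorem rd_D_integrable (G : TP.Geo n) {h : E n → ℝ} (hh1 : ContDiff ℝ 1 h)
    (hc : HasCompactSupport h) : Integrable (fun y => ‖G.D h y‖) G.vol := by
  refine (rd_D_cont G hh1).norm.integrable_of_hasCompactSupport ?_
  have h11 : HasCompactSupport (fderiv ℝ h) := hc.fderiv ℝ
  refine h11.mono ?_
  intro y hy
  by_contra h12
  have h13 : fderiv ℝ h y = 0 := by simpa using h12
  apply hy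
  have : G.D h y = 0 := by
    unfold TP.Geo.D
    rw [h13]
    simp
  simp [this]

theorem rd_ball_vol (G : TP.Geo n) (f : E n → ℝ) (p : E n) (δ : ℝ) :
    ∫ y in ball p δ, f y ∂G.vol = ∫ y in ball p δ, f y * G.w y := by
  have hmball : MeasurableSet (ball p δ) := isOpen_ball.measurableSet
  rw [← integral_indicator hmball, ← integral_indicator hmball, TP.ibp_integral_vol]
  refine integral_congr_ae (Eventually.of_forall fun y => ?_)
  by_cases hy : y ∈ ball p δ
  · simp only [indicator_of_mem hy]; ring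
  · simp only [indicator_of_notMem hy, mul_zero]

/-- PROOF: near `p` choose the unit vector `ν = -∇ρ/|∇ρ|` (Euclidean) and a small cylinder
`p + y + t ν`, `|y| < δ`, `|t| < δ'` on which `∂_ν ρ ≤ -c < 0`; on every segment in direction `ν` the function
`Feps` increases from `0` to `1` (for `ε` small), `‖G.D h‖ w ≥ c' |∂_ν h|` on the compact cylinder. -/
theorem feps_lower (G : TP.Geo n) (hn : 1 ≤ n) (D : SmoothDomain n) {p : E n} (hp : D.ρ p = 0)
    {U : Set (E n)} (hU : U ∈ 𝓝 p) :
    ∃ c > 0, ∀ᶠ k : ℕ in atTop, c ≤ ∫ y in U, ‖G.D (Feps D (1 / (k + 1))) y‖ ∂G.vol := by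
  obtain ⟨δ, hδ, hδU⟩ := Metric.mem_nhds_iff.1 hU
  obtain ⟨ν, s, η, r, hν, hs, hη, hr, hrs, hB⟩ := rd_two_balls D hp hδ
  obtain ⟨C, hC, hCb⟩ := rd_fderiv_le G (isCompact_closedBall p δ) ν
  set B : Set (E n) := ball (p - s • ν) r with hBdef
  have hvB0 : 0 < (volume B).toReal :=
    ENNReal.toReal_pos (measure_ball_pos _ _ hr).ne' measure_ball_lt_top.ne
  refine ⟨(volume B).toReal / (2 * s * C), by positivity, ?_⟩
  have hev : ∀ᶠ k : ℕ in atTop, 1 / ((k : ℝ) + 1) ≤ η := by
    have := (tendsto_one_div_add_atTop_nhds_zero_nat (𝕜 := ℝ)).eventually (Iio_mem_nhds hη)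
    filter_upwards [this] with k hk
    exact le_of_lt hk
  filter_upwards [hev] with k hk
  set ε : ℝ := 1 / ((k : ℝ) + 1) with hε
  have hε0 : 0 < ε := by rw [hε]; positivity
  set h : E n → ℝ := Feps D ε with hh
  have hh1 : ContDiff ℝ 1 h := (Feps_smooth D ε).of_le (by simp)
  have hDc : Continuous (G.D h) := rd_D_cont G hh1
  set g : E n → ℝ := fun y => ‖G.D h y‖ * G.w y with hg
  have hgc : Continuous g := hDc.norm.mul G.w_smooth.continuous
  have hg0 : ∀ y, 0 ≤ g y := fun y => mul_nonneg (norm_nonneg _) (G.w_pos y).le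
  have hfc : Continuous fun y => fderiv ℝ h y ν :=
    (hh1.continuous_fderiv one_ne_zero).clm_apply continuous_const
  -- points of the ball
  have hin : ∀ x ∈ B, ∀ t ∈ Icc (0 : ℝ) (2 * s), x + t • ν ∈ ball p δ := by
    intro x hx t ht
    have h1 : x + t • ν - p = (x - (p - s • ν)) + (t - s) • ν := by
      rw [sub_smul]; abel
    rw [mem_ball, dist_eq_norm, h1]
    have h2 : ‖x - (p - s • ν)‖ < r := by rw [← dist_eq_norm]; exact hx
    have h3 : ‖(t - s) • ν‖ ≤ s := by
      rw [norm_smul, hν, mul_one, Real.norm_eq_abs, abs_le]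
      constructor <;> linarith [ht.1, ht.2]
    calc _ ≤ ‖x - (p - s • ν)‖ + ‖(t - s) • ν‖ := norm_add_le _ _
      _ < r + s := by linarith
      _ ≤ δ := hrs
  -- one segment
  have hseg : ∀ x ∈ B, (1 : ℝ≥0∞) ≤ ∫⁻ t in Icc (0 : ℝ) (2 * s),
      ENNReal.ofReal (C * g (x + t • ν)) := by
    intro x hx
    have h0 : h x = 0 := Feps_eq_zero D hε0 (by
      intro hx'
      have h1 : D.ρ x < 0 := hx'
      exact absurd (hB x hx).1 (by linarith))
    have h1 : h (x + (2 * s) • ν) = 1 := by
      apply Real.smoothTransition.one_of_one_le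
      rw [le_div_iff₀ hε0]
      have := (hB x hx).2
      linarith
    have hder : ∀ t : ℝ, HasDerivAt (fun t : ℝ => h (x + t • ν)) (fderiv ℝ h (x + t • ν) ν) t := by
      intro t
      have h2 : HasFDerivAt h (fderiv ℝ h (x + t • ν)) (x + t • ν) :=
        (hh1.differentiable one_ne_zero _).hasFDerivAt
      have h3 : HasDerivAt (fun t : ℝ => x + t • ν) ν t := by
        have := ((hasDerivAt_id t).smul_const ν).const_add x
        simpa using this
      exact h2.comp_hasDerivAt t h3
    have hcl : Continuous fun t : ℝ => fderiv ℝ h (x + t • ν) ν :=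
      hfc.comp (continuous_const.add (continuous_id.smul continuous_const))
    have hcg : Continuous fun t : ℝ => C * g (x + t • ν) :=
      continuous_const.mul (hgc.comp (continuous_const.add (continuous_id.smul continuous_const)))
    have h4 : ∫ t in (0 : ℝ)..(2 * s), fderiv ℝ h (x + t • ν) ν = 1 := by
      rw [intervalIntegral.integral_eq_sub_of_hasDerivAt (fun t _ => hder t)
        (hcl.intervalIntegrable _ _), zero_smul, add_zero, h0, h1, sub_zero]
    have h5 : (1 : ℝ) ≤ ∫ t in Icc (0 : ℝ) (2 * s), C * g (x + t • ν) := by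
      rw [integral_Icc_eq_integral_Ioc, ← intervalIntegral.integral_of_le (by linarith), ← h4]
      refine intervalIntegral.integral_mono_on (by linarith) (hcl.intervalIntegrable _ _)
        (hcg.intervalIntegrable _ _) fun t ht => ?_
      exact (le_abs_self _).trans (hCb _ (ball_subset_closedBall (hin x hx t ht)) h)
    have h6 : ENNReal.ofReal (∫ t in Icc (0 : ℝ) (2 * s), C * g (x + t • ν)) =
        ∫⁻ t in Icc (0 : ℝ) (2 * s), ENNReal.ofReal (C * g (x + t • ν)) :=
      ofReal_integral_eq_lintegral_ofReal (hcg.continuousOn.integrableOn_Icc)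
        (Eventually.of_forall fun t => mul_nonneg hC.le (hg0 _))
    rw [← h6]
    exact ENNReal.one_le_ofReal.2 h5
  have hmB : MeasurableSet B := isOpen_ball.measurableSet
  have h8 : (volume B).toReal ≤ 2 * s * ∫ y in ball p δ, C * g y :=
    rd_segments (g := fun y => C * g y) (continuous_const.mul hgc)
      (fun y => mul_nonneg hC.le (hg0 y)) hmB hs hin hseg
  rw [integral_const_mul] at h8
  have h9 : (volume B).toReal / (2 * s * C) ≤ ∫ y in ball p δ, g y := by
    rw [div_le_iff₀ (by positivity)]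
    linarith
  refine h9.trans ?_
  rw [← rd_ball_vol G (fun y => ‖G.D h y‖) p δ]
  exact setIntegral_mono_set (rd_D_integrable G hh1 (Feps_compact D hε0)).integrableOn
    (Eventually.of_forall fun y => norm_nonneg _) (HasSubset.Subset.eventuallyLE hδU)

theorem rd_seq : Tendsto (fun k : ℕ => 1 / ((k : ℝ) + 1)) atTop (𝓝[>] 0) := by
  rw [tendsto_nhdsWithin_iff]
  exact ⟨tendsto_one_div_add_atTop_nhds_zero_nat, Eventually.of_forall fun k => by
    show (0 : ℝ) < 1 / ((k : ℝ) + 1)
    positivity⟩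

/-- PROOF: coarea_limsup as in Limit.lean (`isop_of_liminf`, `isop_of_functional`). -/
theorem feps_per (M : RiemMetric n) (e : Fin n → E n → E n) (he : TriangularFrame M e)
    (hs : SecLE M 0) (F : GFlow M.g) (hn : 2 ≤ n) (D : SmoothDomain n) {A : ℝ} (hA0 : 0 ≤ A)
    (hA : riemArea M D ≤ ENNReal.ofReal A) :
    ∀ δ > 0, ∀ᶠ k : ℕ in atTop, (toGeo M e he hs F).per (Feps D (1 / (k + 1))) ≤ A + δ := by
  intro δ hδ
  have h1 := rd_seq.eventually (Feps_area M e he D hδ)
  filter_upwards [h1] with k hk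
  have hF1 : ContDiff ℝ 1 (Feps D (1 / (k + 1))) := (Feps_smooth D _).of_le (by simp)
  have hnn : ∀ x, 0 ≤ covNorm M x (fderiv ℝ (Feps D (1 / (k + 1))) x) * volDensity M x := fun x =>
    mul_nonneg (covNorm_nonneg M e he x _) (volDensity_gt M e he x).le
  have hc : Continuous fun x =>
      covNorm M x (fderiv ℝ (Feps D (1 / (k + 1))) x) * volDensity M x :=
    (covNorm_fderiv_continuous M e he hF1).mul (volDensity_smooth M e he).continuous
  unfold TP.Geo.per
  rw [integral_vol he hs F]
  simp only [norm_D_eq he hs F]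
  rw [integral_eq_lintegral_of_nonneg_ae (Eventually.of_forall hnn) hc.aestronglyMeasurable]
  refine ENNReal.toReal_le_of_le_ofReal (by positivity) ?_
  rw [ENNReal.ofReal_add hA0 hδ.le]
  exact hk.trans (by gcongr)

theorem feps_vol (M : RiemMetric n) (e : Fin n → E n → E n) (he : TriangularFrame M e)
    (hs : SecLE M 0) (F : GFlow M.g) (hn : 2 ≤ n) (D : SmoothDomain n) {V : ℝ} (hV0 : 0 ≤ V)
    (hV : riemVol M D.carrier = ENNReal.ofReal V) :
    Tendsto (fun k : ℕ => (toGeo M e he hs F).vp (Feps D (1 / (k + 1)))) atTop (𝓝 V) ∧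
    ∀ δ > 0, ∀ᶠ k : ℕ in atTop, (toGeo M e he hs F).vol.real
      {x | 0 < Feps D (1 / (k + 1)) x ∧ Feps D (1 / (k + 1)) x < 1} < δ := by
  have hmeas : MeasurableSet D.carrier :=
    (isOpen_lt D.smooth.continuous continuous_const).measurableSet
  have hvc := (volDensity_smooth M e he).continuous
  have hint : IntegrableOn (volDensity M) D.carrier :=
    (hvc.continuousOn.integrableOn_compact D.bdd.isCompact_closure).mono_set subset_closure
  have hVeq : V = ∫ x in D.carrier, volDensity M x := by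
    rw [riemVol_eq M e he] at hV
    exact (ENNReal.ofReal_eq_ofReal_iff (integral_nonneg fun x =>
      (volDensity_gt M e he x).le) hV0).1 hV |>.symm
  have hε : ∀ k : ℕ, 0 < 1 / ((k : ℝ) + 1) := fun k => by positivity
  have hpt : ∀ x, Tendsto (fun k : ℕ => Feps D (1 / (k + 1)) x) atTop
      (𝓝 (D.carrier.indicator (fun _ => 1) x)) := fun x => (Feps_tendsto D x).comp rd_seq
  constructor
  · rw [hVeq, ← integral_indicator hmeas]
    unfold TP.Geo.vp
    simp only [integral_vol he hs F]
    set a : ℝ := (n : ℝ) / (n - 1) with ha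
    have ha0 : 0 < a := by
      have : (2 : ℝ) ≤ n := by exact_mod_cast hn
      rw [ha]
      exact div_pos (by linarith) (by linarith)
    refine tendsto_integral_filter_of_dominated_convergence
      (D.carrier.indicator (volDensity M)) ?_ ?_ (hint.integrable_indicator hmeas) ?_
    · filter_upwards with k
      exact (((Feps_smooth D _).continuous.rpow_const fun x => Or.inr ha0.le).mul
        hvc).aestronglyMeasurable
    · filter_upwards with k
      filter_upwards with x
      have hv := volDensity_gt M e he x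
      by_cases hx : x ∈ D.carrier
      · rw [indicator_of_mem hx, Real.norm_eq_abs, abs_of_nonneg
          (mul_nonneg (Real.rpow_nonneg (Feps_nonneg D _ x) _) hv.le)]
        have := Real.rpow_le_one (Feps_nonneg D (1 / (k + 1)) x) (Feps_le_one D _ x) ha0.le
        nlinarith
      · rw [indicator_of_notMem hx, Feps_eq_zero D (hε k) hx, Real.zero_rpow ha0.ne']
        simp
    · filter_upwards with x
      have h1 := ((hpt x).rpow_const (p := a) (Or.inr ha0.le)).mul_const (volDensity M x)
      have h2 : (D.carrier.indicator (fun _ => (1 : ℝ)) x) ^ a * volDensity M x =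
          D.carrier.indicator (volDensity M) x := by
        by_cases hx : x ∈ D.carrier
        · rw [indicator_of_mem hx, indicator_of_mem hx, Real.one_rpow, one_mul]
        · rw [indicator_of_notMem hx, indicator_of_notMem hx, Real.zero_rpow ha0.ne', zero_mul]
      rwa [h2] at h1
  · intro δ hδ
    set μ := (toGeo M e he hs F).vol with hμ
    set S : ℕ → Set (E n) := fun k =>
      {x | 0 < Feps D (1 / (k + 1)) x ∧ Feps D (1 / (k + 1)) x < 1} with hS
    have hSm : ∀ k, MeasurableSet (S k) := fun k =>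
      (isOpen_lt continuous_const (Feps_smooth D _).continuous).measurableSet.inter
        (isOpen_lt (Feps_smooth D _).continuous continuous_const).measurableSet
    have hμD : μ D.carrier < ⊤ :=
      (measure_mono subset_closure).trans_lt
        ((toGeo M e he hs F).vol_compact_lt_top D.bdd.isCompact_closure)
    have hSD : ∀ k, S k ⊆ D.carrier := by
      intro k x hx
      by_contra h
      have := hx.1
      rw [Feps_eq_zero D (hε k) h] at this
      exact lt_irrefl _ this
    have hlim : Tendsto (fun k => ∫ x in D.carrier, (S k).indicator (fun _ => (1 : ℝ)) x ∂μ) atTop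
        (𝓝 (∫ x in D.carrier, (0 : ℝ) ∂μ)) := by
      refine tendsto_integral_filter_of_dominated_convergence (fun _ => (1 : ℝ)) ?_ ?_ ?_ ?_
      · filter_upwards with k
        exact (measurable_const.indicator (hSm k)).aestronglyMeasurable
      · filter_upwards with k
        filter_upwards with x
        by_cases hx : x ∈ S k
        · rw [indicator_of_mem hx]; simp
        · rw [indicator_of_notMem hx]; simp
      · exact integrableOn_const hμD.ne
      · rw [ae_restrict_iff' hmeas]
        filter_upwards with x hx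
        apply tendsto_const_nhds.congr'
        have hρ : D.ρ x < 0 := hx
        have h1 : ∀ᶠ k : ℕ in atTop, 1 / ((k : ℝ) + 1) < -D.ρ x :=
          tendsto_one_div_add_atTop_nhds_zero_nat.eventually (gt_mem_nhds (by linarith))
        filter_upwards [h1] with k hk
        rw [indicator_of_notMem]
        intro hxS
        have h2 : Feps D (1 / (k + 1)) x = 1 := by
          apply Real.smoothTransition.one_of_one_le
          rw [le_div_iff₀ (hε k)]
          linarith
        exact absurd hxS.2 (by rw [h2]; exact lt_irrefl _)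
    have heq : ∀ k, ∫ x in D.carrier, (S k).indicator (fun _ => (1 : ℝ)) x ∂μ = μ.real (S k) := by
      intro k
      rw [integral_indicator (hSm k), Measure.restrict_restrict (hSm k),
        inter_eq_self_of_subset_left (hSD k)]
      simp
    simp only [heq, integral_zero] at hlim
    exact hlim.eventually (gt_mem_nhds hδ)

/-- The frontier of a smooth domain is its boundary. -/
theorem frontier_carrier (D : SmoothDomain n) : frontier D.carrier = {x | D.ρ x = 0} ∩
    closure D.carrier := by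
  have ho : IsOpen D.carrier := isOpen_lt D.smooth.continuous continuous_const
  rw [ho.frontier_eq]
  ext x
  constructor
  · rintro ⟨h1, h2⟩
    refine ⟨le_antisymm ?_ (not_lt.1 h2), h1⟩
    have h3 : closure D.carrier ⊆ {x | D.ρ x ≤ 0} :=
      closure_minimal (fun y (hy : D.ρ y < 0) => show D.ρ y ≤ 0 from hy.le)
        (isClosed_le D.smooth.continuous continuous_const)
    exact h3 h1
  · rintro ⟨h1, h2⟩
    refine ⟨h2, fun h3 => ?_⟩
    have h4 : D.ρ x < 0 := h3
    rw [show D.ρ x = 0 from h1] at h4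
    exact lt_irrefl _ h4

end Vale.Agent.P219.CH
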