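import Vale.Agent.P219.TPR.RigDomain
import Vale.Agent.P219.TP.Moments

/-! # Equality case for domains: the final step -/

open MeasureTheory Set Metric Filter Topology
open scoped ENNReal ContDiff

noncomputable section

namespace Vale.Agent.P219.CH

variable {n : ℕ}

theorem modelVol_flat (hn : 1 ≤ n) (r : ℝ) : modelVol n 0 r = TP.Geo.om n * r ^ n := by
  unfold modelVol
  rw [om_eq]
  have h1 : ∀ t : ℝ, sn √(-0) t = t := by intro t; simp [sn]
  simp only [h1, integral_pow]
  have h2 : n - 1 + 1 = n := by omega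
  have h3 : ((n - 1 : ℕ) : ℝ) + 1 = n := by
    have : ((n - 1 + 1 : ℕ) : ℝ) = n := by rw [h2]
    rw [← this]
    push_cast
    ring
  have h4 : (n : ℝ) ≠ 0 := by
    have : (1 : ℝ) ≤ n := by exact_mod_cast hn
    linarith
  rw [h2, h3, zero_pow (by omega)]
  field_simp
  ring

theorem modelArea_flat (hn : 1 ≤ n) (r : ℝ) : modelArea n 0 r = TP.sig n * r ^ (n - 1) := by
  unfold modelArea
  rw [TP.sig_eq hn, om_eq]
  have h1 : sn √(-0) r = r := by simp [sn]
  rw [h1]

/-- Equality case of the isoperimetric inequality (`K = 0`). -/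
theorem equality_flat' (hn : 2 ≤ n) (C : TP.CertR n) (M : RiemMetric n) (hc : GeoComplete M.g)
    (hs : SecLE M 0) (D : SmoothDomain n) {r : ℝ} (hr : 0 < r)
    (hV : riemVol M D.carrier = ENNReal.ofReal (modelVol n 0 r))
    (hA : riemArea M D ≤ ENNReal.ofReal (modelArea n 0 r)) :
    ∃ φ : E n → E n, ContDiff ℝ ∞ φ ∧ InjOn φ (ball 0 r) ∧ φ '' ball 0 r = D.carrier ∧
      ∀ x ∈ ball (0 : E n) r, ∀ u v, M.g (φ x) (fderiv ℝ φ x u) (fderiv ℝ φ x v) = inner ℝ u v := by
  obtain ⟨e, he⟩ := exists_triangularFrame M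
  obtain ⟨F⟩ := exists_gflow (isMetricOn M) hc
  have hn1 : 1 ≤ n := by omega
  have hom : 0 < TP.Geo.om n := by
    have h1 := TP.sig_pos hn1
    rw [TP.sig_eq hn1] at h1
    have h2 : (0 : ℝ) < n := by
      have : (1 : ℝ) ≤ n := by exact_mod_cast hn1
      linarith
    exact (mul_pos_iff_of_pos_left h2).1 h1
  rw [modelVol_flat hn1] at hV
  rw [modelArea_flat hn1] at hA
  have hVpos : 0 < TP.Geo.om n * r ^ n := by positivity
  have : Nonempty (Fin n) := ⟨⟨0, by omega⟩⟩
  have hopen : IsOpen D.carrier := isOpen_lt D.smooth.continuous continuous_const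
  have hne : D.carrier.Nonempty := by
    rw [nonempty_iff_ne_empty]
    intro h0
    rw [h0] at hV
    unfold riemVol at hV
    rw [Measure.restrict_empty, lintegral_zero_measure] at hV
    have := ENNReal.ofReal_pos.2 hVpos
    rw [← hV] at this
    exact lt_irrefl _ this
  have hcomp : IsCompact (closure D.carrier) := D.bdd.isCompact_closure
  set G := toGeo M e he hs F with hG
  have hlg : Continuous fun x => ‖G.lg 0 x‖ :=
    (G.lg_smooth.continuous.comp (continuous_const.prodMk continuous_id)).norm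
  obtain ⟨B, hB⟩ := (hcomp.image hlg).isBounded.subset_closedBall 0
  have hB' : ∀ x ∈ D.carrier, ‖G.lg 0 x‖ ≤ max B 1 := by
    intro x hx
    have h1 := hB ⟨x, subset_closure hx, rfl⟩
    rw [mem_closedBall, dist_zero_right, Real.norm_eq_abs, abs_of_nonneg (norm_nonneg _)] at h1
    exact h1.trans (le_max_left _ _)
  have hρ₀ : 0 < max B 1 := lt_of_lt_of_le one_pos (le_max_right _ _)
  have heps : ∀ k : ℕ, (0 : ℝ) < 1 / ((k : ℝ) + 1) := fun k => by positivity
  have hcls : ∀ k : ℕ, G.Cls 0 (max B 1) (Feps D (1 / ((k : ℝ) + 1))) := by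
    intro k
    refine ⟨(Feps_smooth D _).of_le (by simp), Feps_nonneg D _, Feps_le_one D _, ?_⟩
    intro x hx
    apply hB'
    by_contra hx'
    exact hx (Feps_eq_zero D (heps k) hx')
  have hsig := TP.sig_pos hn1
  have hper := feps_per M e he hs F hn D (by positivity) hA
  obtain ⟨hvp, hlay⟩ := feps_vol M e he hs F hn D hVpos.le hV
  have hρ : ∀ q ∈ frontier D.carrier, D.ρ q = 0 := by
    intro q hq
    rw [frontier_carrier] at hq
    exact hq.1
  obtain ⟨p, hp⟩ : (frontier D.carrier).Nonempty := by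
    rw [nonempty_frontier_iff]
    refine ⟨hne, ?_⟩
    intro hu
    have h1 := D.bdd
    have h2 : {x | D.ρ x < 0} = univ := hu
    rw [h2] at h1
    exact NormedSpace.unbounded_univ ℝ (E n) h1
  have hN : ∀ q ∈ frontier D.carrier, ContinuousAt (nrm G D.ρ) q ∧
      ∀ᶠ y in 𝓝 q, ‖nrm G D.ρ y‖ = 1 := fun q hq => nrm_norm G D (hρ q hq)
  have hfr : ∀ q ∈ frontier D.carrier, q ≠ p →
      2 * r * inner ℝ (G.lg p q) (nrm G D.ρ p) = ‖G.lg p q‖ ^ 2 ∧
        |(G.T p (G.lg p q)).det| = 1 := by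
    intro q hq hqp
    have hmem : ∀ x ∈ ({p, q} : Set (E n)), x ∈ frontier D.carrier := by
      rintro x (rfl | rfl)
      · exact hp
      · exact hq
    have key := TP.rig_pair G hn C hρ₀ hr (h := fun k : ℕ => Feps D (1 / ((k : ℝ) + 1))) hcls
      hper (fun δ hδ => hlay δ hδ) hvp (N := nrm G D.ρ) hqp.symm (hN p hp).1 (hN q hq).1
      (fun x hx => ((hN x (hmem x hx)).2).mono fun y hy => ⟨hy, fun k => D_feps G D (heps k) y⟩)
      (fun x hx U hU => feps_lower G hn1 D (hρ x (hmem x hx)) hU)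
    exact ⟨key.1, key.2.2⟩
  have hNp : ‖nrm G D.ρ p‖ = 1 := (hN p hp).2.self_of_nhds
  obtain ⟨hball, hT⟩ := TP.flat_ball G hn hopen D.bdd hne hr hNp hfr
  set v₀ : E n := r • nrm G D.ρ p with hv₀
  have hexs : ContDiff ℝ ∞ (G.ex p) :=
    G.ex_smooth.comp (contDiff_const.prodMk contDiff_id)
  have himg : (fun x : E n => x + v₀) '' ball 0 r = ball v₀ r := by
    ext y
    constructor
    · rintro ⟨x, hx, rfl⟩
      rw [mem_ball, dist_eq_norm] at hx ⊢
      simpa using hx
    · intro hy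
      refine ⟨y - v₀, ?_, by simp⟩
      rw [mem_ball, dist_eq_norm] at hy ⊢
      simpa using hy
  refine ⟨fun x => G.ex p (x + v₀), hexs.comp (contDiff_id.add contDiff_const), ?_, ?_, ?_⟩
  · intro x _ y _ hxy
    have h1 := congrArg (G.lg p) hxy
    simp only [G.lg_ex] at h1
    exact add_right_cancel h1
  · rw [hball, ← himg, image_image]
  · intro x hx u v
    have hxv : x + v₀ ∈ ball v₀ r := by
      rw [← himg]
      exact ⟨x, hx, rfl⟩
    have hfd : ∀ u, fderiv ℝ (fun x => G.ex p (x + v₀)) x u =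
        frA e (G.ex p (x + v₀)) (G.T p (x + v₀) u) := by
      intro u
      rw [fderiv_comp_add_right]
      exact (G.T_spec p (x + v₀) u).symm
    rw [hfd, hfd]
    have h1 : M.g (G.ex p (x + v₀)) (frA e (G.ex p (x + v₀)) (G.T p (x + v₀) u))
        (frA e (G.ex p (x + v₀)) (G.T p (x + v₀) v)) =
        inner ℝ (G.T p (x + v₀) u) (G.T p (x + v₀) v) := g_frA he _ _ _
    refine h1.trans ?_
    let L : E n →ₗᵢ[ℝ] E n := ⟨(G.T p (x + v₀)).toLinearMap, hT (x + v₀) hxv⟩
    exact L.inner_map_map u v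

end Vale.Agent.P219.CH
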