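import Vale.Agent.P219.CoIso
import Vale.Agent.P219.TPR.RigFlat
import Vale.Agent.P219.CH.CoFinal

/-! # Equality case, coordinate definitions -/

open MeasureTheory Set Metric Filter Topology
open scoped ENNReal ContDiff

namespace Vale.Agent.P219.Co

theorem ball_eq_co {n : ℕ} {r : ℝ} (hr : 0 < r) :
    {x : E n | ∑ i, x i ^ 2 < r ^ 2} = ball 0 r := by
  ext x
  rw [mem_ball, dist_zero_right, EuclideanSpace.norm_eq, Real.sqrt_lt' hr]
  simp

/-- Equality case from a certificate, coordinate definitions. -/
theorem equality_of_cert {n : ℕ} (hn : 2 ≤ n) (C : TP.CertR n) (M : RiemMetric n)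
    (hc : GeodesicallyComplete M) (hs : SecLE M 0) (D : SmoothDomain n) (r : ℝ) (hr : 0 ≤ r)
    (hV : riemVol M D.carrier = ENNReal.ofReal (modelVol n 0 r))
    (hA : riemArea M D = ENNReal.ofReal (modelArea n 0 r)) : IsometricToBall M D r := by
  obtain ⟨e, he⟩ := CH.exists_triangularFrame (old M)
  rcases hr.eq_or_lt with rfl | hr0
  · -- radius zero
    have hempty : {x : E n | ∑ i, x i ^ 2 < (0 : ℝ) ^ 2} = ∅ := by
      ext x
      simp only [mem_ofPred_eq, mem_empty_iff_false, iff_false, not_lt]
      have : 0 ≤ ∑ i, x i ^ 2 := Finset.sum_nonneg fun i _ => sq_nonneg _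
      simpa using this
    have hcar : D.carrier = ∅ := by
      rw [← modelVol_old, modelVol_zero, ENNReal.ofReal_zero, ← riemVol_old] at hV
      unfold Vale.Agent.P219.riemVol at hV
      have hopen : IsOpen D.carrier := isOpen_lt D.smooth.continuous continuous_const
      rw [lintegral_eq_zero_iff] at hV
      · by_contra hne
        have hpos : 0 < volume D.carrier := hopen.measure_pos _ (nonempty_iff_ne_empty.2 hne)
        have h1 : ∀ᵐ x ∂(volume.restrict D.carrier), False := by
          filter_upwards [hV] with x hx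
          have h2 := volDensity_gt (old M) e he x
          simp only [Pi.zero_apply, ENNReal.ofReal_eq_zero] at hx
          linarith
        rw [Filter.eventually_false_iff_eq_bot, ae_eq_bot, Measure.restrict_eq_zero] at h1
        exact hpos.ne' h1
      · exact (volDensity_smooth (old M) e he).continuous.measurable.ennreal_ofReal
    refine ⟨id, fun k => ?_, ?_, ?_, ?_⟩
    · exact (EuclideanSpace.proj k : E n →L[ℝ] ℝ).contDiff
    · rw [hempty]; exact Set.injOn_empty _
    · rw [hempty, image_empty, hcar]
    · intro x hx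
      have : x ∈ {x : E n | ∑ i, x i ^ 2 < (0 : ℝ) ^ 2} := hx
      rw [hempty] at this
      exact this.elim
  · have hV' : Vale.Agent.P219.riemVol (old M) (oldDomain D).carrier =
        ENNReal.ofReal (Vale.Agent.P219.modelVol n 0 r) := by
      rw [riemVol_old, modelVol_old]
      exact hV
    have hA' : Vale.Agent.P219.riemArea (old M) (oldDomain D) ≤
        ENNReal.ofReal (Vale.Agent.P219.modelArea n 0 r) := by
      rw [riemArea_old (frame_of_old he), modelArea_old]
      exact hA.le
    obtain ⟨φ, h1, h2, h3, h4⟩ := CH.equality_flat' hn C (old M) (geoComplete_old hc)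
      (secLE_old_of_frame ⟨e, he⟩ hs) (oldDomain D) hr0 hV' hA'
    have hφk : ∀ k, ContDiff ℝ ∞ fun x => φ x k := fun k =>
      (EuclideanSpace.proj k : E n →L[ℝ] ℝ).contDiff.comp h1
    refine ⟨φ, hφk, ?_, ?_, ?_⟩
    · rw [ball_eq_co hr0]; exact h2
    · rw [ball_eq_co hr0]; exact h3
    · intro x hx i j
      have hx' : x ∈ ball (0 : E n) r := by rw [← ball_eq_co hr0]; exact hx
      have h5 := h4 x hx' (basisVec i) (basisVec j)
      rw [old_apply] at h5
      have hpd : ∀ (i k : Fin n), pd i (fun y => φ y k) x =
          (fderiv ℝ φ x (basisVec i)) k := by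
        intro i k
        rw [pd_eq ((hφk k).differentiable (by simp) x)]
        have h6 : HasFDerivAt (fun y => φ y k)
            ((EuclideanSpace.proj k : E n →L[ℝ] ℝ).comp (fderiv ℝ φ x)) x :=
          (EuclideanSpace.proj k : E n →L[ℝ] ℝ).hasFDerivAt.comp x
            (h1.differentiable (by simp) x).hasFDerivAt
        rw [h6.fderiv]
        rfl
      have h7 : ∑ k, ∑ l, M.g (φ x) k l * pd i (fun y => φ y k) x * pd j (fun y => φ y l) x =
          dotProduct (fderiv ℝ φ x (basisVec i)).ofLp
            (Matrix.mulVec (M.g (φ x)) (fderiv ℝ φ x (basisVec j)).ofLp) := by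
        simp only [hpd, dotProduct, Matrix.mulVec, Finset.mul_sum]
        refine Finset.sum_congr rfl fun k _ => Finset.sum_congr rfl fun l _ => ?_
        ring
      rw [h7, h5]
      simp [basisVec, EuclideanSpace.inner_single_left, PiLp.single_apply]

end Vale.Agent.P219.Co
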