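import Vale.Agent.P219.TPR.CertR
import Vale.Agent.P219.TP.CertEight

set_option linter.all false

/-! # The certificate with strictness in dimension 8 -/

open MeasureTheory Set Metric Filter Topology
open scoped ENNReal ContDiff

namespace Vale.Agent.P219.TP

theorem quad_pos' {A B C x : ℝ} (hA : 0 < A) (h : B ^ 2 < 4 * A * C) :
    0 < A * x ^ 2 + B * x + C := by
  have h1 : 0 < 4 * A * (A * x ^ 2 + B * x + C) := by
    have : 4 * A * (A * x ^ 2 + B * x + C) = (2 * A * x + B) ^ 2 + (4 * A * C - B ^ 2) := by ring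
    rw [this]
    have := sq_nonneg (2 * A * x + B)
    linarith
  exact pos_of_mul_pos_right h1 (by positivity)

/-- A cubic which is strictly concave between `p₀` and `p₁` and nonnegative at the end points
vanishes only at the end points. -/
theorem cubic_interp_pos {g0 g1 g2 g3 p p0 p1 : ℝ} (h0 : p0 < p) (h1 : p < p1)
    (hc : g2 + g3 * (p + p0 + p1) < 0)
    (e0 : 0 ≤ g0 + g1 * p0 + g2 * p0 ^ 2 + g3 * p0 ^ 3)
    (e1 : 0 ≤ g0 + g1 * p1 + g2 * p1 ^ 2 + g3 * p1 ^ 3) :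
    0 < g0 + g1 * p + g2 * p ^ 2 + g3 * p ^ 3 := by
  have key : (p1 - p0) * (g0 + g1 * p + g2 * p ^ 2 + g3 * p ^ 3) =
      (p1 - p) * (g0 + g1 * p0 + g2 * p0 ^ 2 + g3 * p0 ^ 3) +
      (p - p0) * (g0 + g1 * p1 + g2 * p1 ^ 2 + g3 * p1 ^ 3) +
      (p - p0) * (p1 - p) * (p1 - p0) * (-(g2 + g3 * (p + p0 + p1))) := by ring
  have a1 : 0 < p1 - p := by linarith
  have a2 : 0 < p - p0 := by linarith
  have a3 : 0 < p1 - p0 := by linarith
  have a4 : 0 < -(g2 + g3 * (p + p0 + p1)) := by linarith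
  have h2 : 0 < (p1 - p0) * (g0 + g1 * p + g2 * p ^ 2 + g3 * p ^ 3) := by
    rw [key]
    have b1 : 0 ≤ (p1 - p) * (g0 + g1 * p0 + g2 * p0 ^ 2 + g3 * p0 ^ 3) :=
      mul_nonneg a1.le e0
    have b2 : 0 ≤ (p - p0) * (g0 + g1 * p1 + g2 * p1 ^ 2 + g3 * p1 ^ 3) :=
      mul_nonneg a2.le e1
    have b3 : 0 < (p - p0) * (p1 - p) * (p1 - p0) * (-(g2 + g3 * (p + p0 + p1))) := by
      positivity
    linarith
  exact pos_of_mul_pos_right h2 a3.le

/-- A cubic which is concave between `p₀` and `p₁` and positive at the end points is positive. -/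
theorem cubic_interp' {g0 g1 g2 g3 p p0 p1 : ℝ} (h0 : p0 ≤ p) (h1 : p ≤ p1)
    (hc : g2 + g3 * (p + p0 + p1) ≤ 0)
    (e0 : 0 < g0 + g1 * p0 + g2 * p0 ^ 2 + g3 * p0 ^ 3)
    (e1 : 0 < g0 + g1 * p1 + g2 * p1 ^ 2 + g3 * p1 ^ 3) :
    0 < g0 + g1 * p + g2 * p ^ 2 + g3 * p ^ 3 := by
  rcases eq_or_lt_of_le (h0.trans h1) with h | h
  · have : p = p0 := le_antisymm (h ▸ h1) h0
    rw [this]; exact e0
  · have key : (p1 - p0) * (g0 + g1 * p + g2 * p ^ 2 + g3 * p ^ 3) =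
        (p1 - p) * (g0 + g1 * p0 + g2 * p0 ^ 2 + g3 * p0 ^ 3) +
        (p - p0) * (g0 + g1 * p1 + g2 * p1 ^ 2 + g3 * p1 ^ 3) +
        (p - p0) * (p1 - p) * (p1 - p0) * (-(g2 + g3 * (p + p0 + p1))) := by ring
    have h2 : 0 < (p1 - p0) * (g0 + g1 * p + g2 * p ^ 2 + g3 * p ^ 3) := by
      rw [key]
      have a1 : 0 ≤ p1 - p := by linarith
      have a2 : 0 ≤ p - p0 := by linarith
      have a3 : 0 < p1 - p0 := by linarith
      have a4 : 0 ≤ -(g2 + g3 * (p + p0 + p1)) := by linarith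
      have b3 : 0 ≤ (p - p0) * (p1 - p) * (p1 - p0) * (-(g2 + g3 * (p + p0 + p1))) := by
        positivity
      have b1 : 0 ≤ (p1 - p) * (g0 + g1 * p0 + g2 * p0 ^ 2 + g3 * p0 ^ 3) :=
        mul_nonneg a1 e0.le
      have b2 : 0 ≤ (p - p0) * (g0 + g1 * p1 + g2 * p1 ^ 2 + g3 * p1 ^ 3) :=
        mul_nonneg a2 e1.le
      rcases lt_or_eq_of_le h1 with h' | h'
      · have : 0 < (p1 - p) * (g0 + g1 * p0 + g2 * p0 ^ 2 + g3 * p0 ^ 3) :=
          mul_pos (by linarith) e0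
        linarith
      · have : 0 < (p - p0) * (g0 + g1 * p1 + g2 * p1 ^ 2 + g3 * p1 ^ 3) :=
          mul_pos (by linarith) e1
        linarith
    exact pos_of_mul_pos_right h2 (by linarith)

namespace P8

theorem kS_diag_pos {r c : ℝ} (hc : 0 ≤ c) (hc1 : c ≤ 1) : 0 < kS r (2 * c) (c ^ 2) := by
  have e : kS r (2 * c) (c ^ 2) = 2035 * (r ^ 2 - 133 / 74 * c * r + 3 / 20) ^ 2 +
      ((9229 / 2 - 331787.5 / 74 * c ^ 2) * r ^ 2 + (-46571 / 4 * c + 11396 * c ^ 3) * r +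
        (433137 / 80 - 860 * c ^ 2 - 3256 * c ^ 4)) := by
    unfold kS; ring
  rw [e]
  have hx : 0 ≤ c ^ 2 := sq_nonneg c
  have hx1 : c ^ 2 ≤ 1 := pow_le_one₀ hc hc1
  have h1 : 0 < (9229 / 2 - 331787.5 / 74 * c ^ 2) * r ^ 2 + (-46571 / 4 * c + 11396 * c ^ 3) * r +
        (433137 / 80 - 860 * c ^ 2 - 3256 * c ^ 4) := by
    refine quad_pos' (by nlinarith) ?_
    have e2 : (-46571 / 4 * c + 11396 * c ^ 3) ^ 2 = c ^ 2 * (-46571 / 4 + 11396 * c ^ 2) ^ 2 := by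
      ring
    rw [e2]
    have e3 : c ^ 4 = (c ^ 2) ^ 2 := by ring
    rw [e3]
    generalize c ^ 2 = x at hx hx1
    nlinarith [mul_nonneg hx (sub_nonneg.2 hx1), mul_nonneg hx (mul_nonneg hx (sub_nonneg.2 hx1)),
      mul_nonneg hx (sq_nonneg (1 - x)), sq_nonneg (1 - x), mul_nonneg (sub_nonneg.2 hx1) (sq_nonneg (1 - x))]
  positivity

theorem kS_zero_pos {r a : ℝ} (ha : 0 ≤ a) (ha1 : a ≤ 1) : 0 < kS r a 0 := by
  have e : kS r a 0 = 2035 * (r ^ 2 - 133 / 148 * a * r) ^ 2 +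
      ((5225 + (1045 - 2035 * (133 / 148) ^ 2) * a ^ 2) * r ^ 2 + (-6370 * a) * r +
        (5460 + 1198 * a ^ 2)) := by
    unfold kS; ring
  rw [e]
  have hx1 : a ^ 2 ≤ 1 := pow_le_one₀ ha ha1
  have h1 : 0 < (5225 + (1045 - 2035 * (133 / 148) ^ 2) * a ^ 2) * r ^ 2 + (-6370 * a) * r +
      (5460 + 1198 * a ^ 2) := by
    refine quad_pos' (by nlinarith) ?_
    nlinarith [sq_nonneg a, mul_nonneg (sq_nonneg a) (sub_nonneg.2 hx1)]
  positivity

theorem kS_one_pos {r b : ℝ} (hb : 0 ≤ b) (hb1 : b ≤ 1) : 0 < kS r (1 + b) b := by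
  have e : kS r (1 + b) b = 2035 * (r ^ 2 - 133 / 148 * (1 + b) * r + 3 / 20) ^ 2 +
      ((6270 + 1045 * b ^ 2 - 2035 * (133 / 148 * (1 + b)) ^ 2 - 1221 / 2) * r ^ 2 +
        ((1 + b) * (5698 * b - 6370 + 4389 / 8)) * r +
        (6658 - 1628 * b - 5314 * b ^ 2 + 1628 * b ^ 3 - 2035 * 9 / 400)) := by
    unfold kS; ring
  rw [e]
  have h1 : 0 < (6270 + 1045 * b ^ 2 - 2035 * (133 / 148 * (1 + b)) ^ 2 - 1221 / 2) * r ^ 2 +
        ((1 + b) * (5698 * b - 6370 + 4389 / 8)) * r +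
        (6658 - 1628 * b - 5314 * b ^ 2 + 1628 * b ^ 3 - 2035 * 9 / 400) := by
    refine quad_pos' (by nlinarith) ?_
    nlinarith [mul_nonneg hb (sub_nonneg.2 hb1), mul_nonneg hb (mul_nonneg hb (sub_nonneg.2 hb1)),
      mul_nonneg hb (sq_nonneg (1 - b)), sq_nonneg (1 - b),
      mul_nonneg (sub_nonneg.2 hb1) (sq_nonneg (1 - b)),
      mul_nonneg (mul_nonneg hb hb) (sq_nonneg (1 - b)),
      mul_nonneg (mul_nonneg hb (sub_nonneg.2 hb1)) (sq_nonneg (1 - b)),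
      mul_nonneg (mul_nonneg hb hb) (mul_nonneg hb (sub_nonneg.2 hb1)),
      mul_nonneg (mul_nonneg hb hb) (mul_nonneg hb (sq_nonneg (1 - b)))]
  positivity

theorem kS_pos {r a b : ℝ} (ha : 0 ≤ a) (ha1 : a ≤ 1) (hb : 0 ≤ b) (hb1 : b ≤ 1) :
    0 < kS r (a + b) (a * b) := by
  obtain ⟨h1, h0, h2⟩ := interp_pts ha ha1 hb hb1
  set S := a + b with hS
  set p := a * b with hp
  have hS0 : 0 ≤ S := by positivity
  have hS2 : S ≤ 2 := by linarith
  have form : ∀ p : ℝ, kS r S p = (2035 * r ^ 4 - 7315 / 2 * S * r ^ 3 +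
      1045 * (5 + S ^ 2) * r ^ 2 - 6370 * S * r + 5460 + 1198 * S ^ 2) +
      (-2090 * r ^ 2 + 5698 * S * r - 2396 - 3256 + 1628 * S ^ 2) * p +
      (-9768) * p ^ 2 + 0 * p ^ 3 := by
    intro p; unfold kS; ring
  have e1 : 0 < kS r S ((S / 2) ^ 2) := by
    have := kS_diag_pos (r := r) (c := S / 2) (by positivity) (by linarith)
    rwa [show 2 * (S / 2) = S by ring] at this
  rw [form] at e1 ⊢
  rcases le_or_gt S 1 with hS1 | hS1
  · have e0 : 0 < kS r S 0 := kS_zero_pos hS0 hS1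
    rw [form] at e0
    exact cubic_interp' h0 h1 (by norm_num) e0 e1
  · have e0 : 0 < kS r S (S - 1) := by
      have := kS_one_pos (r := r) (b := S - 1) (by linarith) (by linarith)
      rwa [show 1 + (S - 1) = S by ring] at this
    rw [form] at e0
    exact cubic_interp' h2 h1 (by norm_num) e0 e1

theorem k8_pos_pos' {r a b : ℝ} (ha : 0 ≤ a) (ha1 : a ≤ 1) (hb : 0 ≤ b) (hb1 : b ≤ 1) :
    0 < k8 r a b := by
  have h := kS_pos (r := r) ha ha1 hb hb1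
  have e : k8 r a b = kS r (a + b) (a * b) := by
    unfold k8 kS
    rw [abs_of_nonneg (mul_nonneg ha hb)]
    ring
  rwa [e]

theorem aux_t' {t : ℝ} (ht : 0 ≤ t) (ht1 : t ≤ 1) :
    (t * (12068 - 5698 * t)) ^ 2 < 4 * 4600 * (1344 + 7372 * t - 2058 * t ^ 2) := by
  have h2 : t * (12068 - 5698 * t) ≤ 6370 := by
    have : 0 ≤ (1 - t) * (6370 - 5698 * t) := mul_nonneg (by linarith) (by linarith)
    nlinarith [this]
  have h0 : 0 ≤ t * (12068 - 5698 * t) := by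
    apply mul_nonneg ht; linarith
  have h1 : (t * (12068 - 5698 * t)) ^ 2 ≤ 6370 * (t * (12068 - 5698 * t)) := by
    rw [pow_two]; gcongr
  refine h1.trans_lt ?_
  have h3 : t ^ 2 ≤ t := by nlinarith
  nlinarith [h3]

theorem k8_pos_neg' {r a b : ℝ} (hr : 0 ≤ r) (ha : 0 ≤ a) (ha1 : a ≤ 1) (hb : 0 ≤ b)
    (hb1 : b ≤ 1) : 0 < k8 r a (-b) := by
  have hab : 0 ≤ a * b := mul_nonneg ha hb
  have hab1 : a * b ≤ 1 := mul_le_one₀ ha1 hb hb1
  have e : k8 r a (-b) = 2035 * (r ^ 2 - 133 / 148 * (a - b) * r) ^ 2 +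
      ((5225 + 1045 * (a ^ 2 + b ^ 2) - 2035 * (133 / 148) ^ 2 * (a - b) ^ 2) * r ^ 2 +
        (-(6370 + 5698 * (a * b)) * (a - b)) * r +
        (5460 + 1198 * (a ^ 2 + b ^ 2) - 6512 * (a * b) ^ 2 - 3256 * (a * b) +
          1628 * (a * b) * (a ^ 2 + b ^ 2))) := by
    unfold k8
    rw [show a * -b = -(a * b) by ring, abs_neg, abs_of_nonneg hab]
    ring
  rw [e]
  have hC : 0 < 5460 + 1198 * (a ^ 2 + b ^ 2) - 6512 * (a * b) ^ 2 - 3256 * (a * b) +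
          1628 * (a * b) * (a ^ 2 + b ^ 2) := by
    nlinarith [sq_nonneg (a - b), mul_nonneg hab (sq_nonneg (a - b)), mul_nonneg hab (sub_nonneg.2 hab1)]
  have hA : 0 < 5225 + 1045 * (a ^ 2 + b ^ 2) - 2035 * (133 / 148) ^ 2 * (a - b) ^ 2 := by
    nlinarith [mul_nonneg ha hb, pow_le_one₀ ha ha1 (n := 2), pow_le_one₀ hb hb1 (n := 2)]
  rcases le_or_gt a b with h | h
  · have h1 : 0 ≤ (-(6370 + 5698 * (a * b)) * (a - b)) * r := by
      have : (-(6370 + 5698 * (a * b)) * (a - b)) * r = (6370 + 5698 * (a * b)) * (b - a) * r := by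
        ring
      rw [this]
      have : 0 ≤ b - a := by linarith
      positivity
    have h2 : 0 ≤ (5225 + 1045 * (a ^ 2 + b ^ 2) - 2035 * (133 / 148) ^ 2 * (a - b) ^ 2) * r ^ 2 := by
      positivity
    have h3 : 0 ≤ 2035 * (r ^ 2 - 133 / 148 * (a - b) * r) ^ 2 := by positivity
    linarith
  · have h1 : 0 < (5225 + 1045 * (a ^ 2 + b ^ 2) - 2035 * (133 / 148) ^ 2 * (a - b) ^ 2) * r ^ 2 +
        (-(6370 + 5698 * (a * b)) * (a - b)) * r +
        (5460 + 1198 * (a ^ 2 + b ^ 2) - 6512 * (a * b) ^ 2 - 3256 * (a * b) +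
          1628 * (a * b) * (a ^ 2 + b ^ 2)) := by
      refine quad_pos' hA ?_
      have hpt : a * b ≤ 1 - (a - b) := by nlinarith [mul_nonneg (sub_nonneg.2 ha1) hb]
      have ht : 0 ≤ a - b := by linarith
      have ht1 : a - b ≤ 1 := by linarith
      have e5 : a ^ 2 + b ^ 2 = (a - b) ^ 2 + 2 * (a * b) := by ring
      rw [e5]
      generalize a * b = p at hab hab1 hpt
      generalize a - b = t at hpt ht ht1
      have b1 : (-(6370 + 5698 * p) * t) ^ 2 ≤ (t * (12068 - 5698 * t)) ^ 2 := by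
        have : (-(6370 + 5698 * p) * t) ^ 2 = ((6370 + 5698 * p) * t) ^ 2 := by ring
        rw [this]
        have : (6370 + 5698 * p) * t ≤ t * (12068 - 5698 * t) := by nlinarith
        gcongr
      have b2 : 4600 ≤ 5225 + 1045 * (t ^ 2 + 2 * p) - 2035 * (133 / 148) ^ 2 * t ^ 2 := by
        nlinarith
      have b3 : 1344 + 7372 * t - 2058 * t ^ 2 ≤ 5460 + 1198 * (t ^ 2 + 2 * p) - 6512 * p ^ 2 -
          3256 * p + 1628 * p * (t ^ 2 + 2 * p) := by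
        nlinarith [mul_nonneg hab (sq_nonneg t)]
      have b4 : 0 ≤ 1344 + 7372 * t - 2058 * t ^ 2 := by nlinarith
      have b5 := aux_t' ht ht1
      calc (-(6370 + 5698 * p) * t) ^ 2 < 4 * 4600 * (1344 + 7372 * t - 2058 * t ^ 2) :=
            b1.trans_lt b5
        _ ≤ 4 * (5225 + 1045 * (t ^ 2 + 2 * p) - 2035 * (133 / 148) ^ 2 * t ^ 2) *
          (5460 + 1198 * (t ^ 2 + 2 * p) - 6512 * p ^ 2 -
          3256 * p + 1628 * p * (t ^ 2 + 2 * p)) := by gcongr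
    positivity

theorem k8_neg_neg' {r a b : ℝ} (hr : 0 ≤ r) (ha : 0 ≤ a) (ha1 : a ≤ 1) (hb : 0 ≤ b)
    (hb1 : b ≤ 1) : 0 < k8 r (-a) (-b) := by
  have h := k8_pos_pos' (r := 0) ha ha1 hb hb1
  have hab : 0 ≤ a * b := mul_nonneg ha hb
  have e : k8 r (-a) (-b) = k8 0 a b + (2035 * r ^ 4 + 1045 * ((5 + a ^ 2 + b ^ 2) * r ^ 2 +
      7 / 2 * (a + b) * r ^ 3) + (6370 - 5698 * (a * b)) * (a + b) * r) := by
    unfold k8
    rw [show -a * -b = a * b by ring]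
    ring
  have : 0 ≤ 6370 - 5698 * (a * b) := by
    have : a * b ≤ 1 := mul_le_one₀ ha1 hb hb1
    linarith
  rw [e]
  positivity

theorem k8_pos {r a b : ℝ} (hr : 0 ≤ r) (ha : |a| ≤ 1) (hb : |b| ≤ 1) : 0 < k8 r a b := by
  have hsymm : ∀ a b : ℝ, k8 r a b = k8 r b a := by
    intro a b; unfold k8; rw [mul_comm b a]; ring
  rcases le_total 0 a with h1 | h1 <;> rcases le_total 0 b with h2 | h2
  · rw [abs_of_nonneg h1] at ha
    rw [abs_of_nonneg h2] at hb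
    exact k8_pos_pos' h1 ha h2 hb
  · rw [abs_of_nonneg h1] at ha
    rw [abs_of_nonpos h2] at hb
    have := k8_pos_neg' hr h1 ha (neg_nonneg.2 h2) hb
    rwa [neg_neg] at this
  · rw [abs_of_nonpos h1] at ha
    rw [abs_of_nonneg h2] at hb
    have := k8_pos_neg' hr h2 hb (neg_nonneg.2 h1) ha
    rwa [neg_neg, ← hsymm] at this
  · rw [abs_of_nonpos h1] at ha
    rw [abs_of_nonpos h2] at hb
    have := k8_neg_neg' hr (neg_nonneg.2 h1) ha (neg_nonneg.2 h2) hb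
    rwa [neg_neg, neg_neg] at this

/-! ### Equality case -/

theorem pS_diag_eq {r c : ℝ} (hr : 0 < r) (hc : 0 ≤ c) (hc1 : c ≤ 1)
    (h : pS r (2 * c) (c ^ 2) = 0) : r = 2 * c := by
  have e : pS r (2 * c) (c ^ 2) = (r - 2 * c) ^ 2 * (5460 * (r + 4 * c) +
      (5225 * r ^ 3 + 8160 * c * r ^ 2 + 10880 * c ^ 2 * r + 10880 * c ^ 3) +
      (2035 * r ^ 5 + 825 * c * r ^ 4 - 2750 * c ^ 2 * r ^ 3 - 2904 * c ^ 3 * r ^ 2 -
        3872 * c ^ 4 * r - 3872 * c ^ 5)) := by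
    unfold pS kS; ring
  rw [e] at h
  have hx1 : c ^ 2 ≤ 1 := pow_le_one₀ hc hc1
  have h1 : c ^ 2 * r ^ 3 ≤ 1 * r ^ 3 := by gcongr
  have h2 : c ^ 3 * r ^ 2 ≤ c * r ^ 2 := by
    have : c ^ 3 = c * c ^ 2 := by ring
    rw [this]; nlinarith [mul_nonneg (mul_nonneg hc (sq_nonneg r)) (sub_nonneg.2 hx1)]
  have h3 : c ^ 4 * r ≤ c ^ 2 * r := by
    have : c ^ 4 = c ^ 2 * c ^ 2 := by ring
    rw [this]; nlinarith [mul_nonneg (mul_nonneg (sq_nonneg c) hr.le) (sub_nonneg.2 hx1)]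
  have h4 : c ^ 5 ≤ c ^ 3 := by
    have : c ^ 5 = c ^ 3 * c ^ 2 := by ring
    rw [this]; nlinarith [mul_nonneg (pow_nonneg hc 3) (sub_nonneg.2 hx1)]
  have p1 : 0 ≤ r ^ 3 := by positivity
  have p2 : 0 ≤ c * r ^ 2 := by positivity
  have p3 : 0 ≤ c ^ 2 * r := by positivity
  have p4 : 0 ≤ c ^ 3 := by positivity
  have p5 : 0 ≤ r ^ 5 := by positivity
  have p6 : 0 ≤ c * r ^ 4 := by positivity
  have hpos : 0 < 5460 * (r + 4 * c) +
      (5225 * r ^ 3 + 8160 * c * r ^ 2 + 10880 * c ^ 2 * r + 10880 * c ^ 3) +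
      (2035 * r ^ 5 + 825 * c * r ^ 4 - 2750 * c ^ 2 * r ^ 3 - 2904 * c ^ 3 * r ^ 2 -
        3872 * c ^ 4 * r - 3872 * c ^ 5) := by nlinarith
  have h5 : (r - 2 * c) ^ 2 = 0 := (mul_eq_zero.1 h).resolve_right hpos.ne'
  have h6 := pow_eq_zero_iff (two_ne_zero) |>.1 h5
  linarith

theorem pS_one_lower {r b : ℝ} (hr : 0 ≤ r) (hb : 0 ≤ b) (hb1 : b ≤ 1) :
    42539328 * ((r - 1 - b) ^ 2 * b) + 5232960 * ((r - 2) ^ 2 * b) ≤
      828 * 2 * pS r (1 + b) b := by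
  obtain ⟨y, hy⟩ : ∃ y, y = 1 - b := ⟨_, rfl⟩
  have hy0 : 0 ≤ y := by linarith
  have e : 828 * 2 * pS r (1 + b) b = (42539328 * ((r - 1 - b) ^ 2 * b) +
      5232960 * ((r - 2) ^ 2 * b)) +
      (20647008 * ((r - 1 - b) ^ 2 * r * b) +
      8703936 * ((r - 1 - b) ^ 2 * r ^ 2 * b) +
      8018352 * ((r - 2) ^ 2 * b * y) +
      4161060 * ((r - 2 * b) ^ 2 * r ^ 2 * b * y) +
      4098600 * ((r - 1 - b) ^ 2 * r ^ 3) +
      3949576 * ((r - 2 * b) ^ 2 * r * y) +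
      3861792 * ((r - 2) ^ 2 * b ^ 2 * y ^ 2) +
      3361756 * ((r - 1 - b) ^ 2 * r ^ 5) +
      3281472 * ((r - 1 - b) ^ 2 * r * b * y) +
      3206016 * ((r - 2 * b) ^ 2 * b ^ 3 * y) +
      2870864 * ((r - 2) ^ 2 * r * b ^ 2 * y) +
      2525572 * ((r - 2) ^ 2 * r ^ 2 * b * y) +
      2235600 * ((r - 2 * b) ^ 2 * b ^ 2 * y) +
      2046000 * ((r - 2 * b) ^ 2 * r ^ 3 * y) +
      1655648 * ((r - 1 - b) ^ 2 * r ^ 3 * y) +
      1413576 * ((r - 2) ^ 2 * r * b * y) +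
      1321824 * ((r - 2 * b) ^ 2 * r * y ^ 4) +
      1321824 * ((r - 2 * b) ^ 2 * r * b ^ 3 * y) +
      970416 * ((r - 2) ^ 2 * b ^ 2 * y ^ 3) +
      650284 * ((r - 1 - b) ^ 2 * r ^ 4 * b) +
      611608 * ((r - 2) ^ 2 * r ^ 2 * b ^ 2 * y) +
      554512 * ((r - 2 * b) ^ 2 * r ^ 2 * y) +
      405264 * ((r - 1 - b) ^ 2 * r ^ 4) +
      289556 * ((r - 2 * b) ^ 2 * r ^ 4) +
      210960 * ((r - 2) ^ 2 * r * b ^ 2 * y ^ 3) +
      198232 * ((r - 2) ^ 2 * r ^ 3 * b * y) +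
      59772 * ((r - 2) ^ 2 * r ^ 3 * b * y ^ 2) +
      42192 * ((r - 2 * b) ^ 2 * r ^ 3 * b * y ^ 2) +
      31644 * ((r - 2 * b) ^ 2 * r ^ 2 * b * y ^ 2) +
      17580 * ((r - 1 - b) ^ 2 * r ^ 5 * b * y) +
      14064 * ((r - 2 * b) ^ 2 * r ^ 4 * b ^ 2) +
      10548 * ((r - 2) ^ 2 * r ^ 3 * b * y ^ 4) +
      7032 * ((r - 2 * b) ^ 2 * r ^ 5 * b ^ 2) +
      7032 * ((r - 2) ^ 2 * r ^ 5 * y ^ 2) +
      7032 * ((r - 2 * b) ^ 2 * r ^ 4 * b ^ 3) +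
      3516 * ((r - 2) ^ 2 * r ^ 4 * b * y ^ 4) +
      3516 * (r ^ 6 * y ^ 5) +
      1172 * ((r - 2 * b) ^ 2 * r ^ 5 * b ^ 3) +
      879 * ((r - 2) ^ 2 * r ^ 5 * y ^ 3) +
      293 * ((r - 2 * b) ^ 2 * r ^ 5 * y ^ 3)) := by
    subst hy; unfold pS kS; ring
  rw [e]
  exact le_add_of_nonneg_right (by positivity)

theorem pS_one_eq {r b : ℝ} (hr : 0 ≤ r) (hb : 0 < b) (hb1 : b ≤ 1) (h : pS r (1 + b) b = 0) :
    r = 2 ∧ b = 1 := by
  have h1 := pS_one_lower hr hb.le hb1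
  rw [h, mul_zero] at h1
  have h2 : 0 ≤ (r - 1 - b) ^ 2 * b := by positivity
  have h3 : 0 ≤ (r - 2) ^ 2 * b := by positivity
  have h4 : (r - 1 - b) ^ 2 * b = 0 := by linarith
  have h5 : (r - 2) ^ 2 * b = 0 := by linarith
  have h6 := pow_eq_zero_iff (two_ne_zero) |>.1 ((mul_eq_zero.1 h4).resolve_right hb.ne')
  have h7 := pow_eq_zero_iff (two_ne_zero) |>.1 ((mul_eq_zero.1 h5).resolve_right hb.ne')
  constructor <;> linarith

theorem conc_aux {S r p : ℝ} (hr : 0 < r) (hS1 : 1 < S) (hS2 : S ≤ 2) (hp : S - 1 < p) :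
    -9768 * r ^ 3 - 65280 * S + 38720 * S ^ 3 + -38720 * S * (p + (S - 1) + (S / 2) ^ 2) < 0 := by
  have hr3 : 0 < r ^ 3 := by positivity
  have q1 : 0 ≤ S * (p - (S - 1)) := mul_nonneg (by linarith) (by linarith)
  have q2 : -65280 * S + 38720 * S ^ 3 - 38720 * S * (2 * (S - 1) + (S / 2) ^ 2) ≤ 0 := by
    nlinarith [mul_nonneg (show (0 : ℝ) ≤ S by linarith)
        (mul_nonneg (sub_nonneg.2 hS1.le) (sub_nonneg.2 hS2)),
      mul_nonneg (show (0 : ℝ) ≤ S by linarith) (sq_nonneg (S - 1))]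
  nlinarith [hr3, q1, q2]

theorem conc_aux0 {S r p : ℝ} (hr : 0 < r) (hS0 : 0 < S) (hS1 : S ≤ 1) (hp : 0 < p) :
    -9768 * r ^ 3 - 65280 * S + 38720 * S ^ 3 + -38720 * S * (p + 0 + (S / 2) ^ 2) < 0 := by
  have hr3 : 0 < r ^ 3 := by positivity
  have q1 : S ^ 3 ≤ S := by
    have : S ^ 2 ≤ 1 := pow_le_one₀ hS0.le hS1
    nlinarith [mul_nonneg hS0.le (sub_nonneg.2 this)]
  have q2 : 0 ≤ S * (p + 0 + (S / 2) ^ 2) := by positivity
  linarith

theorem pS_eq {r a b : ℝ} (hr : 0 < r) (ha : 0 < a) (ha1 : a ≤ 1) (hb : 0 < b)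
    (hb1 : b ≤ 1) (h : pS r (a + b) (a * b) = 0) : r = 2 * a ∧ r = 2 * b := by
  obtain ⟨h1, h0, h2⟩ := interp_pts ha.le ha1 hb.le hb1
  have hab : 0 < a * b := mul_pos ha hb
  -- the diagonal
  rcases eq_or_lt_of_le h1 with hd | hd
  · have h3 : (a - b) ^ 2 = 0 := by nlinarith
    have h4 : a = b := by
      have := pow_eq_zero_iff (two_ne_zero) |>.1 h3
      linarith
    subst h4
    have := pS_diag_eq hr ha.le ha1 (by rw [← h]; congr 1 <;> ring)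
    exact ⟨this, this⟩
  · have e1 : 0 ≤ pS r (a + b) (((a + b) / 2) ^ 2) := by
      have := pS_diag (r := r) (c := (a + b) / 2) hr.le (by positivity) (by linarith)
      rwa [show 2 * ((a + b) / 2) = a + b by ring] at this
    have form : ∀ p : ℝ, pS r (a + b) p = (r ^ 3 * (2035 * r ^ 4 - 7315 / 2 * (a + b) * r ^ 3 +
        1045 * (5 + (a + b) ^ 2) * r ^ 2 - 6370 * (a + b) * r + 5460 + 1198 * (a + b) ^ 2)) +
        (r ^ 3 * (-2090 * r ^ 2 + 5698 * (a + b) * r - 2396 - 3256 + 1628 * (a + b) ^ 2) -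
          65520 * r + 43680 * (a + b) + 21760 * (a + b) ^ 3 - 7744 * (a + b) ^ 5) * p +
        (-9768 * r ^ 3 - 65280 * (a + b) + 38720 * (a + b) ^ 3) * p ^ 2 +
        (-38720 * (a + b)) * p ^ 3 := by
      intro p; unfold pS kS; ring
    rw [form] at e1 h
    have hS0 : 0 < a + b := by positivity
    have hS2 : a + b ≤ 2 := by linarith
    have hr3 : 0 < r ^ 3 := by positivity
    rcases le_or_gt (a + b) 1 with hS1 | hS1
    · exfalso
      have e0 : 0 ≤ pS r (a + b) 0 := pS_zero hr.le hS0.le hS1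
      rw [form] at e0
      exact absurd h (ne_of_gt (cubic_interp_pos hab hd (conc_aux0 hr hS0 hS1 hab) e0 e1))
    · rcases eq_or_lt_of_le h2 with hp | hp
      · -- one of the two is 1
        have h3 : (1 - a) * (1 - b) = 0 := by nlinarith
        rcases mul_eq_zero.1 h3 with h4 | h4
        · have h5 : a = 1 := by linarith
          subst h5
          obtain ⟨h6, h7⟩ := pS_one_eq hr.le hb hb1 (by
            have := form (1 * b)
            rw [h, one_mul] at this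
            exact this)
          exact ⟨by linarith, by linarith⟩
        · have h5 : b = 1 := by linarith
          subst h5
          obtain ⟨h6, h7⟩ := pS_one_eq hr.le ha ha1 (by
            have := form (a * 1)
            rw [h, mul_one, add_comm a 1] at this
            exact this)
          exact ⟨by linarith, by linarith⟩
      · exfalso
        have e0 : 0 ≤ pS r (a + b) (a + b - 1) := by
          have := pS_one (r := r) (b := a + b - 1) hr.le (by linarith) (by linarith)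
          rwa [show 1 + (a + b - 1) = a + b by ring] at this
        rw [form] at e0
        exact absurd h (ne_of_gt (cubic_interp_pos hp hd (conc_aux hr hS1 hS2 hp) e0 e1))

theorem pi8_eq {r a b : ℝ} (hr : 0 < r) (ha : 0 < a) (ha1 : a ≤ 1) (hb : 0 < b) (hb1 : b ≤ 1)
    (h : r ^ 3 * k8 r a b = a * b * (65520 * r - (f a + f b) / 2)) : r = 2 * a ∧ r = 2 * b := by
  refine pS_eq hr ha ha1 hb hb1 ?_
  have e : k8 r a b = kS r (a + b) (a * b) := by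
    unfold k8 kS
    rw [abs_of_nonneg (mul_nonneg ha.le hb.le)]
    ring
  rw [e] at h
  unfold pS
  rw [h]
  unfold f
  ring

/-! ### The exact kernel and its approximation -/

/-- The kernel in the variables `u = 1 / r`, `v = r² / ρ²`. -/
noncomputable def G (u v a b : ℝ) : ℝ :=
  2035 + 1045 * (5 * (u ^ 2 * v) + (a ^ 2 + b ^ 2) * (u ^ 2 * v ^ 2) -
    7 / 2 * (a + b) * (u * v)) +
  1820 * (3 * (u ^ 4 * v ^ 2) + 2 * (a ^ 2 + b ^ 2) * (u ^ 4 * v ^ 3) -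
    7 / 2 * (a + b) * (u ^ 3 * v ^ 2)) -
  1628 * (3 / 2 * (a ^ 2 + b ^ 2) * (u ^ 4 * v ^ 3) + 4 * a ^ 2 * b ^ 2 * (u ^ 4 * v ^ 4) +
    2 * |a * b| * (u ^ 4 * v ^ 3) - |a * b| * (a ^ 2 + b ^ 2) * (u ^ 4 * v ^ 4)) +
  5698 * (a * b) * (a + b) * (u ^ 3 * v ^ 3)

theorem G_eq {r ρ q a b : ℝ} (hr : 0 < r) (hρ : 0 < ρ) (hq : r = q * ρ) (hq0 : 0 ≤ q) :
    k8 ρ (q * a) (q * b) / ρ ^ 4 = G (1 / r) (q ^ 2) a b := by
  have hq' : q ≠ 0 := by
    rintro rfl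
    rw [zero_mul] at hq
    linarith
  have e2 : |q * a * (q * b)| = q ^ 2 * |a * b| := by
    rw [show q * a * (q * b) = q ^ 2 * (a * b) by ring, abs_mul, abs_of_nonneg (sq_nonneg q)]
  unfold k8 G
  rw [e2, hq]
  field_simp
  ring

theorem G_one {r a b : ℝ} (hr : 0 < r) : k8 r a b / r ^ 4 = G (1 / r) 1 a b := by
  have := G_eq (r := r) (ρ := r) (q := 1) (a := a) (b := b) hr hr (by ring) zero_le_one
  rwa [one_mul, one_mul, one_pow] at this

theorem G_unif {U ε : ℝ} (hε : 0 < ε) : ∃ δ > 0, ∀ u v a b : ℝ, 0 ≤ u → u ≤ U → 0 ≤ v →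
    v ≤ 1 → 1 - v < δ → |a| ≤ 1 → |b| ≤ 1 → G u 1 a b < G u v a b + ε := by
  have hC : IsCompact (Icc (0 : ℝ) U ×ˢ (Icc (0 : ℝ) 1 ×ˢ (Icc (-1 : ℝ) 1 ×ˢ Icc (-1 : ℝ) 1))) :=
    isCompact_Icc.prod (isCompact_Icc.prod (isCompact_Icc.prod isCompact_Icc))
  have hcont : Continuous fun z : ℝ × ℝ × ℝ × ℝ => G z.1 z.2.1 z.2.2.1 z.2.2.2 := by
    unfold G
    fun_prop
  have h := Metric.uniformContinuousOn_iff.1
    (hC.uniformContinuousOn_of_continuous hcont.continuousOn) ε hε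
  obtain ⟨δ, hδ, h⟩ := h
  refine ⟨δ, hδ, fun u v a b hu hu1 hv hv1 hvδ ha hb => ?_⟩
  have hab := abs_le.1 ha
  have hbb := abs_le.1 hb
  have h1 := h (u, v, a, b) ⟨⟨hu, hu1⟩, ⟨hv, hv1⟩, ⟨hab.1, hab.2⟩, ⟨hbb.1, hbb.2⟩⟩
    (u, 1, a, b) ⟨⟨hu, hu1⟩, ⟨zero_le_one, le_rfl⟩, ⟨hab.1, hab.2⟩, ⟨hbb.1, hbb.2⟩⟩ (by
      rw [Prod.dist_eq, Prod.dist_eq, Prod.dist_eq]
      simp only [dist_self]
      rw [Real.dist_eq, abs_sub_comm, abs_of_nonneg (by linarith : (0 : ℝ) ≤ 1 - v)]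
      simp [hδ, hvδ])
  rw [Real.dist_eq, abs_lt] at h1
  linarith [h1.1]

end P8

/-- The strict certificate in dimension 8. -/
noncomputable def certREight : CertR 8 where
  toCert := certEight
  K := fun r a b => P8.k8 r a b / r ^ 4
  K_cont := by
    have hc : Continuous fun z : ℝ × ℝ × ℝ => P8.k8 z.1 z.2.1 z.2.2 := by
      unfold P8.k8
      fun_prop
    exact hc.continuousOn.div (by fun_prop) fun z hz => pow_ne_zero 4 (ne_of_gt hz)
  K_PI r a b hr ha ha1 hb hb1 := by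
    have h := P8.pi8 hr.le ha.le ha1 hb.le hb1
    have e : P8.k8 r a b / r ^ 4 * r ^ (8 - 1) = r ^ 3 * P8.k8 r a b := by
      norm_num
      field_simp
    rw [e]
    exact h
  K_eq r a b hr ha ha1 hb hb1 h := by
    have e : P8.k8 r a b / r ^ 4 * r ^ (8 - 1) = r ^ 3 * P8.k8 r a b := by
      norm_num
      field_simp
    rw [e] at h
    exact P8.pi8_eq hr ha ha1 hb hb1 h
  K_pos r a b hr ha hb := div_pos (P8.k8_pos hr.le ha hb) (by positivity)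
  approxR ε hε r₀ hr₀ := by
    obtain ⟨δ, hδ, hG⟩ := P8.G_unif (U := 1 / r₀) hε
    obtain ⟨η, hηd⟩ : ∃ η, η = min (ε / 294840) (r₀ * (min δ 1 / 2)) := ⟨_, rfl⟩
    have hm : 0 < min δ 1 := lt_min hδ one_pos
    have hη : 0 < η := by
      rw [hηd]
      exact lt_min (by positivity) (by positivity)
    have hη1 : η ≤ ε / 294840 := hηd ▸ min_le_left _ _
    have hη2 : η ≤ r₀ * (min δ 1 / 2) := hηd ▸ min_le_right _ _
    refine ⟨P8.Phi η, η ^ 2, by positivity, P8.Phi_contDiff, ?_, ?_, ?_, ?_⟩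
    · intro p hp
      exact P8.Phi_nonneg hη hp
    · intro r a b hr ha hb
      exact P8.ker_nonneg (lam := 2035 + ε) hη (by linarith) hr ha hb
    · intro r a b hr ha ha1 hb hb1
      have h := P8.pi_ker hη (lam := 2035 + ε) (by linarith) hr ha ha1 hb hb1
      refine le_trans (mul_le_mul_of_nonneg_left ?_ (mul_nonneg ha hb)) h
      show 65520 * r - (P8.f a + P8.f b) / 2 - ε ≤ 65520 * r - (P8.f a + P8.f b) / 2 -
        9 / 2 * 65520 * η
      linarith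
    · intro r a b hr ha hb
      have hr0 : 0 < r := lt_of_lt_of_le hr₀ hr
      obtain ⟨ρ, q, hρ, hρ2, hq, hq0, hq1, -⟩ := P8.exists_rho hη hr0.le
      have h1 := P8.ker_ge hη hr0.le ha hb hρ hρ2 hq hq0 hq1 (lam := 2035) le_rfl
      have h2 : P8.k8 ρ (q * a) (q * b) / ρ ^ 4 ≤ ker 7 (P8.Phi η) 2035 r a b := by
        rw [div_le_iff₀ (by positivity)]
        exact h1
      rw [P8.G_eq hr0 hρ hq hq0] at h2
      have h3 : ker 7 (P8.Phi η) (2035 + ε) r a b = ker 7 (P8.Phi η) 2035 r a b + ε := by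
        unfold ker ker0
        ring
      have h4 : 1 - q ^ 2 < δ := by
        have e1 : (1 - q ^ 2) * ρ ^ 2 = η ^ 2 := by
          have : r ^ 2 = q ^ 2 * ρ ^ 2 := by rw [hq]; ring
          nlinarith
        have e2 : η ^ 2 < δ * ρ ^ 2 := by
          have a1 : η ^ 2 ≤ (r₀ * (min δ 1 / 2)) ^ 2 := pow_le_pow_left₀ hη.le hη2 2
          have a2 : (r₀ * (min δ 1 / 2)) ^ 2 = r₀ ^ 2 * (min δ 1 * min δ 1 / 4) := by ring
          have a3 : min δ 1 * min δ 1 ≤ δ * 1 :=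
            mul_le_mul (min_le_left _ _) (min_le_right _ _) hm.le hδ.le
          have a4 : r₀ ^ 2 ≤ ρ ^ 2 := by
            rw [hρ2]
            have : r₀ ^ 2 ≤ r ^ 2 := pow_le_pow_left₀ hr₀.le hr 2
            nlinarith [sq_nonneg η]
          have a5 : r₀ ^ 2 * (min δ 1 * min δ 1 / 4) ≤ r₀ ^ 2 * (δ / 4) :=
            mul_le_mul_of_nonneg_left (by linarith) (sq_nonneg _)
          have a6 : 0 < r₀ ^ 2 := by positivity
          nlinarith [mul_pos hδ a6, mul_le_mul_of_nonneg_left a4 hδ.le]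
        have e3 : 0 < ρ ^ 2 := by positivity
        rw [← e1] at e2
        exact lt_of_mul_lt_mul_right e2 e3.le
      have h5 := hG (1 / r) (q ^ 2) a b (by positivity)
        (one_div_le_one_div_of_le hr₀ hr) (sq_nonneg q) (pow_le_one₀ hq0 hq1) h4 ha hb
      show P8.k8 r a b / r ^ 4 ≤ ker 7 (P8.Phi η) (2035 + ε) r a b
      rw [h3, P8.G_one hr0]
      linarith

end Vale.Agent.P219.TP
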