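import Vale.Agent.P219.TPR.CertRGlue
import Vale.Agent.P219.TP.CertFive

/-! # The certificate with strictness in dimension 5 -/

open MeasureTheory Set Metric Filter Topology
open scoped ENNReal ContDiff

namespace Vale.Agent.P219.TP

theorem P5.A_key_pos {l u S v : ℝ} (hl : 0 < l) (hu : 0 ≤ u) (hS : 0 ≤ S) (hv : 0 ≤ v)
    (h : 0 < v ∨ 0 < S) :
    0 <
      v ^ 3 * (540 * u ^ 7 + 21735 / 4 * l * u ^ 6 + 101565 / 4 * l ^ 2 * u ^ 5 +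
      524805 / 8 * l ^ 3 * u ^ 4 + 769623 / 8 * l ^ 4 * u ^ 3 + 318089 / 4 * l ^ 5 * u ^ 2 +
      72215 / 2 * l ^ 6 * u + 7685 * l ^ 7) + S * v ^ 2 * (1575 * u ^ 7 +
      101655 / 8 * l * u ^ 6 + 430785 / 8 * l ^ 2 * u ^ 5 + 274509 / 2 * l ^ 3 * u ^ 4 +
      811473 / 4 * l ^ 4 * u ^ 3 + 342129 / 2 * l ^ 5 * u ^ 2 + 82615 * l ^ 6 * u +
      18010 * l ^ 7) + S ^ 2 * v * (1890 * u ^ 7 + 25425 / 2 * l * u ^ 6 +
      91359 / 2 * l ^ 2 * u ^ 5 + 871775 / 8 * l ^ 3 * u ^ 4 + 1290689 / 8 * l ^ 4 * u ^ 3 +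
      569191 / 4 * l ^ 5 * u ^ 2 + 148345 / 2 * l ^ 6 * u + 15355 * l ^ 7) +
      S ^ 3 * (1755 / 2 * u ^ 7 + 50769 / 8 * l * u ^ 6 + 177437 / 8 * l ^ 2 * u ^ 5 +
      191967 / 4 * l ^ 3 * u ^ 4 + 260527 / 4 * l ^ 4 * u ^ 3 + 110171 / 2 * l ^ 5 * u ^ 2 +
      28135 * l ^ 6 * u + 5030 * l ^ 7) := by
  rcases h with h | h <;> positivity

theorem P5.A_pos {l S : ℝ} (hl : 0 < l) (hl2 : l ≤ 2) (hS : 0 ≤ S)
    (hS2 : S ≤ 2) :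
    0 < gA 4 49920 l ((2 + l) ^ 3) (P5.Vn l) (P5.Vp l) (P5.Wn l) (P5.Wp l) S := by
  refine (P5.A_key_pos hl (sub_nonneg.2 hl2) hS (sub_nonneg.2 hS2) ?_).trans_eq ?_
  · rcases hS.lt_or_eq with h | h
    · exact Or.inr h
    · exact Or.inl (by linarith)
  simp only [gA, P5.Vn, P5.Vp, P5.Wn, P5.Wp]; ring

theorem P5.B_key_pos {l u S v : ℝ} (hl : 0 < l) (hu : 0 ≤ u) (hS : 0 ≤ S) (hv : 0 ≤ v)
    (h : 0 < v ∨ 0 < S) :
    0 <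
      v ^ 3 * (540 * u ^ 7 + 21735 / 4 * l * u ^ 6 + 101565 / 4 * l ^ 2 * u ^ 5 +
      524805 / 8 * l ^ 3 * u ^ 4 + 769623 / 8 * l ^ 4 * u ^ 3 + 318089 / 4 * l ^ 5 * u ^ 2 +
      72215 / 2 * l ^ 6 * u + 7685 * l ^ 7) + S * v ^ 2 * (1575 * u ^ 7 +
      101655 / 8 * l * u ^ 6 + 430785 / 8 * l ^ 2 * u ^ 5 + 274509 / 2 * l ^ 3 * u ^ 4 +
      811473 / 4 * l ^ 4 * u ^ 3 + 342129 / 2 * l ^ 5 * u ^ 2 + 82615 * l ^ 6 * u +
      18010 * l ^ 7) + S ^ 2 * v * (1710 * u ^ 7 + 22005 / 2 * l * u ^ 6 +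
      42138 * l ^ 2 * u ^ 5 + 219261 / 2 * l ^ 3 * u ^ 4 + 165636 * l ^ 4 * u ^ 3 +
      138370 * l ^ 5 * u ^ 2 + 67420 * l ^ 6 * u + 14160 * l ^ 7) + S ^ 3 * (675 * u ^ 7 +
      16281 / 4 * l * u ^ 6 + 58501 / 4 * l ^ 2 * u ^ 5 + 73489 / 2 * l ^ 3 * u ^ 4 +
      52235 * l ^ 4 * u ^ 3 + 38890 * l ^ 5 * u ^ 2 + 17640 * l ^ 6 * u + 3600 * l ^ 7) := by
  rcases h with h | h <;> positivity

theorem P5.B_pos {l S : ℝ} (hl : 0 < l) (hl2 : l ≤ 2) (hS : 0 ≤ S)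
    (hS2 : S ≤ 2) :
    0 < gA 4 49920 l ((2 + l) ^ 3) (P5.Vn l) (P5.Vp l) (P5.Wn l) (P5.Wp l) S +
      S ^ 2 / 4 * gT 4 l (P5.Vn l) (P5.Vp l) (P5.Wn l) (P5.Wp l) S := by
  refine (P5.B_key_pos hl (sub_nonneg.2 hl2) hS (sub_nonneg.2 hS2) ?_).trans_eq ?_
  · rcases hS.lt_or_eq with h | h
    · exact Or.inr h
    · exact Or.inl (by linarith)
  simp only [gA, gT, P5.Vn, P5.Vp, P5.Wn, P5.Wp]; ring

theorem P5.R_key {l u S v : ℝ} (hl : 0 < l) (hu : 0 ≤ u) (hS : 0 ≤ S) (hv : 0 ≤ v)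
    (h : 0 < v ∨ 0 < S) :
    0 <
      (v ^ 6 * (135 / 2 * l * u ^ 7 + 21735 / 32 * l ^ 2 * u ^ 6 + 101565 / 32 * l ^ 3 * u ^ 5 +
      524805 / 64 * l ^ 4 * u ^ 4 + 769623 / 64 * l ^ 5 * u ^ 3 + 318089 / 32 * l ^ 6 * u ^ 2 +
      72215 / 16 * l ^ 7 * u + 7685 / 8 * l ^ 8) + S * v ^ 5 * (135 * u ^ 8 +
      30285 / 16 * l * u ^ 7 + 725265 / 64 * l ^ 2 * u ^ 6 + 2496045 / 64 * l ^ 3 * u ^ 5 +
      5261307 / 64 * l ^ 4 * u ^ 4 + 6743417 / 64 * l ^ 5 * u ^ 3 +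
      2563563 / 32 * l ^ 6 * u ^ 2 + 557045 / 16 * l ^ 7 * u + 56435 / 8 * l ^ 8) +
      S ^ 2 * v ^ 4 * (21645 / 32 * u ^ 8 + 34425 / 4 * l * u ^ 7 + 379485 / 8 * l ^ 2 * u ^ 6 +
      1196355 / 8 * l ^ 3 * u ^ 5 + 9278085 / 32 * l ^ 4 * u ^ 4 + 694235 / 2 * l ^ 5 * u ^ 3 +
      2017515 / 8 * l ^ 6 * u ^ 2 + 107155 * l ^ 7 * u + 42025 / 2 * l ^ 8) +
      S ^ 3 * v ^ 3 * (91215 / 64 * u ^ 8 + 1105755 / 64 * l * u ^ 7 +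
      5807805 / 64 * l ^ 2 * u ^ 6 + 17359875 / 64 * l ^ 3 * u ^ 5 +
      7987515 / 16 * l ^ 4 * u ^ 4 + 18336775 / 32 * l ^ 5 * u ^ 3 +
      6497465 / 16 * l ^ 6 * u ^ 2 + 1368405 / 8 * l ^ 7 * u + 131115 / 4 * l ^ 8) +
      S ^ 4 * v ^ 2 * (22395 / 16 * u ^ 8 + 265335 / 16 * l * u ^ 7 +
      1360965 / 16 * l ^ 2 * u ^ 6 + 3962865 / 16 * l ^ 3 * u ^ 5 +
      28465755 / 64 * l ^ 4 * u ^ 4 + 32142605 / 64 * l ^ 5 * u ^ 3 +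
      11359275 / 32 * l ^ 6 * u ^ 2 + 2407025 / 16 * l ^ 7 * u + 227015 / 8 * l ^ 8) +
      S ^ 5 * v * (1425 / 2 * u ^ 8 + 8340 * l * u ^ 7 + 42255 * l ^ 2 * u ^ 6 +
      971445 / 8 * l ^ 3 * u ^ 5 + 6903615 / 32 * l ^ 4 * u ^ 4 + 7767059 / 32 * l ^ 5 * u ^ 3 +
      2757447 / 16 * l ^ 6 * u ^ 2 + 146285 / 2 * l ^ 7 * u + 53675 / 4 * l ^ 8) +
      S ^ 6 * (585 / 4 * u ^ 8 + 6795 / 4 * l * u ^ 7 + 34155 / 4 * l ^ 2 * u ^ 6 +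
      194625 / 8 * l ^ 3 * u ^ 5 + 1373121 / 32 * l ^ 4 * u ^ 4 + 1539181 / 32 * l ^ 5 * u ^ 3 +
      545269 / 16 * l ^ 6 * u ^ 2 + 114245 / 8 * l ^ 7 * u + 9995 / 4 * l ^ 8)) := by
  rcases h with h | h <;> positivity

theorem P5.Q_zero {l S : ℝ} (hl : 0 < l) (hl2 : l ≤ 2) (hS : 0 ≤ S)
    (hS2 : S ≤ 2)
    (h : l ^ 3 * gA 4 49920 l ((2 + l) ^ 3) (P5.Vn l) (P5.Vp l) (P5.Wn l) (P5.Wp l) S +
      S ^ 2 / 4 * (l ^ 3 * gT 4 l (P5.Vn l) (P5.Vp l) (P5.Wn l) (P5.Wp l) S -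
        (829440 * l - 2 * P5.f (S / 2) / 2) * ((2 + l) ^ 3)) = 0) : l = S := by
  have h1 := P5.R_key hl (sub_nonneg.2 hl2) hS (sub_nonneg.2 hS2) (by
    rcases hS.lt_or_eq with h | h
    · exact Or.inr h
    · exact Or.inl (by linarith))
  have h2 : (l - S) ^ 2 = 0 := by
    refine (mul_eq_zero.1 (Eq.trans ?_ h)).resolve_right h1.ne'
    simp only [gA, gT, P5.Vn, P5.Vp, P5.Wn, P5.Wp, P5.f]; ring
  have h3 := pow_eq_zero_iff (two_ne_zero) |>.1 h2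
  linarith

/-! ### The outer kernel minus the jump -/

theorem P5.Ao_pos {l S : ℝ} (hl : 2 ≤ l) (hS : 0 ≤ S) (hS2 : S ≤ 2) :
    0 < gA 4 49920 l (l ^ 2) (P5.Un l) (P5.Up l) 0 0 S -
      940 * (1 - S) * (2 + S) * (l * l ^ 2) := by
  have hl0 : 0 < l := by linarith
  have key : ∀ t v : ℝ, 0 ≤ t → 0 ≤ v → (0 < v ∨ 0 < S) → 0 <
      l * (61480 * v ^ 2 + 82600 * S * v + 40240 * S ^ 2 +
      t * (52360 * v ^ 2 + 73960 * S * v + 28240 * S ^ 2) +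
      t ^ 2 * (12010 * v ^ 2 + 18730 * S * v + 7660 * S ^ 2)) := by
    intro t v ht hv h
    rcases h with h | h <;> positivity
  refine (key (l - 2) (2 - S) (sub_nonneg.2 hl) (sub_nonneg.2 hS2) ?_).trans_eq ?_
  · rcases hS.lt_or_eq with h | h
    · exact Or.inr h
    · exact Or.inl (by linarith)
  simp only [gA, P5.Un, P5.Up]; ring

theorem P5.Qo_pos {l S : ℝ} (hl : 2 < l) (hS : 0 ≤ S) (hS2 : S ≤ 2) :
    0 < l ^ 3 * (gA 4 49920 l (l ^ 2) (P5.Un l) (P5.Up l) 0 0 S -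
        940 * (1 - S) * (2 + S) * (l * l ^ 2)) +
      S ^ 2 / 4 * (l ^ 3 * (gT 4 l (P5.Un l) (P5.Up l) 0 0 S - 940 * (2 + S) * (l * l ^ 2)) -
        (829440 * l - 2 * P5.f (S / 2) / 2) * (l ^ 2)) := by
  have hl0 : 0 < l := by linarith
  have key : ∀ t v : ℝ, 0 < t → 0 ≤ v → (0 < v ∨ 0 < S) → 0 <
      l ^ 2 * (7685 / 2 * v ^ 8 + 56435 / 2 * S * v ^ 7 + 84050 * S ^ 2 * v ^ 6 +
      131115 * S ^ 3 * v ^ 5 + 227015 / 2 * S ^ 4 * v ^ 4 + 53675 * S ^ 5 * v ^ 3 +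
      9995 * S ^ 6 * v ^ 2 +
      t * (227680 * v ^ 3 + 540800 * S * v ^ 2 + 320640 * S ^ 2 * v) +
      t ^ 2 * (159480 * v ^ 3 + 386160 * S * v ^ 2 + 306240 * S ^ 2 * v + 73920 * S ^ 3) +
      t ^ 3 * (50200 * v ^ 3 + 124640 * S * v ^ 2 + 101280 * S ^ 2 * v + 24960 * S ^ 3) +
      t ^ 4 * (6005 * v ^ 3 + 15370 * S * v ^ 2 + 12960 * S ^ 2 * v + 3360 * S ^ 3)) := by
    intro t v ht hv h
    rcases h with h | h <;> positivity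
  refine (key (l - 2) (2 - S) (sub_pos.2 hl) (sub_nonneg.2 hS2) ?_).trans_eq ?_
  · rcases hS.lt_or_eq with h | h
    · exact Or.inr h
    · exact Or.inl (by linarith)
  simp only [gA, gT, P5.Un, P5.Up, P5.f]; ring

/-- The kernel. -/
noncomputable def P5.K (r a b : ℝ) : ℝ := KG 4 49920 P5.Vi P5.Vi' P5.Wi P5.Wi' P5.Vo P5.Vo' r a b

theorem P5.jump (a b : ℝ) : kou 4 49920 P5.Vo P5.Vo' 2 a b -
    kin 4 49920 P5.Vi P5.Vi' P5.Wi P5.Wi' 2 a b = 940 * (1 - a) * (1 - b) * (2 + a + b) := by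
  have e1 : P5.Wi 2 = 0 := by norm_num [P5.Wi]
  have e2 : P5.Wi' 2 = -1880 := by norm_num [P5.Wi', P5.Wp]
  have e3 : P5.Vi 2 = 10560 := by norm_num [P5.Vi, e1]
  have e4 : P5.Vi' 2 = -4280 := by norm_num [P5.Vi', e1, e2]
  have e5 : P5.Vo 2 = 10560 := by norm_num [P5.Vo]
  have e6 : P5.Vo' 2 = -2400 := by norm_num [P5.Vo']
  unfold kou kin sk skx
  rw [e1, e2, e3, e4, e5, e6]
  ring

theorem P5.jump_nonneg {a b : ℝ} (ha : |a| ≤ 1) (hb : |b| ≤ 1) :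
    0 ≤ 940 * (1 - a) * (1 - b) * (2 + a + b) := by
  have h1 := abs_le.1 ha
  have h2 := abs_le.1 hb
  have h3 : 0 ≤ 1 - a := by linarith
  have h4 : 0 ≤ 1 - b := by linarith
  have h5 : 0 ≤ 2 + a + b := by linarith
  positivity

theorem P5.K_in {r : ℝ} (hr : r ≤ 2) (a b : ℝ) : P5.K r a b =
    49920 + sk 4 (P5.Vi r) (P5.Vi' r) (P5.Wi r) (P5.Wi' r) r a b := KG_le hr a b

theorem P5.K_out {r : ℝ} (hr : 2 ≤ r) (a b : ℝ) : P5.K r a b =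
    (49920 + sk 4 (P5.Vo r) (P5.Vo' r) 0 0 r a b) - 940 * (1 - a) * (1 - b) * (2 + a + b) := by
  rw [← P5.jump]
  exact KG_ge hr a b

/-- The outer kernel in the variable `u = 1 / r`. -/
noncomputable def P5.Go (u a b : ℝ) : ℝ :=
  49920 + ((-9600 * u ^ 2 * (1 - b ^ 2) + (5760 * u + 9600 * u ^ 2) * (3 + b ^ 2) -
    4 * ((5760 + 9600 * u) * b)) + (-9600 * u ^ 2 * (1 - a ^ 2) +
    (5760 * u + 9600 * u ^ 2) * (3 + a ^ 2) - 4 * ((5760 + 9600 * u) * a))) / 2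

theorem P5.hGo {y : ℝ} (hy : 0 < y) (a b : ℝ) :
    kou 4 49920 P5.Vo P5.Vo' y a b = P5.Go (1 / y) a b := by
  unfold kou sk skx P5.Go P5.Vo P5.Vo'
  field_simp
  push_cast
  ring

theorem P5.cGo : Continuous fun z : ℝ × ℝ × ℝ => P5.Go z.1 z.2.1 z.2.2 := by
  unfold P5.Go
  fun_prop

theorem P5.continuousOn_Wi' : ContinuousOn P5.Wi' (Ioi 0) := by
  unfold P5.Wi' P5.Wp
  refine ContinuousOn.div (by fun_prop) (by fun_prop) ?_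
  intro l hl
  have : (0 : ℝ) < l := hl
  positivity

theorem P5.continuousOn_Vi' : ContinuousOn P5.Vi' (Ioi 0) := by
  have h1 := P5.contDiffOn_Wi.continuousOn
  have h2 := P5.continuousOn_Wi'
  unfold P5.Vi'
  fun_prop

theorem P5.approxR : ∀ ε > 0, ∀ r₀ > 0, ∃ Φ : ℝ × ℝ → ℝ, ∃ δ > 0,
    ContDiffOn ℝ ∞ Φ {p | -δ < p.1} ∧
    (∀ p : ℝ × ℝ, 0 ≤ p.1 → 0 ≤ Φ p) ∧
    (∀ r a b : ℝ, 0 ≤ r → |a| ≤ 1 → |b| ≤ 1 → 0 ≤ ker 4 Φ (49920 + ε) r a b) ∧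
    (∀ r a b : ℝ, 0 < r → 0 ≤ a → a ≤ 1 → 0 ≤ b → b ≤ 1 →
      a * b * (829440 * r - (P5.f a + P5.f b) / 2 - ε) ≤ ker 4 Φ (49920 + ε) r a b * r ^ 4) ∧
    ∀ r a b : ℝ, r₀ ≤ r → |a| ≤ 1 → |b| ≤ 1 → P5.K r a b ≤ ker 4 Φ (49920 + ε) r a b := by
  refine approxR_glue (C := 0) (by norm_num) (by norm_num) P5.mono_f P5.f_zero.ge le_rfl
    P5.contDiffOn_Vi P5.contDiffOn_Wi P5.contDiffOn_Vo (fun l hl => P5.hasDerivAt_Vi hl)
    (fun l hl => P5.hasDerivAt_Wi hl) (fun l hl => P5.hasDerivAt_Vo hl) P5.continuousOn_Vi'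
    P5.continuousOn_Wi' ?_ ?_ ?_ ?_
    (fun l h1 h2 => P5.inOK_in h1 h2) (fun l h1 => P5.inOK_out h1) P5.cGo
    (fun y hy a b => P5.hGo (by linarith) a b) ?_
  · unfold P5.Vo'
    exact ContinuousAt.div (by fun_prop) (by fun_prop) (by norm_num)
  · norm_num [P5.Vi, P5.Vo, P5.Wi]
  · norm_num [P5.Wi]
  · norm_num [P5.Vi, P5.Wi]
  · intro a b ha hb
    have h1 := P5.jump a b
    have h2 := P5.jump_nonneg ha hb
    linarith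

/-- `l D (λ + κ)` in terms of `S = a + b`, `p = ab`. -/
theorem l_sk2 {m : ℕ} {lam v v' w w' l D Vn Vp Wn Wp : ℝ} (hl : 0 < l)
    (hVn : v * D = Vn) (hVp : v' * D = Vp) (hWn : w * D = Wn) (hWp : w' * D = Wp)
    {a b : ℝ} (ha : 0 ≤ a) (hb : 0 ≤ b) :
    l * D * (lam + sk m v v' w w' l a b) = gA m lam l D Vn Vp Wn Wp (a + b) +
      a * b * gT m l Vn Vp Wn Wp (a + b) := by
  subst hVn hVp hWn hWp
  have h := l_sk (m := m) (v := v) (v' := v') (w := w) (w' := w') hl ha hb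
  have e : l * D * (lam + sk m v v' w w' l a b) =
      lam * l * D + D * (l * sk m v v' w w' l a b) := by ring
  rw [e, h]
  simp only [gA, gT]
  ring

theorem kpos_mk2 {m : ℕ} {lam v v' w w' l D Vn Vp Wn Wp : ℝ} (hl : 0 < l) (hD : 0 < D)
    (hVn : v * D = Vn) (hVp : v' * D = Vp) (hWn : w * D = Wn) (hWp : w' * D = Wp)
    (hw : 0 ≤ Wn) (N1 : 0 ≤ l * Vn - 2 * l * Wn + Wn)
    (N2 : 0 ≤ l * Wp + (m - 1) * Wn + m * l * Vn - 2 * m * l * Wn)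
    (hA : ∀ S, 0 ≤ S → S ≤ 2 → 0 < gA m lam l D Vn Vp Wn Wp S)
    (hB : ∀ S, 0 ≤ S → S ≤ 2 →
      0 < gA m lam l D Vn Vp Wn Wp S + S ^ 2 / 4 * gT m l Vn Vp Wn Wp S)
    {a b : ℝ} (ha : |a| ≤ 1) (hb : |b| ≤ 1) : 0 < lam + sk m v v' w w' l a b := by
  have hlD : 0 < l * D := mul_pos hl hD
  have hT := l_sk2 (m := m) (lam := lam) hl hVn hVp hWn hWp (abs_nonneg a) (abs_nonneg b)
  obtain ⟨d1, d2, d3, -, d5⟩ := dom_ab (abs_nonneg a) ha (abs_nonneg b) hb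
  have h2 := lin_pos (hA _ d1 d2) (hB _ d1 d2) d3 d5
  rw [← hT] at h2
  have h3 : 0 < lam + sk m v v' w w' l |a| |b| := pos_of_mul_pos_right h2 hlD.le
  subst hVn hVp hWn hWp
  have h0 : sk m v v' w w' l |a| |b| ≤ sk m v v' w w' l a b := by
    refine sk_abs (nonneg_of_mul_nonneg_left hw hD) ?_ ?_ ha hb
    · refine nonneg_of_mul_nonneg_right (a := l * D) ?_ hlD
      have e : l * D * (m * v - 2 * m * w + m * w / l) =
          m * (l * (v * D) - 2 * l * (w * D) + w * D) := by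
        field_simp
      rw [e]
      exact mul_nonneg (Nat.cast_nonneg m) N1
    · refine nonneg_of_mul_nonneg_right (a := l * D) ?_ hlD
      have e : l * D * (w' + (m - 1) * w / l + m * v - 2 * m * w) =
          l * (w' * D) + (m - 1) * (w * D) + m * l * (v * D) - 2 * m * l * (w * D) := by
        field_simp
      rw [e]
      exact N2
  linarith

theorem P5.eqs {l : ℝ} (hl : 0 < l) : P5.Vi l * (2 + l) ^ 3 = P5.Vn l ∧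
    P5.Vi' l * (2 + l) ^ 3 = P5.Vp l ∧ P5.Wi l * (2 + l) ^ 3 = P5.Wn l ∧
    P5.Wi' l * (2 + l) ^ 3 = P5.Wp l := by
  have eW : P5.Wi l * (2 + l) ^ 3 = P5.Wn l := by
    unfold P5.Wi P5.Wn
    field_simp
  have eW' : P5.Wi' l * (2 + l) ^ 3 = P5.Wp l := by
    unfold P5.Wi'
    field_simp
  refine ⟨?_, ?_, eW, eW'⟩
  · unfold P5.Vi P5.Vn
    rw [← eW]; ring
  · unfold P5.Vi' P5.Vp
    rw [← eW, ← eW']; ring

theorem P5.K_pos {r a b : ℝ} (hr : 0 < r) (ha : |a| ≤ 1) (hb : |b| ≤ 1) : 0 < P5.K r a b := by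
  rcases le_or_gt r 2 with h2 | h2
  · rw [P5.K_in h2]
    obtain ⟨e1, e2, e3, e4⟩ := P5.eqs hr
    refine kpos_mk2 (D := (2 + r) ^ 3) hr (by positivity) e1 e2 e3 e4 (P5.W_nonneg hr.le h2)
      (P5.N1 hr.le h2) ?_ ?_ ?_ ha hb
    · have := P5.N2 hr.le h2
      push_cast
      linarith
    · intro S hS hS2
      exact_mod_cast P5.A_pos hr h2 hS hS2
    · intro S hS hS2
      exact_mod_cast P5.B_pos hr h2 hS hS2
  · rw [P5.K_out h2.le]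
    have h3 := P5.hGo hr a b
    unfold kou at h3
    rw [h3]
    unfold P5.Go
    obtain ⟨u, hu⟩ : ∃ u, u = 1 / r := ⟨_, rfl⟩
    rw [← hu]
    have hu0 : 0 < u := by rw [hu]; positivity
    have hu1 : u ≤ 1 / 2 := by rw [hu]; exact one_div_le_one_div_of_le two_pos h2.le
    obtain ⟨a1, a2⟩ := abs_le.1 ha
    obtain ⟨b1, b2⟩ := abs_le.1 hb
    have j1 : (1 - a) * (1 - b) ≤ 2 * 2 :=
      mul_le_mul (by linarith) (by linarith) (by linarith) (by norm_num)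
    have j2 : (1 - a) * (1 - b) * (2 + a + b) ≤ 4 * 4 :=
      mul_le_mul (by linarith) (by linarith) (by linarith) (by norm_num)
    have q1 : 0 ≤ (5760 * u + 19200 * u ^ 2) * (a ^ 2 + b ^ 2) := by positivity
    have q2 : 0 ≤ (23040 + 38400 * u) * (2 - (a + b)) :=
      mul_nonneg (by positivity) (by linarith)
    have q3 := mul_nonneg hu0.le (sub_nonneg.2 hu1)
    nlinarith [q1, q2, q3, j2, sq_nonneg u]

theorem P5.K_pi {r a b : ℝ} (hr : 0 < r) (ha : 0 < a) (ha1 : a ≤ 1) (hb : 0 < b) (hb1 : b ≤ 1) :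
    a * b * (829440 * r - (P5.f a + P5.f b) / 2) ≤ P5.K r a b * r ^ 4 ∧
    (P5.K r a b * r ^ 4 = a * b * (829440 * r - (P5.f a + P5.f b) / 2) →
      r = 2 * a ∧ r = 2 * b) := by
  obtain ⟨d1, d2, d3, d4, d5⟩ := dom_ab ha.le ha1 hb.le hb1
  have hp : 0 < a * b := mul_pos ha hb
  have hG := P5.G_nonneg _ _ d1 d2 d3 d4 d5
  rcases le_or_gt r 2 with h2 | h2
  · rw [P5.K_in h2]
    obtain ⟨e1, e2, e3, e4⟩ := P5.eqs hr
    have hT := l_sk2 (m := 4) (lam := 49920) hr e1 e2 e3 e4 ha.le hb.le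
    have hA := P5.A_pos hr h2 d1 d2
    have hQ := P5.Q hr.le h2 d1 d2
    have h := pi_strict (m := 4) (s := 829440) (L := r ^ 3) (by positivity) (by ring)
      (by positivity : (0 : ℝ) < (2 + r) ^ 3) hT rfl (by exact_mod_cast hA) (by exact_mod_cast hQ)
      hG (P5.f_add a b) hp d5
    refine ⟨h.1, fun h3 => ?_⟩
    obtain ⟨h4, h5⟩ := h.2 h3
    have h6 := eq_of_prod h4
    have h7 : r = a + b := P5.Q_zero hr h2 d1 d2 (by exact_mod_cast h5)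
    constructor <;> linarith
  · rw [P5.K_out h2.le]
    have hD : (0 : ℝ) < r ^ 2 := by positivity
    have e1 : P5.Vo r * r ^ 2 = P5.Un r := by
      unfold P5.Vo P5.Un
      field_simp
    have e2 : P5.Vo' r * r ^ 2 = P5.Up r := by
      unfold P5.Vo' P5.Up
      field_simp
    have hT0 := l_sk2 (m := 4) (lam := 49920) (D := r ^ 2) hr e1 e2 (zero_mul _) (zero_mul _)
      ha.le hb.le
    have hT : r * r ^ 2 * ((49920 + sk 4 (P5.Vo r) (P5.Vo' r) 0 0 r a b) -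
        940 * (1 - a) * (1 - b) * (2 + a + b)) =
        (gA (4 : ℕ) 49920 r (r ^ 2) (P5.Un r) (P5.Up r) 0 0 (a + b) -
          940 * (1 - (a + b)) * (2 + (a + b)) * (r * r ^ 2)) +
        a * b * (gT (4 : ℕ) r (P5.Un r) (P5.Up r) 0 0 (a + b) -
          940 * (2 + (a + b)) * (r * r ^ 2)) := by
      rw [mul_sub, hT0]
      ring
    have hA := P5.Ao_pos h2.le d1 d2
    have hQ := P5.Qo_pos h2 d1 d2
    have h := pi_strict (m := 4) (s := 829440) (L := r ^ 3) (by positivity) (by ring)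
      hD hT rfl (by exact_mod_cast hA) (by exact_mod_cast hQ.le)
      hG (P5.f_add a b) hp d5
    refine ⟨h.1, fun h3 => ?_⟩
    obtain ⟨h4, h5⟩ := h.2 h3
    exact absurd (by exact_mod_cast h5) hQ.ne'

/-- The strict certificate in dimension 5. -/
noncomputable def certRFive : CertR 5 where
  toCert := certFive
  K := P5.K
  K_cont := KG_cont P5.contDiffOn_Vi P5.contDiffOn_Wi P5.continuousOn_Vi' P5.continuousOn_Wi'
    P5.cGo fun y hy a b => P5.hGo (by linarith) a b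
  K_PI _ _ _ hr ha ha1 hb hb1 := (P5.K_pi hr ha ha1 hb hb1).1
  K_eq _ _ _ hr ha ha1 hb hb1 h := (P5.K_pi hr ha ha1 hb hb1).2 h
  K_pos _ _ _ hr ha hb := P5.K_pos hr ha hb
  approxR := P5.approxR

end Vale.Agent.P219.TP
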