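import Vale.Agent.P219.TPR.CertR
import Vale.Agent.P219.TP.CertFour

/-! # The strict certificate in dimension 4 -/

open MeasureTheory Set Metric
open scoped ENNReal ContDiff

namespace Vale.Agent.P219.TP

theorem K4R_mul (r a b : ℝ) :
    1 * r ^ 3 - a * b * (12 * r - (f4 a + f4 b) / 2) = P4 r a b := by
  unfold P4 f4
  ring

/-- The strict certificate in dimension 4. -/
noncomputable def certRFour : CertR 4 where
  toCert := certFour
  K := fun _ _ _ => 1
  K_cont := continuousOn_const
  K_PI r a b hr ha _ hb _ := by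
    have h1 := K4R_mul r a b
    have h2 := P4_nonneg hr.le ha.le hb.le
    show a * b * (12 * r - (f4 a + f4 b) / 2) ≤ 1 * r ^ 3
    linarith
  K_eq r a b hr ha _ hb _ h := by
    have h0 : 1 * r ^ 3 = a * b * (12 * r - (f4 a + f4 b) / 2) := h
    have h1 := K4R_mul r a b
    rw [h0, sub_self] at h1
    exact P4_eq hr ha hb h1.symm
  K_pos _ _ _ _ _ _ := one_pos
  approxR ε hε r₀ hr₀ := by
    refine ⟨fun _ => 0, 1, one_pos, contDiffOn_const, fun _ _ => le_rfl, ?_, ?_, ?_⟩
    · intro r a b _ _ _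
      rw [ker_zero]
      show (0 : ℝ) ≤ 1 + ε
      positivity
    · intro r a b hr ha ha1 hb hb1
      rw [ker_zero]
      have h1 := f4_ineq hr.le ha hb
      have h2 : 0 ≤ a * b * ε := by positivity
      have h3 : 0 ≤ ε * r ^ 3 := by positivity
      show a * b * (12 * r - (f4 a + f4 b) / 2 - ε) ≤ (1 + ε) * r ^ 3
      nlinarith [h1, h2, h3]
    · intro r a b _ _ _
      rw [ker_zero]
      show (1 : ℝ) ≤ 1 + ε
      linarith

end Vale.Agent.P219.TP
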