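import Vale.Agent.P219.TP.PolyNine

set_option linter.all false
set_option maxRecDepth 100000

/-! # Dimension 9: the strict polynomial inequalities -/

namespace Vale.Agent.P219.TP
open Bern

def P9.LRpp : List (List (List ℤ)) :=
  [[[249600000000, 0, 5247900000000, -24078600000000, 71545281318000, -83996377934175, 37544977128960], [0, -3287550000000, 13759200000000, -47594038590000, 80385480000000, -105732473968800, 91483862400000, -35041978653696], [208000000000, 0, 1574370000000, -4013100000000, 5110377237000, 0, -2085832062720], [0, 258867000000, -1146600000000, 2769826185000, -2917215000000, 1104340910400]],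
  [[0, -3287550000000, 13759200000000, -47594038590000, 80385480000000, -105732473968800, 91483862400000, -35041978653696], [0, 0, 17395862400000, -77051520000000, 186132319632000, -196036848000000, 74211709178880], [0, -1812069000000, 5733000000000, -8309478555000, 2917215000000, 1104340910400]],
  [[208000000000, 0, 1574370000000, -4013100000000, 5110377237000, 0, -2085832062720], [0, -1812069000000, 5733000000000, -8309478555000, 2917215000000, 1104340910400]],
  [[0, 258867000000, -1146600000000, 2769826185000, -2917215000000, 1104340910400]]]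

theorem P9.chk_Rpp : chk3 3 3 3 P9.LRpp = true := by decide +kernel

theorem P9.kRpp {l a b : ℝ} (hl : 0 ≤ l) (hl2 : l ≤ 21 / 10) (ha : 0 ≤ a) (ha1 : a ≤ 1)
    (hb : 0 ≤ b) (hb1 : b ≤ 1) : l ^ 5 ≤ P9.k l a b a b (1 - (a ^ 2 + b ^ 2) / 2) := by
  have h := chk3_sound P9.chk_Rpp ha ha1 hb hb1 (w := 10 * l / 21) (by linarith) (by linarith)
  have e : (3 / 2500000) * e3 P9.LRpp a b (10 * l / 21) =
      P9.k l a b a b (1 - (a ^ 2 + b ^ 2) / 2) - l ^ 5 := by
    simp only [e3, e2, e1, eL, e0, P9.LRpp, Int.cast_neg, Int.cast_ofNat, Int.cast_zero,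
      Int.cast_one]
    unfold P9.k P9.kx P9.Vn P9.Wn P9.Vp P9.Wp
    ring
  have : 0 ≤ (3 / 2500000) * e3 P9.LRpp a b (10 * l / 21) := by positivity
  linarith

def P9.LRpm : List (List (List ℤ)) :=
  [[[249600000000, 0, 5247900000000, -24078600000000, 71545281318000, -83996377934175, 37544977128960], [0, 2252082000000, -9172800000000, 36514733850000, -68716620000000, 101315110327200, -91483862400000, 35041978653696], [208000000000, 0, 1574370000000, -4013100000000, 5110377237000, 0, -2085832062720], [0, 258867000000, -1146600000000, 2769826185000, -2917215000000, 1104340910400]],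
  [[0, -3287550000000, 13759200000000, -47594038590000, 80385480000000, -105732473968800, 91483862400000, -35041978653696], [0, 0, -17395862400000, 77051520000000, -186132319632000, 196036848000000, -74211709178880], [0, -1812069000000, 5733000000000, -8309478555000, 2917215000000, 1104340910400]],
  [[208000000000, 0, 1574370000000, -4013100000000, 5110377237000, 0, -2085832062720], [0, 2329803000000, -8026200000000, 13849130925000, -8751645000000, 1104340910400]],
  [[0, 258867000000, -1146600000000, 2769826185000, -2917215000000, 1104340910400]]]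

theorem P9.chk_Rpm : chk3 3 3 3 P9.LRpm = true := by decide +kernel

theorem P9.kRpm {l a b : ℝ} (hl : 0 ≤ l) (hl2 : l ≤ 21 / 10) (ha : 0 ≤ a) (ha1 : a ≤ 1)
    (hb : 0 ≤ b) (hb1 : b ≤ 1) : l ^ 5 ≤ P9.k l a (-b) a b (1 - (a ^ 2 + b ^ 2) / 2) := by
  have h := chk3_sound P9.chk_Rpm ha ha1 hb hb1 (w := 10 * l / 21) (by linarith) (by linarith)
  have e : (3 / 2500000) * e3 P9.LRpm a b (10 * l / 21) =
      P9.k l a (-b) a b (1 - (a ^ 2 + b ^ 2) / 2) - l ^ 5 := by
    simp only [e3, e2, e1, eL, e0, P9.LRpm, Int.cast_neg, Int.cast_ofNat, Int.cast_zero,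
      Int.cast_one]
    unfold P9.k P9.kx P9.Vn P9.Wn P9.Vp P9.Wp
    ring
  have : 0 ≤ (3 / 2500000) * e3 P9.LRpm a b (10 * l / 21) := by positivity
  linarith

def P9.LRmm : List (List (List ℤ)) :=
  [[[249600000000, 0, 5247900000000, -24078600000000, 71545281318000, -83996377934175, 37544977128960], [0, 2252082000000, -9172800000000, 36514733850000, -68716620000000, 101315110327200, -91483862400000, 35041978653696], [208000000000, 0, 1574370000000, -4013100000000, 5110377237000, 0, -2085832062720], [0, 258867000000, -1146600000000, 2769826185000, -2917215000000, 1104340910400]],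
  [[0, 2252082000000, -9172800000000, 36514733850000, -68716620000000, 101315110327200, -91483862400000, 35041978653696], [0, 0, 17395862400000, -77051520000000, 186132319632000, -196036848000000, 74211709178880], [0, 2329803000000, -8026200000000, 13849130925000, -8751645000000, 1104340910400]],
  [[208000000000, 0, 1574370000000, -4013100000000, 5110377237000, 0, -2085832062720], [0, 2329803000000, -8026200000000, 13849130925000, -8751645000000, 1104340910400]],
  [[0, 258867000000, -1146600000000, 2769826185000, -2917215000000, 1104340910400]]]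

theorem P9.chk_Rmm : chk3 3 3 3 P9.LRmm = true := by decide +kernel

theorem P9.kRmm {l a b : ℝ} (hl : 0 ≤ l) (hl2 : l ≤ 21 / 10) (ha : 0 ≤ a) (ha1 : a ≤ 1)
    (hb : 0 ≤ b) (hb1 : b ≤ 1) : l ^ 5 ≤ P9.k l (-a) (-b) a b (1 - (a ^ 2 + b ^ 2) / 2) := by
  have h := chk3_sound P9.chk_Rmm ha ha1 hb hb1 (w := 10 * l / 21) (by linarith) (by linarith)
  have e : (3 / 2500000) * e3 P9.LRmm a b (10 * l / 21) =
      P9.k l (-a) (-b) a b (1 - (a ^ 2 + b ^ 2) / 2) - l ^ 5 := by
    simp only [e3, e2, e1, eL, e0, P9.LRmm, Int.cast_neg, Int.cast_ofNat, Int.cast_zero,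
      Int.cast_one]
    unfold P9.k P9.kx P9.Vn P9.Wn P9.Vp P9.Wp
    ring
  have : 0 ≤ (3 / 2500000) * e3 P9.LRmm a b (10 * l / 21) := by positivity
  linarith

def P9.LRopp : List (List (List ℤ)) :=
  [[[367996, 140770, 0, 317050], [-160880, 0, -507280, -116100], [0, 10055, 0, 95115], [0, 0, 0, 9675]],
  [[-160880, 0, -507280, -116100], [0, 0, 619200], [0, 0, 0, -48375]],
  [[0, 10055, 0, 95115], [0, 0, 0, -48375]],
  [[0, 0, 0, 9675]]]

theorem P9.chk_Ropp : chk3 3 3 3 P9.LRopp = true := by decide +kernel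

theorem P9.kRopp {l a b : ℝ} (hl : 2 ≤ l) (ha : 0 ≤ a) (ha1 : a ≤ 1)
    (hb : 0 ≤ b) (hb1 : b ≤ 1) : l ^ 3 ≤ P9.ko l a b a b (1 - (a ^ 2 + b ^ 2) / 2) := by
  have hl0 : 0 < l := by linarith
  have h := chk3_sound P9.chk_Ropp ha ha1 hb hb1 (w := 2 / l) (by positivity)
    (by rw [div_le_one hl0]; exact hl)
  have e : (1 / 4) * l ^ 3 * e3 P9.LRopp a b (2 / l) =
      P9.ko l a b a b (1 - (a ^ 2 + b ^ 2) / 2) - l ^ 3 := by
    simp only [e3, e2, e1, eL, e0, P9.LRopp, Int.cast_neg, Int.cast_ofNat, Int.cast_zero,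
      Int.cast_one]
    unfold P9.ko P9.kox
    field_simp
    ring
  have : 0 ≤ (1 / 4) * l ^ 3 * e3 P9.LRopp a b (2 / l) := by positivity
  linarith

def P9.LRopm : List (List (List ℤ)) :=
  [[[367996, 140770, 0, 317050], [160880, 0, 507280, 77400], [0, 10055, 0, 95115], [0, 0, 0, 9675]],
  [[-160880, 0, -507280, -116100], [0, 0, -619200], [0, 0, 0, -48375]],
  [[0, 10055, 0, 95115], [0, 0, 0, 67725]],
  [[0, 0, 0, 9675]]]

theorem P9.chk_Ropm : chk3 3 3 3 P9.LRopm = true := by decide +kernel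

theorem P9.kRopm {l a b : ℝ} (hl : 2 ≤ l) (ha : 0 ≤ a) (ha1 : a ≤ 1)
    (hb : 0 ≤ b) (hb1 : b ≤ 1) : l ^ 3 ≤ P9.ko l a (-b) a b (1 - (a ^ 2 + b ^ 2) / 2) := by
  have hl0 : 0 < l := by linarith
  have h := chk3_sound P9.chk_Ropm ha ha1 hb hb1 (w := 2 / l) (by positivity)
    (by rw [div_le_one hl0]; exact hl)
  have e : (1 / 4) * l ^ 3 * e3 P9.LRopm a b (2 / l) =
      P9.ko l a (-b) a b (1 - (a ^ 2 + b ^ 2) / 2) - l ^ 3 := by
    simp only [e3, e2, e1, eL, e0, P9.LRopm, Int.cast_neg, Int.cast_ofNat, Int.cast_zero,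
      Int.cast_one]
    unfold P9.ko P9.kox
    field_simp
    ring
  have : 0 ≤ (1 / 4) * l ^ 3 * e3 P9.LRopm a b (2 / l) := by positivity
  linarith

def P9.LRomm : List (List (List ℤ)) :=
  [[[367996, 140770, 0, 317050], [160880, 0, 507280, 77400], [0, 10055, 0, 95115], [0, 0, 0, 9675]],
  [[160880, 0, 507280, 77400], [0, 0, 619200], [0, 0, 0, 67725]],
  [[0, 10055, 0, 95115], [0, 0, 0, 67725]],
  [[0, 0, 0, 9675]]]

theorem P9.chk_Romm : chk3 3 3 3 P9.LRomm = true := by decide +kernel

theorem P9.kRomm {l a b : ℝ} (hl : 2 ≤ l) (ha : 0 ≤ a) (ha1 : a ≤ 1)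
    (hb : 0 ≤ b) (hb1 : b ≤ 1) : l ^ 3 ≤ P9.ko l (-a) (-b) a b (1 - (a ^ 2 + b ^ 2) / 2) := by
  have hl0 : 0 < l := by linarith
  have h := chk3_sound P9.chk_Romm ha ha1 hb hb1 (w := 2 / l) (by positivity)
    (by rw [div_le_one hl0]; exact hl)
  have e : (1 / 4) * l ^ 3 * e3 P9.LRomm a b (2 / l) =
      P9.ko l (-a) (-b) a b (1 - (a ^ 2 + b ^ 2) / 2) - l ^ 3 := by
    simp only [e3, e2, e1, eL, e0, P9.LRomm, Int.cast_neg, Int.cast_ofNat, Int.cast_zero,
      Int.cast_one]
    unfold P9.ko P9.kox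
    field_simp
    ring
  have : 0 ≤ (1 / 4) * l ^ 3 * e3 P9.LRomm a b (2 / l) := by positivity
  linarith

def P9.LRq : List (List ℤ) :=
  [[0, 1871998437500, 0, 4072500000000, -15600000000000, 28839300000000, -4800000000000, -53616600000000, 64000000000000, -22195200000000],
  [982796718750, 0, 8552250000000, -32760000000000, 60562530000000, -10080000000000, -112594860000000, 134400000000000, -46609920000000],
  [0, 13469793750000, -51597000000000, 95385984750000, -15876000000000, -177336904500000, 211680000000000, -73410624000000],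
  [20663606250000, -72235800000000, 133540378650000, -22226400000000, -248271666300000, 296352000000000, -102774873600000],
  [-94809487500000, 161786555988750, -29172150000000, -325856562018750, 388962000000000, -134892021600000],
  [281709545189625, 3063075750000, -410579268143625, 490092120000000, -169963947216000],
  [-330735604106250, -551055904037100, 600362847000000, -208205835339600],
  [147833347445280, 720435416400000, -249847002407520],
  [0, -275955581897856]]

theorem P9.chk_Rq : chk2 4 4 P9.LRq = true := by decide +kernel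

theorem P9.diagR {l c : ℝ} (hl : 0 ≤ l) (hl2 : l ≤ 21 / 10) (hc : 0 ≤ c) (hc1 : c ≤ 1) :
    c ^ 2 * (3594240 * l - P9.f c) + (l - 2 * c) ^ 2 * (l + c) ≤
      l ^ 3 * P9.k l c c c c (1 - c ^ 2) := by
  have h := chk2_sound P9.chk_Rq (x := 10 * l / 21) (by linarith) (by linarith) hc hc1
  have e : l ^ 3 * P9.k l c c c c (1 - c ^ 2) - c ^ 2 * (3594240 * l - P9.f c) =
      (l - 2 * c) ^ 2 * ((1 / 1562500) * e2 P9.LRq (10 * l / 21) c + (l + c)) := by
    simp only [e3, e2, e1, eL, e0, P9.LRq, Int.cast_neg, Int.cast_ofNat, Int.cast_zero,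
      Int.cast_one]
    unfold P9.k P9.kx P9.Vn P9.Wn P9.Vp P9.Wp P9.f
    ring
  have : 0 ≤ (l - 2 * c) ^ 2 * ((1 / 1562500) * e2 P9.LRq (10 * l / 21) c) := by positivity
  linarith

def P9.LRqo : List (List ℤ) :=
  [[5888000, -5148160],
  [2252320, 0, 321760],
  [0, -16232960, 9907200],
  [5072800, -3715200, 3043680, -1238400],
  [],
  [],
  [-1],
  [0, 2, -1797120],
  [0, 0, -1, 1198080, 0, 2606400, -9984000, 18457152, -3072000, -34314624, 40960000, -14204928]]

theorem P9.chk_Rqo : chk2 5 5 P9.LRqo = true := by decide +kernel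

theorem P9.diagOR {l c : ℝ} (hl : 2 ≤ l) (hc : 0 ≤ c) (hc1 : c ≤ 1) :
    c ^ 2 * (3594240 * l - P9.f c) + (l - 2 * c) ^ 2 ≤ l ^ 5 * P9.ko l c c c c (1 - c ^ 2) := by
  have hl0 : 0 < l := by linarith
  have h := chk2_sound P9.chk_Rqo (x := 2 / l) (by positivity)
    (by rw [div_le_one hl0]; exact hl) hc hc1
  have e : l ^ 5 * P9.ko l c c c c (1 - c ^ 2) - c ^ 2 * (3594240 * l - P9.f c) -
      (l - 2 * c) ^ 2 = (1 / 64) * l ^ 8 * e2 P9.LRqo (2 / l) c := by
    simp only [e3, e2, e1, eL, e0, P9.LRqo, Int.cast_neg, Int.cast_ofNat, Int.cast_zero,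
      Int.cast_one]
    unfold P9.ko P9.kox P9.f
    field_simp
    ring
  have : 0 ≤ (1 / 64) * l ^ 8 * e2 P9.LRqo (2 / l) c := by positivity
  linarith

def P9.LRw : List ℤ :=
  [369809375,
  -1638000000,
  3956894550,
  -4167450000,
  1577629872]

theorem P9.chk_Rw : chk1 6 P9.LRw = true := by decide +kernel

theorem P9.wR {l : ℝ} (hl : 0 ≤ l) (hl2 : l ≤ 21 / 10) : 0 < P9.Wn l := by
  have h := chk1_sound P9.chk_Rw (y := 10 * l / 21) (by linarith) (by linarith)
  have e : (1 / 625) * e1 P9.LRw (10 * l / 21) = P9.Wn l - 1 := by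
    simp only [e3, e2, e1, eL, e0, P9.LRw, Int.cast_neg, Int.cast_ofNat, Int.cast_zero,
      Int.cast_one]
    unfold P9.Wn
    ring
  have : 0 ≤ (1 / 625) * e1 P9.LRw (10 * l / 21) := by positivity
  linarith

end Vale.Agent.P219.TP
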