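import Vale.Agent.P219.TPR.CertR
import Vale.Agent.P219.TP.InMk

/-! # Certificates with strictness from glued fields

Continuous minorant of the regularised kernels of a field `(V(ρ) - a W(ρ)) ∇ρ` which has a kink at
`ρ = 2`, and the field `approxR` of the structure `CertR`. -/

open MeasureTheory Set Metric Filter Topology
open scoped ENNReal ContDiff

namespace Vale.Agent.P219.TP

/-- The data needed for the field `approxR` of a certificate. -/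
def RegDataR (m : ℕ) (lam s : ℝ) (f : ℝ → ℝ) (K : ℝ → ℝ → ℝ → ℝ) (ε : ℝ) : Prop :=
  ∃ (V W V' W' : ℝ → ℝ) (C : ℝ), 0 ≤ C ∧ ContDiffOn ℝ ∞ V (Ioi 0) ∧ ContDiffOn ℝ ∞ W (Ioi 0) ∧
    (∀ ρ > 0, HasDerivAt V (V' ρ) ρ ∧ HasDerivAt W (W' ρ) ρ ∧ 0 ≤ W ρ ∧ 11 / 10 * W ρ ≤ V ρ ∧
      V' ρ + |W' ρ| + 2 * W ρ / ρ ≤ V ρ / ρ + C * ρ ^ 2) ∧
    (∀ ρ > 0, ∀ a b : ℝ, |a| ≤ 1 → |b| ≤ 1 →
      0 ≤ lam + ε + sk m (V ρ) (V' ρ) (W ρ) (W' ρ) ρ a b) ∧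
    (∀ ρ > 0, ∀ a b : ℝ, 0 ≤ a → a ≤ 1 → 0 ≤ b → b ≤ 1 →
      a * b * (s * ρ - (f a + f b) / 2) ≤
        (lam + ε + sk m (V ρ) (V' ρ) (W ρ) (W' ρ) ρ a b) * ρ ^ m) ∧
    (∀ ρ > 0, ∀ a b : ℝ, |a| ≤ 1 → |b| ≤ 1 →
      K ρ a b ≤ lam + ε + sk m (V ρ) (V' ρ) (W ρ) (W' ρ) ρ a b)

theorem glue_middleK {m : ℕ} (hm : 1 ≤ m) {lam v v' w w' v0 x0 y0 z0 x y z θ κ ε δ ρ : ℝ}
    (hκ : 0 < κ) (hκ3 : (4 * m + 4) * (2 * κ) ≤ ε / 4) (hδ1 : δ ≤ 1 / 2)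
    (hδ2 : m * |v0| * δ ≤ ε / 4) (hl : 2 - δ < ρ) (hr : ρ < 2 + δ)
    (m1 : |v - v0| ≤ 2 * κ) (m2 : |w| ≤ κ) (hv' : v' = x * θ + y * (1 - θ)) (hw' : w' = z * θ)
    (m3 : |x * θ + y * (1 - θ) - (x0 * θ + y0 * (1 - θ))| ≤ κ) (m4 : |z * θ - z0 * θ| ≤ κ)
    {a b : ℝ} (ha : |a| ≤ 1) (hb : |b| ≤ 1) :
    (θ * (lam + sk m v0 x0 0 z0 2 a b) + (1 - θ) * (lam + sk m v0 y0 0 0 2 a b)) + ε / 2 ≤
      lam + ε + sk m v v' w w' ρ a b := by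
  have hρ1 : 1 ≤ ρ := by linarith
  have hρ2 : |ρ - 2| ≤ δ := by rw [abs_le]; constructor <;> linarith
  have h3 := sk_near (m := m) ha hb hρ1 hρ2 hm m1 (m3.trans (by linarith))
    (m2.trans (by linarith : κ ≤ 2 * κ)) (m4.trans (by linarith))
  have h4 := sk_mix (m := m) v0 x0 y0 z0 θ a b
  rw [h4, ← hv', ← hw'] at h3
  linarith

/-- Gluing of the fields `V_i - a W_i` on `(0,2]` and `V_o` on `[2,∞)`, with a minorant `K` of the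
kernel. -/
theorem glueR {m : ℕ} (hm : 1 ≤ m) {lam s : ℝ} {f : ℝ → ℝ} (hs : 0 ≤ s)
    (hf : ∀ a, 0 ≤ a → a ≤ 1 → 0 ≤ f a)
    {Vi Wi Vo Vi' Wi' Vo' : ℝ → ℝ} {C : ℝ} (hC : 0 ≤ C)
    (sVi : ContDiffOn ℝ ∞ Vi (Ioi 0)) (sWi : ContDiffOn ℝ ∞ Wi (Ioi 0))
    (sVo : ContDiffOn ℝ ∞ Vo (Ioi 0))
    (dVi : ∀ ρ > 0, HasDerivAt Vi (Vi' ρ) ρ) (dWi : ∀ ρ > 0, HasDerivAt Wi (Wi' ρ) ρ)
    (dVo : ∀ ρ > 0, HasDerivAt Vo (Vo' ρ) ρ)
    (cVi : ContinuousAt Vi' 2) (cWi : ContinuousAt Wi' 2) (cVo : ContinuousAt Vo' 2)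
    (h2 : Vi 2 = Vo 2) (hW2 : Wi 2 = 0) (hpos : 0 < Vi 2)
    (hin : ∀ ρ, 0 < ρ → ρ ≤ 2 → InOK m lam s f C (Vi ρ) (Vi' ρ) (Wi ρ) (Wi' ρ) ρ)
    (hout : ∀ ρ, 2 ≤ ρ → InOK m lam s f C (Vo ρ) (Vo' ρ) 0 0 ρ)
    {K : ℝ → ℝ → ℝ → ℝ}
    (hK1 : ∀ ρ, 0 < ρ → ρ ≤ 2 → ∀ a b : ℝ, |a| ≤ 1 → |b| ≤ 1 →
      K ρ a b ≤ lam + sk m (Vi ρ) (Vi' ρ) (Wi ρ) (Wi' ρ) ρ a b)
    (hK2 : ∀ ρ, 2 ≤ ρ → ∀ a b : ℝ, |a| ≤ 1 → |b| ≤ 1 →
      K ρ a b ≤ lam + sk m (Vo ρ) (Vo' ρ) 0 0 ρ a b)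
    (hKn : ∀ ε > 0, ∃ δ > 0, ∀ ρ, |ρ - 2| < δ → ∀ a b : ℝ, |a| ≤ 1 → |b| ≤ 1 →
      K ρ a b ≤ K 2 a b + ε) :
    ∀ ε > 0, RegDataR m lam s f K ε := by
  intro ε hε
  have hm' : (1 : ℝ) ≤ m := by exact_mod_cast hm
  obtain ⟨δ0, hδ0, hKδ⟩ := hKn (ε / 2) (by positivity)
  obtain ⟨κ, hκ, hκ1, hκ2, hκ3⟩ : ∃ κ : ℝ, 0 < κ ∧ κ ≤ 1 ∧ κ ≤ Vi 2 / 8 ∧
      (4 * m + 4) * (2 * κ) ≤ ε / 4 := by
    refine ⟨min 1 (min (Vi 2 / 8) (ε / (32 * (m + 1)))), by positivity, min_le_left _ _,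
      (min_le_right _ _).trans (min_le_left _ _), ?_⟩
    have h : min 1 (min (Vi 2 / 8) (ε / (32 * ((m : ℝ) + 1)))) ≤ ε / (32 * (m + 1)) :=
      (min_le_right _ _).trans (min_le_right _ _)
    rw [le_div_iff₀ (by positivity)] at h
    linarith
  obtain ⟨δ, hδ, hδ1, hδ2, hδ3', mid⟩ := glue_mid (A := m * |Vi 2|)
    (B := s * (m + 1) + ε / δ0) (ε := ε) hκ
    (dVi 2 two_pos).continuousAt (dWi 2 two_pos).continuousAt (dVo 2 two_pos).continuousAt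
    cVi cWi cVo h2 hW2 (by positivity) (by positivity) hε
  have hδ3 : s * (m + 1) * δ ≤ ε / 2 := by
    have : 0 ≤ ε / δ0 * δ := by positivity
    linarith
  have hδδ0 : δ < δ0 := by
    have h1 : 0 ≤ s * (m + 1) * δ := by positivity
    have h3 : ε / δ0 * δ ≤ ε / 2 := by linarith
    have h4 : ε / δ0 * δ = ε * (δ / δ0) := by ring
    rw [h4] at h3
    have h5 : δ / δ0 < 1 := by
      by_contra hcon
      push Not at hcon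
      nlinarith
    exact (div_lt_one hδ0).1 h5
  have hδ01 : δ ≤ 1 := by linarith
  have hall : ∀ ρ > 0, InOK m (lam + ε) s f (C + |Vi' 2| + |Vo' 2| + |Wi' 2| + 4)
      (Vi (lo δ ρ) + Vo (hi δ ρ) - Vi 2)
      (Vi' (lo δ ρ) * thd δ (2 - ρ) + Vo' (hi δ ρ) * (1 - thd δ (2 - ρ)))
      (Wi (lo δ ρ)) (Wi' (lo δ ρ) * thd δ (2 - ρ)) ρ ∧ ∀ a b : ℝ, |a| ≤ 1 → |b| ≤ 1 →
      K ρ a b ≤ lam + ε + sk m (Vi (lo δ ρ) + Vo (hi δ ρ) - Vi 2)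
        (Vi' (lo δ ρ) * thd δ (2 - ρ) + Vo' (hi δ ρ) * (1 - thd δ (2 - ρ)))
        (Wi (lo δ ρ)) (Wi' (lo δ ρ) * thd δ (2 - ρ)) ρ a b := by
    intro ρ hρ
    have hCC : C ≤ C + |Vi' 2| + |Vo' 2| + |Wi' 2| + 4 := by
      have h3 := abs_nonneg (Vi' 2)
      have h4 := abs_nonneg (Vo' 2)
      have h5 := abs_nonneg (Wi' 2)
      linarith
    rcases le_or_gt ρ (2 - δ) with h | h
    · rw [lo_left hδ h, hi_left hδ h, thd_one hδ (by linarith), ← h2]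
      simp only [mul_one, sub_self, mul_zero, add_zero, add_sub_cancel_right]
      refine ⟨(hin ρ hρ (by linarith)).mono hCC hε.le hρ, fun a b ha hb => ?_⟩
      linarith [hK1 ρ hρ (by linarith) a b ha hb]
    rcases le_or_gt (2 + δ) ρ with h' | h'
    · rw [lo_right hδ h', hi_right hδ h', thd_zero hδ (by linarith), hW2]
      simp only [mul_zero, zero_add, sub_zero, mul_one, add_sub_cancel_left]
      refine ⟨(hout ρ (by linarith)).mono hCC hε.le hρ, fun a b ha hb => ?_⟩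
      linarith [hK2 ρ (by linarith) a b ha hb]
    · obtain ⟨m1, m2, m3, m4⟩ := mid ρ h h'
      obtain ⟨-, -, -, kin, pin⟩ := hin 2 two_pos le_rfl
      obtain ⟨-, -, -, kout, pout⟩ := hout 2 le_rfl
      have q1 := hK1 2 two_pos le_rfl
      have q2 := hK2 2 le_rfl
      rw [hW2] at kin pin q1
      rw [← h2] at kout pout q2
      refine ⟨glue_middle hm hs hf hC hε hκ hκ1 hκ2 hκ3 hδ hδ1 hδ2 hδ3 h h' (thd_nonneg _ _)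
        (thd_le_one _ _) (hin _ (lo_pos hδ hδ01 hρ) (lo_le hδ ρ)).1 m1 m2 rfl rfl m3 m4
        kin pin kout pout, fun a b ha hb => ?_⟩
      have h5 := glue_middleK (lam := lam) hm hκ hκ3 hδ1 hδ2 h h' m1 m2 rfl rfl m3 m4 ha hb
      refine le_trans ?_ h5
      have h6 := hKδ ρ (by rw [abs_lt]; constructor <;> linarith) a b ha hb
      have h7 := mul_le_mul_of_nonneg_left (q1 a b ha hb) (thd_nonneg δ (2 - ρ))
      have h8 := mul_le_mul_of_nonneg_left (q2 a b ha hb)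
        (sub_nonneg.2 (thd_le_one δ (2 - ρ)))
      linarith
  refine ⟨fun ρ => Vi (lo δ ρ) + Vo (hi δ ρ) - Vi 2, fun ρ => Wi (lo δ ρ),
    fun ρ => Vi' (lo δ ρ) * thd δ (2 - ρ) + Vo' (hi δ ρ) * (1 - thd δ (2 - ρ)),
    fun ρ => Wi' (lo δ ρ) * thd δ (2 - ρ), C + |Vi' 2| + |Vo' 2| + |Wi' 2| + 4, by positivity,
    ?_, ?_, ?_, ?_, ?_, ?_⟩
  · refine ContDiffOn.sub (ContDiffOn.add (sVi.comp (contDiff_lo δ).contDiffOn fun ρ hρ =>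
      lo_pos hδ hδ01 hρ) (sVo.comp (contDiff_hi δ).contDiffOn fun ρ _ => ?_)) contDiffOn_const
    have := le_hi hδ ρ
    change 0 < hi δ ρ
    linarith
  · exact sWi.comp (contDiff_lo δ).contDiffOn fun ρ hρ => lo_pos hδ hδ01 hρ
  · intro ρ hρ
    have hlo0 := lo_pos hδ hδ01 hρ
    obtain ⟨i1, i2, i3, -, -⟩ := (hall ρ hρ).1
    refine ⟨?_, ?_, i1, i2, i3⟩
    · have h3 : HasDerivAt (fun ρ => Vi (lo δ ρ)) (Vi' (lo δ ρ) * thd δ (2 - ρ)) ρ :=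
        HasDerivAt.comp ρ (dVi _ hlo0) (hasDerivAt_lo δ ρ)
      have h4 : HasDerivAt (fun ρ => Vo (hi δ ρ)) (Vo' (hi δ ρ) * (1 - thd δ (2 - ρ))) ρ :=
        HasDerivAt.comp ρ (dVo _ (by have := le_hi hδ ρ; linarith)) (hasDerivAt_hi δ ρ)
      exact (h3.add h4).sub_const _
    · exact HasDerivAt.comp ρ (dWi _ hlo0) (hasDerivAt_lo δ ρ)
  · intro ρ hρ a b ha hb
    exact (hall ρ hρ).1.2.2.2.1 a b ha hb
  · intro ρ hρ a b ha ha1 hb hb1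
    exact (hall ρ hρ).1.2.2.2.2 a b ha ha1 hb hb1
  · intro ρ hρ a b ha hb
    exact (hall ρ hρ).2 a b ha hb

/-- Choice of the regularisation parameter. -/
theorem reg_eta {C D ε δ r₀ : ℝ} (hC : 0 ≤ C) (hD : 0 ≤ D) (hε : 0 < ε) (hδ : 0 < δ)
    (hr₀ : 0 < r₀) :
    ∃ η : ℝ, 0 < η ∧ C * η ^ 2 ≤ ε / 4 ∧ D * η ≤ ε ∧ η ^ 2 < δ * r₀ ^ 2 := by
  obtain ⟨x, hx⟩ : ∃ x, x = min 1 (min (ε / (4 * (C + 1))) (min (ε / (D + 1))
    (min (δ * r₀ ^ 2 / 2) 1))) := ⟨_, rfl⟩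
  have hx0 : 0 < x := by rw [hx]; positivity
  have hx1 : x ≤ 1 := hx ▸ min_le_left _ _
  have hx2 : x ≤ ε / (4 * (C + 1)) := hx ▸ (min_le_right _ _).trans (min_le_left _ _)
  have hx3 : x ≤ ε / (D + 1) :=
    hx ▸ (min_le_right _ _).trans ((min_le_right _ _).trans (min_le_left _ _))
  have hx4 : x ≤ δ * r₀ ^ 2 / 2 :=
    hx ▸ (min_le_right _ _).trans ((min_le_right _ _).trans ((min_le_right _ _).trans
      (min_le_left _ _)))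
  have hsq : x ^ 2 ≤ x := by nlinarith
  have hr2 : 0 < δ * r₀ ^ 2 := by positivity
  refine ⟨x, hx0, ?_, ?_, by linarith⟩
  · rw [le_div_iff₀ (by positivity)] at hx2
    nlinarith [mul_le_mul_of_nonneg_left hsq hC]
  · rw [le_div_iff₀ (by positivity)] at hx3
    linarith

theorem reg_approxR {m : ℕ} {lam s : ℝ} {f : ℝ → ℝ} {K : ℝ → ℝ → ℝ → ℝ} (hs : 0 ≤ s)
    (hf : MonotoneOn f (Icc 0 1)) (hf0 : 0 ≤ f 0) (H : ∀ ε > 0, RegDataR m lam s f K ε)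
    (hKu : ∀ ε > 0, ∀ r₀ > 0, ∃ δ > 0, ∀ r ρ q : ℝ, r₀ ≤ r → 0 < ρ → r = q * ρ → 0 ≤ q → q ≤ 1 →
      1 - q ^ 2 < δ → ∀ a b : ℝ, |a| ≤ 1 → |b| ≤ 1 → K r a b ≤ K ρ (q * a) (q * b) + ε) :
    ∀ ε > 0, ∀ r₀ > 0, ∃ Φ : ℝ × ℝ → ℝ, ∃ δ > 0, ContDiffOn ℝ ∞ Φ {p | -δ < p.1} ∧
    (∀ p : ℝ × ℝ, 0 ≤ p.1 → 0 ≤ Φ p) ∧
    (∀ r a b : ℝ, 0 ≤ r → |a| ≤ 1 → |b| ≤ 1 → 0 ≤ ker m Φ (lam + ε) r a b) ∧
    (∀ r a b : ℝ, 0 < r → 0 ≤ a → a ≤ 1 → 0 ≤ b → b ≤ 1 →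
      a * b * (s * r - (f a + f b) / 2 - ε) ≤ ker m Φ (lam + ε) r a b * r ^ m) ∧
    ∀ r a b : ℝ, r₀ ≤ r → |a| ≤ 1 → |b| ≤ 1 → K r a b ≤ ker m Φ (lam + ε) r a b := by
  intro ε hε r₀ hr₀
  obtain ⟨V, W, V', W', C, hC, hVs, hWs, hall, hK, hP, hM⟩ := H (ε / 2) (by positivity)
  obtain ⟨δ, hδ, hKδ⟩ := hKu (ε / 4) (by positivity) r₀ hr₀
  obtain ⟨η, hη, hη1, hη2, hη3⟩ := reg_eta (D := ((m : ℝ) / 2 + 1) * s) hC (by positivity) hε hδ hr₀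
  have hnn : ∀ r a b : ℝ, 0 ≤ r → |a| ≤ 1 → |b| ≤ 1 →
      0 ≤ ker m (rPhi V W η) (lam + ε) r a b := by
    intro r a b hr ha hb
    obtain ⟨ρ, q, hρ, hρ2, hq, hq0, hq1, -⟩ := P8.exists_rho hη hr
    obtain ⟨d1, d2, d3, d4, d5⟩ := hall ρ hρ
    have h1 := rker_ge (m := m) (lam := lam + ε) hη ha hb hρ hρ2 hq hq0 hq1 d1 d2 d3 d5
    have h2 : |q * a| ≤ 1 := by
      rw [abs_mul, abs_of_nonneg hq0]; exact mul_le_one₀ hq1 (abs_nonneg _) ha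
    have h3 : |q * b| ≤ 1 := by
      rw [abs_mul, abs_of_nonneg hq0]; exact mul_le_one₀ hq1 (abs_nonneg _) hb
    have h4 := hK ρ hρ _ _ h2 h3
    linarith
  refine ⟨rPhi V W η, η ^ 2, by positivity, rPhi_contDiff hVs hWs, ?_, hnn, ?_, ?_⟩
  · intro p hp
    exact rPhi_nonneg hη (fun ρ hρ => (hall ρ hρ).2.2.1) (fun ρ hρ => (hall ρ hρ).2.2.2.1) hp
  · intro r a b hr ha ha1 hb hb1
    have haa : |a| ≤ 1 := by rwa [abs_of_nonneg ha]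
    have hbb : |b| ≤ 1 := by rwa [abs_of_nonneg hb]
    obtain ⟨ρ, q, hρ, hρ2, hq, hq0, hq1, -⟩ := P8.exists_rho hη hr.le
    obtain ⟨d1, d2, d3, d4, d5⟩ := hall ρ hρ
    have h1 := rker_ge (m := m) (lam := lam + ε) hη haa hbb hρ hρ2 hq hq0 hq1 d1 d2 d3 d5
    have hK0 := hnn r a b hr.le haa hbb
    have hqa : q * a ≤ a := by nlinarith
    have hqb : q * b ≤ b := by nlinarith
    have hqa0 : 0 ≤ q * a := mul_nonneg hq0 ha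
    have hqb0 : 0 ≤ q * b := mul_nonneg hq0 hb
    have h2 := hP ρ hρ _ _ hqa0 (hqa.trans ha1) hqb0 (hqb.trans hb1)
    have f1 : f (q * a) ≤ f a := hf ⟨hqa0, hqa.trans ha1⟩ ⟨ha, ha1⟩ hqa
    have f2 : f (q * b) ≤ f b := hf ⟨hqb0, hqb.trans hb1⟩ ⟨hb, hb1⟩ hqb
    have f3 : 0 ≤ f a := hf0.trans (hf ⟨le_rfl, zero_le_one⟩ ⟨ha, ha1⟩ ha)
    have f4 : 0 ≤ f b := hf0.trans (hf ⟨le_rfl, zero_le_one⟩ ⟨hb, hb1⟩ hb)
    have key : (q * a) * (q * b) * (s * ρ - (f a + f b) / 2) ≤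
        ker m (rPhi V W η) (lam + ε) r a b * ρ ^ m := by
      calc (q * a) * (q * b) * (s * ρ - (f a + f b) / 2) ≤
          (q * a) * (q * b) * (s * ρ - (f (q * a) + f (q * b)) / 2) :=
            mul_le_mul_of_nonneg_left (by linarith) (by positivity)
        _ ≤ _ := h2
        _ ≤ _ := by
            refine mul_le_mul_of_nonneg_right ?_ (by positivity)
            linarith
    have := regularise (m := m) hs hη hρ hρ2 hr.le hq hq0 hq1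
      (mul_nonneg ha hb) (by linarith) hK0 key
    refine le_trans ?_ this
    refine mul_le_mul_of_nonneg_left ?_ (mul_nonneg ha hb)
    linarith
  · intro r a b hr ha hb
    have hr0 : 0 < r := lt_of_lt_of_le hr₀ hr
    obtain ⟨ρ, q, hρ, hρ2, hq, hq0, hq1, -⟩ := P8.exists_rho hη hr0.le
    obtain ⟨d1, d2, d3, d4, d5⟩ := hall ρ hρ
    have h1 := rker_ge (m := m) (lam := lam + ε) hη ha hb hρ hρ2 hq hq0 hq1 d1 d2 d3 d5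
    have h2 : |q * a| ≤ 1 := by
      rw [abs_mul, abs_of_nonneg hq0]; exact mul_le_one₀ hq1 (abs_nonneg _) ha
    have h3 : |q * b| ≤ 1 := by
      rw [abs_mul, abs_of_nonneg hq0]; exact mul_le_one₀ hq1 (abs_nonneg _) hb
    have h4 := hM ρ hρ _ _ h2 h3
    have h5 : 1 - q ^ 2 < δ := by
      have e1 : (1 - q ^ 2) * ρ ^ 2 = η ^ 2 := by
        have : r ^ 2 = q ^ 2 * ρ ^ 2 := by rw [hq]; ring
        linarith
      have e2 : δ * r₀ ^ 2 ≤ δ * ρ ^ 2 := by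
        refine mul_le_mul_of_nonneg_left ?_ hδ.le
        have : r₀ ^ 2 ≤ r ^ 2 := pow_le_pow_left₀ hr₀.le hr 2
        linarith [sq_nonneg η]
      have e3 : (1 - q ^ 2) * ρ ^ 2 < δ * ρ ^ 2 := by linarith
      exact lt_of_mul_lt_mul_right e3 (by positivity)
    have h6 := hKδ r ρ q hr hρ hq hq0 hq1 h5 a b ha hb
    linarith

/-! ### The kernel -/

/-- The inner kernel. -/
noncomputable def kin (m : ℕ) (lam : ℝ) (Vi Vi' Wi Wi' : ℝ → ℝ) (x a b : ℝ) : ℝ :=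
  lam + sk m (Vi x) (Vi' x) (Wi x) (Wi' x) x a b

/-- The outer kernel. -/
noncomputable def kou (m : ℕ) (lam : ℝ) (Vo Vo' : ℝ → ℝ) (y a b : ℝ) : ℝ :=
  lam + sk m (Vo y) (Vo' y) 0 0 y a b

/-- The kernel: the inner one for `r ≤ 2`, the outer one minus the jump at `2` for `r ≥ 2`. -/
noncomputable def KG (m : ℕ) (lam : ℝ) (Vi Vi' Wi Wi' Vo Vo' : ℝ → ℝ) (r a b : ℝ) : ℝ :=
  kin m lam Vi Vi' Wi Wi' (min r 2) a b + (kou m lam Vo Vo' (max r 2) a b -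
    kou m lam Vo Vo' 2 a b)

section KG

variable {m : ℕ} {lam : ℝ} {Vi Vi' Wi Wi' Vo Vo' : ℝ → ℝ}

theorem KG_le {r : ℝ} (hr : r ≤ 2) (a b : ℝ) : KG m lam Vi Vi' Wi Wi' Vo Vo' r a b =
    lam + sk m (Vi r) (Vi' r) (Wi r) (Wi' r) r a b := by
  unfold KG
  rw [min_eq_left hr, max_eq_right hr, sub_self, add_zero]
  rfl

theorem KG_ge {r : ℝ} (hr : 2 ≤ r) (a b : ℝ) : KG m lam Vi Vi' Wi Wi' Vo Vo' r a b =
    (lam + sk m (Vo r) (Vo' r) 0 0 r a b) -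
      (kou m lam Vo Vo' 2 a b - kin m lam Vi Vi' Wi Wi' 2 a b) := by
  unfold KG
  rw [min_eq_right hr, max_eq_left hr]
  unfold kou
  ring

/-- The kernel in the variable `u = 1 / r`. -/
noncomputable def KU (m : ℕ) (lam : ℝ) (Vi Vi' Wi Wi' : ℝ → ℝ) (Go : ℝ → ℝ → ℝ → ℝ)
    (u a b : ℝ) : ℝ :=
  kin m lam Vi Vi' Wi Wi' (1 / max u (1 / 2)) a b + (Go (min u (1 / 2)) a b - Go (1 / 2) a b)

theorem KG_eq_KU {Go : ℝ → ℝ → ℝ → ℝ}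
    (hGo : ∀ y, 2 ≤ y → ∀ a b : ℝ, kou m lam Vo Vo' y a b = Go (1 / y) a b) {r : ℝ} (hr : 0 < r)
    (a b : ℝ) : KG m lam Vi Vi' Wi Wi' Vo Vo' r a b = KU m lam Vi Vi' Wi Wi' Go (1 / r) a b := by
  unfold KG KU
  rcases le_total r 2 with h | h
  · have h1 : 1 / 2 ≤ 1 / r := one_div_le_one_div_of_le hr h
    rw [min_eq_left h, max_eq_right h, max_eq_left h1, min_eq_right h1, one_div_one_div, sub_self,
      sub_self]
  · have h1 : 1 / r ≤ 1 / 2 := one_div_le_one_div_of_le two_pos h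
    rw [min_eq_right h, max_eq_left h, max_eq_right h1, min_eq_left h1, one_div_one_div,
      hGo r h, hGo 2 le_rfl]

theorem continuous_kin (cVi : ContinuousOn Vi (Ioi 0)) (cVi' : ContinuousOn Vi' (Ioi 0))
    (cWi : ContinuousOn Wi (Ioi 0)) (cWi' : ContinuousOn Wi' (Ioi 0)) :
    Continuous fun z : ℝ × ℝ × ℝ => kin m lam Vi Vi' Wi Wi' (1 / max z.1 (1 / 2)) z.2.1 z.2.2 := by
  have h0 : ∀ z : ℝ × ℝ × ℝ, 0 < max z.1 (1 / 2) := fun z =>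
    lt_of_lt_of_le (by norm_num) (le_max_right _ _)
  have hx : Continuous fun z : ℝ × ℝ × ℝ => 1 / max z.1 (1 / 2) :=
    continuous_const.div (by fun_prop) fun z => (h0 z).ne'
  have hm : ∀ z : ℝ × ℝ × ℝ, 1 / max z.1 (1 / 2) ∈ Ioi (0 : ℝ) := fun z => one_div_pos.2 (h0 z)
  have c1 := cVi.comp_continuous hx hm
  have c2 := cVi'.comp_continuous hx hm
  have c3 := cWi.comp_continuous hx hm
  have c4 := cWi'.comp_continuous hx hm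
  have hne : ∀ z : ℝ × ℝ × ℝ, 1 / max z.1 (1 / 2) ≠ 0 := fun z => (hm z).ne'
  have ca : Continuous fun z : ℝ × ℝ × ℝ => z.2.1 := by fun_prop
  have cb : Continuous fun z : ℝ × ℝ × ℝ => z.2.2 := by fun_prop
  unfold kin sk skx
  refine continuous_const.add (Continuous.div_const (Continuous.add ?_ ?_) _)
  · refine (((((c2.sub (ca.mul c4)).mul (by fun_prop)).add (((c1.sub (ca.mul c3)).div hx hne).mul
      (by fun_prop))).sub (continuous_const.mul ((c1.sub (ca.mul c3)).mul cb))).sub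
      (((c3.div hx hne).mul (by fun_prop)).mul (by fun_prop)))
  · refine (((((c2.sub (cb.mul c4)).mul (by fun_prop)).add (((c1.sub (cb.mul c3)).div hx hne).mul
      (by fun_prop))).sub (continuous_const.mul ((c1.sub (cb.mul c3)).mul ca))).sub
      (((c3.div hx hne).mul (by fun_prop)).mul (by fun_prop)))

theorem continuous_KU {Go : ℝ → ℝ → ℝ → ℝ} (cVi : ContinuousOn Vi (Ioi 0))
    (cVi' : ContinuousOn Vi' (Ioi 0)) (cWi : ContinuousOn Wi (Ioi 0))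
    (cWi' : ContinuousOn Wi' (Ioi 0))
    (cGo : Continuous fun z : ℝ × ℝ × ℝ => Go z.1 z.2.1 z.2.2) :
    Continuous fun z : ℝ × ℝ × ℝ => KU m lam Vi Vi' Wi Wi' Go z.1 z.2.1 z.2.2 := by
  unfold KU
  refine (continuous_kin cVi cVi' cWi cWi').add (Continuous.sub ?_ ?_)
  · exact cGo.comp (by fun_prop : Continuous fun z : ℝ × ℝ × ℝ => (min z.1 (1 / 2), z.2.1, z.2.2))
  · exact cGo.comp (by fun_prop : Continuous fun z : ℝ × ℝ × ℝ => ((1 / 2 : ℝ), z.2.1, z.2.2))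

theorem unif_of_U {K KU' : ℝ → ℝ → ℝ → ℝ} (hK : ∀ r, 0 < r → ∀ a b : ℝ, K r a b = KU' (1 / r) a b)
    (hc : Continuous fun z : ℝ × ℝ × ℝ => KU' z.1 z.2.1 z.2.2) {ε r₀ : ℝ} (hε : 0 < ε)
    (hr₀ : 0 < r₀) : ∃ δ > 0, ∀ r ρ q : ℝ, r₀ ≤ r → 0 < ρ → r = q * ρ → 0 ≤ q → q ≤ 1 →
      1 - q ^ 2 < δ → ∀ a b : ℝ, |a| ≤ 1 → |b| ≤ 1 → K r a b ≤ K ρ (q * a) (q * b) + ε := by
  have hC : IsCompact (Icc (0 : ℝ) (1 / r₀) ×ˢ (Icc (-1 : ℝ) 1 ×ˢ Icc (-1 : ℝ) 1)) :=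
    isCompact_Icc.prod (isCompact_Icc.prod isCompact_Icc)
  obtain ⟨δ, hδ, h⟩ := Metric.uniformContinuousOn_iff.1
    (hC.uniformContinuousOn_of_continuous hc.continuousOn) ε hε
  refine ⟨min δ (δ * r₀), by positivity, ?_⟩
  intro r ρ q hr hρ hq hq0 hq1 hqδ a b ha hb
  have hr0 : 0 < r := lt_of_lt_of_le hr₀ hr
  have hq2 : 1 - q ≤ 1 - q ^ 2 := by nlinarith
  have hqd : 1 - q < δ := lt_of_le_of_lt hq2 (hqδ.trans_le (min_le_left _ _))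
  have hqd2 : 1 - q < δ * r₀ := lt_of_le_of_lt hq2 (hqδ.trans_le (min_le_right _ _))
  have hq' : q ≠ 0 := by
    rintro rfl
    rw [zero_mul] at hq
    linarith
  have e : 1 / ρ = q * (1 / r) := by
    rw [hq]
    field_simp
  have hu0 : 0 < 1 / r := one_div_pos.2 hr0
  have hu1 : 1 / r ≤ 1 / r₀ := one_div_le_one_div_of_le hr₀ hr
  have hab := abs_le.1 ha
  have hbb := abs_le.1 hb
  have hqa : |q * a| ≤ 1 := by
    rw [abs_mul, abs_of_nonneg hq0]; exact mul_le_one₀ hq1 (abs_nonneg _) ha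
  have hqb : |q * b| ≤ 1 := by
    rw [abs_mul, abs_of_nonneg hq0]; exact mul_le_one₀ hq1 (abs_nonneg _) hb
  have hqab := abs_le.1 hqa
  have hqbb := abs_le.1 hqb
  rw [hK r hr0, hK ρ hρ, e]
  have hqu : q * (1 / r) ≤ 1 / r := mul_le_of_le_one_left hu0.le hq1
  have h1 := h (1 / r, a, b) ⟨⟨hu0.le, hu1⟩, ⟨hab.1, hab.2⟩, ⟨hbb.1, hbb.2⟩⟩
    (q * (1 / r), q * a, q * b) ⟨⟨mul_nonneg hq0 hu0.le, hqu.trans hu1⟩, ⟨hqab.1, hqab.2⟩,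
      ⟨hqbb.1, hqbb.2⟩⟩ (by
      rw [Prod.dist_eq, Prod.dist_eq]
      refine max_lt ?_ (max_lt ?_ ?_)
      · change dist (1 / r) (q * (1 / r)) < δ
        rw [Real.dist_eq, show 1 / r - q * (1 / r) = (1 - q) * (1 / r) by ring, abs_mul,
          abs_of_nonneg (by linarith : (0 : ℝ) ≤ 1 - q), abs_of_pos hu0]
        calc (1 - q) * (1 / r) ≤ (1 - q) * (1 / r₀) :=
              mul_le_mul_of_nonneg_left hu1 (by linarith)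
          _ < δ * r₀ * (1 / r₀) := mul_lt_mul_of_pos_right hqd2 (one_div_pos.2 hr₀)
          _ = δ := by field_simp
      · change dist a (q * a) < δ
        rw [Real.dist_eq, show a - q * a = (1 - q) * a by ring, abs_mul,
          abs_of_nonneg (by linarith : (0 : ℝ) ≤ 1 - q)]
        calc (1 - q) * |a| ≤ (1 - q) * 1 := mul_le_mul_of_nonneg_left ha (by linarith)
          _ < δ := by linarith
      · change dist b (q * b) < δ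
        rw [Real.dist_eq, show b - q * b = (1 - q) * b by ring, abs_mul,
          abs_of_nonneg (by linarith : (0 : ℝ) ≤ 1 - q)]
        calc (1 - q) * |b| ≤ (1 - q) * 1 := mul_le_mul_of_nonneg_left hb (by linarith)
          _ < δ := by linarith)
  rw [Real.dist_eq, abs_lt] at h1
  change KU' (1 / r) a b ≤ KU' (q * (1 / r)) (q * a) (q * b) + ε
  have h2 := h1.2
  simp only at h2
  linarith

theorem near_of_U {K KU' : ℝ → ℝ → ℝ → ℝ} (hK : ∀ r, 0 < r → ∀ a b : ℝ, K r a b = KU' (1 / r) a b)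
    (hc : Continuous fun z : ℝ × ℝ × ℝ => KU' z.1 z.2.1 z.2.2) {ε : ℝ} (hε : 0 < ε) :
    ∃ δ > 0, ∀ ρ, |ρ - 2| < δ → ∀ a b : ℝ, |a| ≤ 1 → |b| ≤ 1 → K ρ a b ≤ K 2 a b + ε := by
  have hC : IsCompact (Icc (0 : ℝ) 1 ×ˢ (Icc (-1 : ℝ) 1 ×ˢ Icc (-1 : ℝ) 1)) :=
    isCompact_Icc.prod (isCompact_Icc.prod isCompact_Icc)
  obtain ⟨δ, hδ, h⟩ := Metric.uniformContinuousOn_iff.1
    (hC.uniformContinuousOn_of_continuous hc.continuousOn) ε hε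
  refine ⟨min δ 1, by positivity, ?_⟩
  intro ρ hρδ a b ha hb
  have h1 := hρδ.trans_le (min_le_left _ _)
  have h2 := hρδ.trans_le (min_le_right _ _)
  rw [abs_lt] at h2
  have hρ1 : 1 < ρ := by linarith
  have hρ0 : 0 < ρ := by linarith
  have hab := abs_le.1 ha
  have hbb := abs_le.1 hb
  rw [hK ρ hρ0, hK 2 two_pos]
  have h3 := h (1 / ρ, a, b) ⟨⟨(one_div_pos.2 hρ0).le, by
      rw [div_le_one hρ0]; exact hρ1.le⟩, ⟨hab.1, hab.2⟩, ⟨hbb.1, hbb.2⟩⟩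
    (1 / 2, a, b) ⟨⟨by norm_num, by norm_num⟩, ⟨hab.1, hab.2⟩, ⟨hbb.1, hbb.2⟩⟩ (by
      rw [Prod.dist_eq, Prod.dist_eq]
      simp only [dist_self, max_self]
      refine max_lt ?_ hδ
      rw [Real.dist_eq]
      have e : 1 / ρ - 1 / 2 = (2 - ρ) * (1 / (2 * ρ)) := by field_simp
      rw [e, abs_mul, abs_sub_comm, abs_of_pos (by positivity : 0 < 1 / (2 * ρ))]
      have e2 : 1 / (2 * ρ) ≤ 1 := by
        rw [div_le_one (by positivity)]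
        linarith
      calc |ρ - 2| * (1 / (2 * ρ)) ≤ |ρ - 2| * 1 := mul_le_mul_of_nonneg_left e2 (abs_nonneg _)
        _ < δ := by linarith)
  rw [Real.dist_eq, abs_lt] at h3
  have h4 := h3.2
  simp only at h4
  linarith

theorem contOn_of_U {K KU' : ℝ → ℝ → ℝ → ℝ}
    (hK : ∀ r, 0 < r → ∀ a b : ℝ, K r a b = KU' (1 / r) a b)
    (hc : Continuous fun z : ℝ × ℝ × ℝ => KU' z.1 z.2.1 z.2.2) :
    ContinuousOn (fun z : ℝ × ℝ × ℝ => K z.1 z.2.1 z.2.2) {z | 0 < z.1} := by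
  have h1 : ContinuousOn (fun z : ℝ × ℝ × ℝ => (1 / z.1, z.2.1, z.2.2)) {z | 0 < z.1} :=
    ContinuousOn.prodMk (continuousOn_const.div continuousOn_fst fun z hz => ne_of_gt hz)
      (by fun_prop)
  refine (hc.comp_continuousOn h1).congr fun z hz => ?_
  exact hK z.1 hz z.2.1 z.2.2

end KG

/-- The field `approxR` of a certificate for glued fields. -/
theorem approxR_glue {m : ℕ} (hm : 1 ≤ m) {lam s : ℝ} {f : ℝ → ℝ} (hs : 0 ≤ s)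
    (hfm : MonotoneOn f (Icc 0 1)) (hf0 : 0 ≤ f 0)
    {Vi Wi Vo Vi' Wi' Vo' : ℝ → ℝ} {C : ℝ} (hC : 0 ≤ C)
    (sVi : ContDiffOn ℝ ∞ Vi (Ioi 0)) (sWi : ContDiffOn ℝ ∞ Wi (Ioi 0))
    (sVo : ContDiffOn ℝ ∞ Vo (Ioi 0))
    (dVi : ∀ ρ > 0, HasDerivAt Vi (Vi' ρ) ρ) (dWi : ∀ ρ > 0, HasDerivAt Wi (Wi' ρ) ρ)
    (dVo : ∀ ρ > 0, HasDerivAt Vo (Vo' ρ) ρ)
    (cVi : ContinuousOn Vi' (Ioi 0)) (cWi : ContinuousOn Wi' (Ioi 0)) (cVo : ContinuousAt Vo' 2)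
    (h2 : Vi 2 = Vo 2) (hW2 : Wi 2 = 0) (hpos : 0 < Vi 2)
    (hin : ∀ ρ, 0 < ρ → ρ ≤ 2 → InOK m lam s f C (Vi ρ) (Vi' ρ) (Wi ρ) (Wi' ρ) ρ)
    (hout : ∀ ρ, 2 ≤ ρ → InOK m lam s f C (Vo ρ) (Vo' ρ) 0 0 ρ)
    {Go : ℝ → ℝ → ℝ → ℝ} (cGo : Continuous fun z : ℝ × ℝ × ℝ => Go z.1 z.2.1 z.2.2)
    (hGo : ∀ y, 2 ≤ y → ∀ a b : ℝ, kou m lam Vo Vo' y a b = Go (1 / y) a b)
    (hJ : ∀ a b : ℝ, |a| ≤ 1 → |b| ≤ 1 →
      kin m lam Vi Vi' Wi Wi' 2 a b ≤ kou m lam Vo Vo' 2 a b) :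
    ∀ ε > 0, ∀ r₀ > 0, ∃ Φ : ℝ × ℝ → ℝ, ∃ δ > 0, ContDiffOn ℝ ∞ Φ {p | -δ < p.1} ∧
    (∀ p : ℝ × ℝ, 0 ≤ p.1 → 0 ≤ Φ p) ∧
    (∀ r a b : ℝ, 0 ≤ r → |a| ≤ 1 → |b| ≤ 1 → 0 ≤ ker m Φ (lam + ε) r a b) ∧
    (∀ r a b : ℝ, 0 < r → 0 ≤ a → a ≤ 1 → 0 ≤ b → b ≤ 1 →
      a * b * (s * r - (f a + f b) / 2 - ε) ≤ ker m Φ (lam + ε) r a b * r ^ m) ∧
    ∀ r a b : ℝ, r₀ ≤ r → |a| ≤ 1 → |b| ≤ 1 →
      KG m lam Vi Vi' Wi Wi' Vo Vo' r a b ≤ ker m Φ (lam + ε) r a b := by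
  have hK : ∀ r, 0 < r → ∀ a b : ℝ, KG m lam Vi Vi' Wi Wi' Vo Vo' r a b =
      KU m lam Vi Vi' Wi Wi' Go (1 / r) a b := fun r hr a b => KG_eq_KU hGo hr a b
  have hc : Continuous fun z : ℝ × ℝ × ℝ => KU m lam Vi Vi' Wi Wi' Go z.1 z.2.1 z.2.2 :=
    continuous_KU sVi.continuousOn cVi sWi.continuousOn cWi cGo
  have h20 : Ioi (0 : ℝ) ∈ 𝓝 (2 : ℝ) := Ioi_mem_nhds two_pos
  refine reg_approxR hs hfm hf0 ?_ (fun ε hε r₀ hr₀ => unif_of_U hK hc hε hr₀)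
  refine glueR hm hs (fun a h0 h1 => hf0.trans (hfm ⟨le_rfl, zero_le_one⟩ ⟨h0, h1⟩ h0)) hC
    sVi sWi sVo dVi dWi dVo (cVi.continuousAt h20) (cWi.continuousAt h20) cVo h2 hW2 hpos hin hout
    ?_ ?_ (fun ε hε => near_of_U hK hc hε)
  · intro ρ _ hρ2 a b _ _
    rw [KG_le hρ2]
  · intro ρ hρ2 a b ha hb
    rw [KG_ge hρ2]
    linarith [hJ a b ha hb]

theorem KG_cont {m : ℕ} {lam : ℝ} {Vi Wi Vo Vi' Wi' Vo' : ℝ → ℝ}
    (sVi : ContDiffOn ℝ ∞ Vi (Ioi 0)) (sWi : ContDiffOn ℝ ∞ Wi (Ioi 0))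
    (cVi : ContinuousOn Vi' (Ioi 0)) (cWi : ContinuousOn Wi' (Ioi 0))
    {Go : ℝ → ℝ → ℝ → ℝ} (cGo : Continuous fun z : ℝ × ℝ × ℝ => Go z.1 z.2.1 z.2.2)
    (hGo : ∀ y, 2 ≤ y → ∀ a b : ℝ, kou m lam Vo Vo' y a b = Go (1 / y) a b) :
    ContinuousOn (fun z : ℝ × ℝ × ℝ => KG m lam Vi Vi' Wi Wi' Vo Vo' z.1 z.2.1 z.2.2)
      {z | 0 < z.1} :=
  contOn_of_U (fun _ hr a b => KG_eq_KU hGo hr a b)
    (continuous_KU sVi.continuousOn cVi sWi.continuousOn cWi cGo)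

/-! ### Strict inequalities at one radius -/

/-- The inequality for pairs facing each other, with its equality case. -/
theorem pi_strict {l L D Kv A T Y s fab F G S p : ℝ} {m : ℕ} (hL : 0 < L)
    (hLm : l ^ m = l * L) (hD : 0 < D) (hT : l * D * Kv = A + p * T)
    (hY : Y = (s * l - F / 2) * D) (hA : 0 < A)
    (hQ : 0 ≤ L * A + S ^ 2 / 4 * (L * T - Y)) (hG : 0 ≤ G)
    (hF : fab = F + (S ^ 2 / 4 - p) * G) (hp : 0 < p) (hp2 : p ≤ S ^ 2 / 4) :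
    p * (s * l - fab / 2) ≤ Kv * l ^ m ∧ (Kv * l ^ m = p * (s * l - fab / 2) →
      p = S ^ 2 / 4 ∧ L * A + S ^ 2 / 4 * (L * T - Y) = 0) := by
  obtain ⟨q, hq⟩ : ∃ q, q = S ^ 2 / 4 := ⟨_, rfl⟩
  rw [← hq] at hQ hF hp2 ⊢
  have hq0 : 0 < q := by linarith
  have key : q * (D * (Kv * l ^ m - p * (s * l - fab / 2))) =
      (q - p) * (L * A) + p * (L * A + q * (L * T - Y)) + q * (p * (q - p) * G * D) / 2 := by
    rw [hF, hY, hLm]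
    have e : q * (D * (Kv * (l * L) - p * (s * l - (F + (q - p) * G) / 2))) =
        q * (L * (l * D * Kv)) - q * p * ((s * l - F / 2) * D) + q * (p * (q - p) * G * D) / 2 := by
      ring
    rw [e, hT]
    ring
  have t1 : 0 ≤ (q - p) * (L * A) := mul_nonneg (by linarith) (mul_pos hL hA).le
  have t2 : 0 ≤ p * (L * A + q * (L * T - Y)) := mul_nonneg hp.le hQ
  have t3 : 0 ≤ q * (p * (q - p) * G * D) / 2 := by
    have : 0 ≤ q - p := by linarith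
    positivity
  constructor
  · have h1 : 0 ≤ q * (D * (Kv * l ^ m - p * (s * l - fab / 2))) := by rw [key]; linarith
    have h2 := nonneg_of_mul_nonneg_right (nonneg_of_mul_nonneg_right h1 hq0) hD
    linarith
  · intro h
    rw [h, sub_self, mul_zero, mul_zero] at key
    have h1 : (q - p) * (L * A) = 0 := by linarith
    have h2 : p * (L * A + q * (L * T - Y)) = 0 := by linarith
    constructor
    · rcases mul_eq_zero.1 h1 with h3 | h3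
      · linarith
      · exact absurd h3 (mul_pos hL hA).ne'
    · exact (mul_eq_zero.1 h2).resolve_left hp.ne'

/-- Positivity of the kernel for nonnegative `a`, `b`. -/
theorem lin_pos {A T p q : ℝ} (h0 : 0 < A) (h1 : 0 < A + q * T) (hp : 0 ≤ p) (hq : p ≤ q) :
    0 < A + p * T := by
  rcases le_or_gt 0 T with h | h
  · have := mul_nonneg hp h
    linarith
  · have := mul_nonneg (sub_nonneg.2 hq) (neg_nonneg.2 h.le)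
    linarith

theorem dom_ab {a b : ℝ} (ha : 0 ≤ a) (ha1 : a ≤ 1) (hb : 0 ≤ b) (hb1 : b ≤ 1) :
    0 ≤ a + b ∧ a + b ≤ 2 ∧ 0 ≤ a * b ∧ a + b - 1 ≤ a * b ∧ a * b ≤ (a + b) ^ 2 / 4 := by
  refine ⟨by linarith, by linarith, mul_nonneg ha hb, ?_, ?_⟩
  · have := mul_nonneg (sub_nonneg.2 ha1) (sub_nonneg.2 hb1)
    linarith
  · have := sq_nonneg (a - b)
    linarith

theorem eq_of_prod {a b : ℝ} (h : a * b = (a + b) ^ 2 / 4) : a = b := by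
  have h1 : (a - b) ^ 2 = 0 := by linarith
  have h2 := pow_eq_zero_iff (two_ne_zero) |>.1 h1
  linarith

end Vale.Agent.P219.TP
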