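import Vale.Agent.P219.TP.InSMk
import Vale.Agent.P219.TPR.CertRGlue

/-! # Strict inequalities for fields glued on `[2, 21/10]` -/

open MeasureTheory Set Metric Filter Topology
open scoped ENNReal ContDiff

namespace Vale.Agent.P219.TP

/-- The strict inequalities at a given distance. -/
def InR (m : ℕ) (lam s : ℝ) (f : ℝ → ℝ) (v v' w w' ρ : ℝ) : Prop :=
  (∀ a b : ℝ, |a| ≤ 1 → |b| ≤ 1 → 0 < lam + sks m v v' w w' ρ a b (srt a b)) ∧
  (∀ a b : ℝ, 0 < a → a ≤ 1 → 0 < b → b ≤ 1 →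
      (lam + sks m v v' w w' ρ a b (srt a b)) * ρ ^ m = a * b * (s * ρ - (f a + f b) / 2) →
      ρ = 2 * a ∧ ρ = 2 * b)

/-- the strict tangent bound for the square root -/
theorem srt_tangent_strict {a b : ℝ} (ha : 0 ≤ a) (ha1 : a ≤ 1) (hb : 0 ≤ b) (hb1 : b ≤ 1)
    (hne : a ≠ b) (h2 : a + b < 2) :
    (2 - (a + b)) ^ 2 * srt a b < ((2 - (a + b)) ^ 2 - (a - b) ^ 2) * (1 - (a + b) ^ 2 / 4) +
      (a - b) ^ 2 * ((1 - (a + b - 1)) * (1 + (a + b - 1)) / (3 + (a + b - 1))) := by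
  have hSpos : 0 < a + b := by
    rcases eq_or_lt_of_le (show 0 ≤ a + b by positivity) with h | h
    · exact absurd (by linarith : a = b) hne
    · exact h
  obtain ⟨S, hS⟩ : ∃ S, S = a + b := ⟨_, rfl⟩
  obtain ⟨y, hy⟩ : ∃ y, y = (a - b) ^ 2 := ⟨_, rfl⟩
  rw [← hS] at hSpos h2
  have hy0 : 0 < y := by
    rw [hy]
    have : a - b ≠ 0 := sub_ne_zero.2 hne
    positivity
  have hyS : y ≤ (2 - S) ^ 2 := by
    rw [hy, hS]; nlinarith [mul_nonneg (sub_nonneg.2 ha1) (sub_nonneg.2 hb1)]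
  rw [← hS, ← hy]
  have e1 : srt a b = √((1 + (S ^ 2 - y) / 4) ^ 2 - S ^ 2) := by
    unfold srt
    congr 1
    rw [hS, hy]; ring
  rw [e1]
  have h2S : 0 < 2 + S := by linarith
  have h2S' : 0 < 2 - S := by linarith
  have e2 : ((2 - S) ^ 2 - y) * (1 - S ^ 2 / 4) + y * ((1 - (S - 1)) * (1 + (S - 1)) / (3 + (S - 1))) =
      ((2 - S) * ((2 - S) * (2 + S) ^ 2 * (2 - S) - y * (4 + S ^ 2))) / (4 * (2 + S)) := by
    have : 3 + (S - 1) = 2 + S := by ring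
    rw [this]
    field_simp
    ring
  rw [e2, lt_div_iff₀ (by positivity)]
  have hX : 0 ≤ (1 + (S ^ 2 - y) / 4) ^ 2 - S ^ 2 := by
    have : (1 + (S ^ 2 - y) / 4) ^ 2 - S ^ 2 = (1 - a ^ 2) * (1 - b ^ 2) := by rw [hS, hy]; ring
    rw [this]
    have ha2 : a ^ 2 ≤ 1 := pow_le_one₀ ha ha1
    have hb2 : b ^ 2 ≤ 1 := pow_le_one₀ hb hb1
    exact mul_nonneg (by linarith) (by linarith)
  have hY : 0 ≤ (2 - S) * (2 + S) ^ 2 * (2 - S) - y * (4 + S ^ 2) := by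
    have : y * (4 + S ^ 2) ≤ (2 - S) ^ 2 * (4 + S ^ 2) :=
      mul_le_mul_of_nonneg_right hyS (by positivity)
    nlinarith [mul_nonneg hSpos.le (sq_nonneg (2 - S))]
  obtain ⟨R, hR⟩ : ∃ R, R = √((1 + (S ^ 2 - y) / 4) ^ 2 - S ^ 2) := ⟨_, rfl⟩
  rw [← hR]
  have hR2 : R ^ 2 = (1 + (S ^ 2 - y) / 4) ^ 2 - S ^ 2 := by rw [hR]; exact Real.sq_sqrt hX
  have h1 : (R * (4 * (2 - S) * (2 + S))) ^ 2 <
      ((2 - S) * (2 + S) ^ 2 * (2 - S) - y * (4 + S ^ 2)) ^ 2 := by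
    rw [mul_pow, hR2]
    have e3 : ((2 - S) * (2 + S) ^ 2 * (2 - S) - y * (4 + S ^ 2)) ^ 2 -
      ((1 + (S ^ 2 - y) / 4) ^ 2 - S ^ 2) * (4 * (2 - S) * (2 + S)) ^ 2 = (4 * S * y) ^ 2 := by ring
    have : 0 < (4 * S * y) ^ 2 := by positivity
    linarith
  have h3 : R * (4 * (2 - S) * (2 + S)) < (2 - S) * (2 + S) ^ 2 * (2 - S) - y * (4 + S ^ 2) :=
    lt_of_pow_lt_pow_left₀ 2 hY h1
  have h4 := mul_lt_mul_of_pos_left h3 h2S'
  linarith

theorem inR_mk {m : ℕ} {lam s v v' w w' l : ℝ} {f : ℝ → ℝ} (hl : 0 < l) (hw : 0 < w)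
    (hpp : ∀ a b : ℝ, 0 ≤ a → a ≤ 1 → 0 ≤ b → b ≤ 1 →
      0 < lam + sks m v v' w w' l a b (1 - (a ^ 2 + b ^ 2) / 2))
    (hpm : ∀ a b : ℝ, 0 ≤ a → a ≤ 1 → 0 ≤ b → b ≤ 1 →
      0 < lam + sks m v v' w w' l a (-b) (1 - (a ^ 2 + b ^ 2) / 2))
    (hmm : ∀ a b : ℝ, 0 ≤ a → a ≤ 1 → 0 ≤ b → b ≤ 1 →
      0 < lam + sks m v v' w w' l (-a) (-b) (1 - (a ^ 2 + b ^ 2) / 2))
    (hd : ∀ c : ℝ, 0 ≤ c → c ≤ 1 →
      c ^ 2 * (s * l - f c) ≤ (lam + sks m v v' w w' l c c (1 - c ^ 2)) * l ^ m)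
    (hde : ∀ c : ℝ, 0 ≤ c → c ≤ 1 →
      (lam + sks m v v' w w' l c c (1 - c ^ 2)) * l ^ m = c ^ 2 * (s * l - f c) → l = 2 * c)
    (h1 : ∀ b : ℝ, 0 ≤ b → b ≤ 1 → b * (s * l - f ((1 + b) / 2)) ≤
      (lam + sks m v v' w w' l 1 b ((1 - b) * (1 + b) / (3 + b))) * l ^ m)
    (hconv : ∀ a b : ℝ, 0 ≤ a → a ≤ 1 → 0 ≤ b → b ≤ 1 → f ((a + b) / 2) ≤ (f a + f b) / 2) :
    InR m lam s f v v' w w' l := by
  have hlm : 0 < l ^ m := by positivity
  refine ⟨?_, ?_⟩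
  · intro a b ha hb
    have hm := sks_mono (m := m) (v := v) (v' := v') (w' := w') (a := a) (b := b) hw.le hl
      (srt_le_amgm ha hb)
    refine lt_of_lt_of_le ?_ (show lam + sks m v v' w w' l a b (1 - (a ^ 2 + b ^ 2) / 2) ≤
      lam + sks m v v' w w' l a b (srt a b) by linarith)
    rcases le_total 0 a with ha0 | ha0 <;> rcases le_total 0 b with hb0 | hb0
    · rw [abs_of_nonneg ha0] at ha; rw [abs_of_nonneg hb0] at hb
      exact hpp a b ha0 ha hb0 hb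
    · rw [abs_of_nonneg ha0] at ha; rw [abs_of_nonpos hb0] at hb
      have := hpm a (-b) ha0 ha (by linarith) hb
      rwa [neg_neg, neg_sq] at this
    · rw [abs_of_nonpos ha0] at ha; rw [abs_of_nonneg hb0] at hb
      have := hpm b (-a) hb0 hb (by linarith) ha
      rw [neg_neg, neg_sq, sks_swap] at this
      rwa [add_comm (a ^ 2)]
    · rw [abs_of_nonpos ha0] at ha; rw [abs_of_nonpos hb0] at hb
      have := hmm (-a) (-b) (by linarith) ha (by linarith) hb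
      rwa [neg_neg, neg_neg, neg_sq, neg_sq] at this
  · intro a b ha ha1 hb hb1 heq
    have haa : |a| ≤ 1 := by rwa [abs_of_pos ha]
    have hbb : |b| ≤ 1 := by rwa [abs_of_pos hb]
    have hab : 0 < a * b := mul_pos ha hb
    have hc := hconv a b ha.le ha1 hb.le hb1
    have hstep : a * b * (s * l - (f a + f b) / 2) ≤ a * b * (s * l - f ((a + b) / 2)) :=
      mul_le_mul_of_nonneg_left (by linarith) hab.le
    have hle : (lam + sks m v v' w w' l a b (srt a b)) * l ^ m ≤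
      a * b * (s * l - f ((a + b) / 2)) := heq.trans_le hstep
    have dia := hd ((a + b) / 2) (by positivity) (by linarith)
    have die := hde ((a + b) / 2) (by positivity) (by linarith)
    have z1 : 1 < a + b → (a + b - 1) * (s * l - f ((a + b) / 2)) ≤
        (lam + sks m v v' w w' l 1 (a + b - 1)
          ((1 - (a + b - 1)) * (1 + (a + b - 1)) / (3 + (a + b - 1)))) * l ^ m := by
      intro hS
      have := h1 (a + b - 1) (by linarith) (by linarith)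
      rwa [show (1 + (a + b - 1)) / 2 = (a + b) / 2 by ring] at this
    suffices h : a = b ∧ (lam + sks m v v' w w' l ((a + b) / 2) ((a + b) / 2)
        (1 - ((a + b) / 2) ^ 2)) * l ^ m = ((a + b) / 2) ^ 2 * (s * l - f ((a + b) / 2)) by
      have h3 := die h.2
      have h4 := h.1
      constructor <;> linarith
    clear die hstep heq hc
    generalize f ((a + b) / 2) = F at dia z1 hle ⊢
    rcases le_or_gt (a + b) 1 with hS | hS
    · -- `a + b ≤ 1`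
      have hm := sks_mono (m := m) (v := v) (v' := v') (w' := w') (a := a) (b := b) hw.le hl
        (srt_le_amgm haa hbb)
      have hm2 := mul_le_mul_of_nonneg_right (show lam + sks m v v' w w' l a b
        (1 - (a ^ 2 + b ^ 2) / 2) ≤ lam + sks m v v' w w' l a b (srt a b) by linarith) hlm.le
      have z0 := mul_pos (hpp (a + b) 0 (by positivity) hS le_rfl zero_le_one) hlm
      have key : (a + b) ^ 2 * ((lam + sks m v v' w w' l a b (1 - (a ^ 2 + b ^ 2) / 2)) * l ^ m -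
            a * b * (s * l - F)) =
            (a - b) ^ 2 * ((lam + sks m v v' w w' l (a + b) 0 (1 - ((a + b) ^ 2 + 0 ^ 2) / 2)) *
              l ^ m) +
            4 * (a * b) * ((lam + sks m v v' w w' l ((a + b) / 2) ((a + b) / 2)
              (1 - ((a + b) / 2) ^ 2)) * l ^ m - ((a + b) / 2) ^ 2 * (s * l - F)) := by
        unfold sks skxs
        rw [abs_of_pos ha, abs_of_pos hb, abs_of_pos (show 0 < a + b by positivity), abs_zero,
          abs_of_nonneg (show 0 ≤ (a + b) / 2 by positivity)]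
        ring
      have h3 : (a + b) ^ 2 * ((lam + sks m v v' w w' l a b (1 - (a ^ 2 + b ^ 2) / 2)) *
            l ^ m - a * b * (s * l - F)) ≤ 0 := by
        have : (lam + sks m v v' w w' l a b (1 - (a ^ 2 + b ^ 2) / 2)) * l ^ m -
          a * b * (s * l - F) ≤ 0 := by linarith
        exact mul_nonpos_of_nonneg_of_nonpos (by positivity) this
      rw [key] at h3
      have p1 := mul_nonneg (sq_nonneg (a - b)) z0.le
      have p2 := mul_nonneg (mul_nonneg (show (0 : ℝ) ≤ 4 by norm_num) hab.le) (sub_nonneg.2 dia)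
      have q1 : (a - b) ^ 2 * ((lam + sks m v v' w w' l (a + b) 0
        (1 - ((a + b) ^ 2 + 0 ^ 2) / 2)) * l ^ m) = 0 := by linarith
      have q2 : 4 * (a * b) * ((lam + sks m v v' w w' l ((a + b) / 2) ((a + b) / 2)
              (1 - ((a + b) / 2) ^ 2)) * l ^ m - ((a + b) / 2) ^ 2 * (s * l - F)) = 0 := by
        linarith
      have r1 := (mul_eq_zero.1 q1).resolve_right z0.ne'
      have r2 := (mul_eq_zero.1 q2).resolve_left (by positivity)
      refine ⟨?_, by linarith⟩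
      have := pow_eq_zero_iff two_ne_zero |>.1 r1
      linarith
    · -- `a + b > 1`
      rcases eq_or_lt_of_le (show a + b ≤ 2 by linarith) with h2 | h2
      · have ha0 : a = 1 := by linarith
        have hb0 : b = 1 := by linarith
        subst ha0; subst hb0
        have : srt 1 1 = 0 := by unfold srt; norm_num
        rw [this] at hle
        refine ⟨rfl, ?_⟩
        norm_num at dia hle ⊢
        linarith
      · have z1 := z1 hS
        set t1 := (1 - (a + b - 1)) * (1 + (a + b - 1)) / (3 + (a + b - 1)) with ht1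
        have hG : 0 < w / l * ((a + b) / 2) * l ^ m := by positivity
        have key : (2 - (a + b)) ^ 2 * ((lam + sks m v v' w w' l a b (srt a b)) * l ^ m -
            a * b * (s * l - F)) =
            ((2 - (a + b)) ^ 2 - (a - b) ^ 2) * ((lam + sks m v v' w w' l ((a + b) / 2)
              ((a + b) / 2) (1 - ((a + b) / 2) ^ 2)) * l ^ m - ((a + b) / 2) ^ 2 * (s * l - F)) +
            (a - b) ^ 2 * ((lam + sks m v v' w w' l 1 (a + b - 1) t1) * l ^ m -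
              (a + b - 1) * (s * l - F)) +
            (w / l * ((a + b) / 2) * l ^ m * (((2 - (a + b)) ^ 2 - (a - b) ^ 2) *
              (1 - (a + b) ^ 2 / 4) + (a - b) ^ 2 * t1) -
              w / l * ((a + b) / 2) * l ^ m * ((2 - (a + b)) ^ 2 * srt a b)) := by
          generalize srt a b = R
          generalize t1 = T
          unfold sks skxs
          rw [abs_of_pos ha, abs_of_pos hb, abs_one,
            abs_of_nonneg (show 0 ≤ a + b - 1 by linarith),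
            abs_of_nonneg (show 0 ≤ (a + b) / 2 by positivity)]
          ring
        have hy : (a - b) ^ 2 ≤ (2 - (a + b)) ^ 2 := by
          nlinarith [mul_nonneg (sub_nonneg.2 ha1) (sub_nonneg.2 hb1)]
        have h3 : (2 - (a + b)) ^ 2 * ((lam + sks m v v' w w' l a b (srt a b)) * l ^ m -
            a * b * (s * l - F)) ≤ 0 :=
          mul_nonpos_of_nonneg_of_nonpos (by positivity) (by linarith)
        rw [key] at h3
        have p1 := mul_nonneg (sub_nonneg.2 hy) (sub_nonneg.2 dia)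
        have p2 := mul_nonneg (sq_nonneg (a - b)) (sub_nonneg.2 z1)
        have hab' : a = b := by
          by_contra hne
          have ht := srt_tangent_strict ha.le ha1 hb.le hb1 hne h2
          have hmul := mul_lt_mul_of_pos_left ht hG
          rw [← ht1] at hmul
          linarith
        have ht := srt_tangent ha.le ha1 hb.le hb1
        have hmul := mul_le_mul_of_nonneg_left ht hG.le
        rw [← ht1] at hmul
        refine ⟨hab', ?_⟩
        have q1 : ((2 - (a + b)) ^ 2 - (a - b) ^ 2) * ((lam + sks m v v' w w' l ((a + b) / 2)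
              ((a + b) / 2) (1 - ((a + b) / 2) ^ 2)) * l ^ m - ((a + b) / 2) ^ 2 *
              (s * l - F)) = 0 := by linarith
        have q2 : (2 - (a + b)) ^ 2 - (a - b) ^ 2 ≠ 0 := by
          rw [hab', sub_self]
          have : 0 < 2 - (b + b) := by linarith
          have : 0 < (2 - (b + b)) ^ 2 := by positivity
          linarith
        have r1 := (mul_eq_zero.1 q1).resolve_left q2
        linarith

theorem InR.mix {m : ℕ} {lam s : ℝ} {f : ℝ → ℝ} {C v v' w w' y y' z z' ρ θ x u : ℝ}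
    (hρ : 0 < ρ) (h0 : 0 ≤ θ) (h1 : θ ≤ 1) (hS : InS m lam s f C v v' w w' ρ)
    (kS : InS m lam s f C y y' z z' ρ) (h : InR m lam s f v v' w w' ρ)
    (k : InR m lam s f y y' z z' ρ) (hu : |u| ≤ x) :
    InR m lam s f ((1 - θ) * v + θ * y) ((1 - θ) * v' + θ * y' + x)
      ((1 - θ) * w + θ * z) ((1 - θ) * w' + θ * z' + u) ρ := by
  obtain ⟨-, -, -, -, a5⟩ := hS
  obtain ⟨-, -, -, -, b5⟩ := kS
  obtain ⟨h4, h5⟩ := h
  obtain ⟨k4, k5⟩ := k
  have hθ : 0 ≤ 1 - θ := by linarith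
  refine ⟨?_, ?_⟩
  · intro a b ha hb
    rw [sks_mix]
    have j := jump_nonneg hu ha hb
    have c1 := mul_nonneg hθ (h4 a b ha hb).le
    have c2 := mul_nonneg h0 (k4 a b ha hb).le
    rcases eq_or_lt_of_le h0 with h | h
    · rw [← h] at c2 ⊢
      have := h4 a b ha hb
      linarith
    · have := mul_pos h (k4 a b ha hb)
      linarith
  · intro a b ha ha1 hb hb1 heq
    have haa : |a| ≤ 1 := by rwa [abs_of_pos ha]
    have hbb : |b| ≤ 1 := by rwa [abs_of_pos hb]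
    rw [sks_mix] at heq
    have j := jump_nonneg hu haa hbb
    have c1 := mul_le_mul_of_nonneg_left (a5 a b ha.le ha1 hb.le hb1) hθ
    have c2 := mul_le_mul_of_nonneg_left (b5 a b ha.le ha1 hb.le hb1) h0
    have c3 : 0 ≤ ((x - a * u) * (1 - b ^ 2) + (x - b * u) * (1 - a ^ 2)) / 2 * ρ ^ m :=
      mul_nonneg j (by positivity)
    rcases eq_or_lt_of_le h0 with h | h
    · refine h5 a b ha ha1 hb hb1 ?_
      rw [← h] at heq c1 c2
      have := a5 a b ha.le ha1 hb.le hb1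
      linarith
    · refine k5 a b ha ha1 hb hb1 ?_
      have e1 : θ * ((lam + sks m y y' z z' ρ a b (srt a b)) * ρ ^ m) =
          θ * (a * b * (s * ρ - (f a + f b) / 2)) := by linarith
      exact mul_left_cancel₀ h.ne' e1

/-! ### The glued fields -/

/-- the glued function -/
noncomputable def gl (A B : ℝ → ℝ) (ρ : ℝ) : ℝ := (1 - th2 ρ) * A ρ + th2 ρ * B ρ

/-- the derivative of the glued function -/
noncomputable def glD (A A' B B' : ℝ → ℝ) (ρ : ℝ) : ℝ :=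
  (1 - th2 ρ) * A' ρ + th2 ρ * B' ρ + deriv th2 ρ * (B ρ - A ρ)

/-- `1 / u`, cut off at `3` -/
noncomputable def xu (u : ℝ) : ℝ := 1 / max u (1 / 3)

theorem xu_pos (u : ℝ) : 0 < xu u := by
  unfold xu
  have : 0 < max u (1 / 3) := lt_of_lt_of_le (by norm_num) (le_max_right _ _)
  positivity

theorem continuous_xu : Continuous xu := by
  unfold xu
  refine continuous_const.div (by fun_prop) fun u => ?_
  exact (lt_of_lt_of_le (by norm_num : (0 : ℝ) < 1 / 3) (le_max_right _ _)).ne'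

theorem xu_of_le {r : ℝ} (hr : 0 < r) (h : r ≤ 3) : xu (1 / r) = r := by
  unfold xu
  rw [max_eq_left (one_div_le_one_div_of_le hr h), one_div_one_div]

theorem xu_of_ge {r : ℝ} (h : 3 ≤ r) : xu (1 / r) = 3 := by
  unfold xu
  rw [max_eq_right (one_div_le_one_div_of_le (by norm_num) h), one_div_one_div]

noncomputable def glU (A Bu : ℝ → ℝ) (u : ℝ) : ℝ := (1 - th2 (xu u)) * A (xu u) + th2 (xu u) * Bu u

noncomputable def glDU (A A' Bu B'u : ℝ → ℝ) (u : ℝ) : ℝ :=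
  (1 - th2 (xu u)) * A' (xu u) + th2 (xu u) * B'u u + deriv th2 (xu u) * (Bu u - A (xu u))

theorem gl_eq_glU {A B Bu : ℝ → ℝ} (hB : ∀ r > 0, B r = Bu (1 / r)) {r : ℝ} (hr : 0 < r) :
    gl A B r = glU A Bu (1 / r) := by
  unfold gl glU
  rcases le_total r 3 with h | h
  · rw [xu_of_le hr h, hB r hr]
  · rw [xu_of_ge h, hB r hr, th2_one (by linarith), th2_one (by norm_num)]
    ring

theorem glD_eq_glDU {A A' B B' Bu B'u : ℝ → ℝ} (hB : ∀ r > 0, B r = Bu (1 / r))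
    (hB' : ∀ r > 0, B' r = B'u (1 / r)) {r : ℝ} (hr : 0 < r) :
    glD A A' B B' r = glDU A A' Bu B'u (1 / r) := by
  unfold glD glDU
  rcases le_total r 3 with h | h
  · rw [xu_of_le hr h, hB r hr, hB' r hr]
  · rw [xu_of_ge h, hB r hr, hB' r hr, th2_one (by linarith), th2_one (by norm_num),
      deriv_th2_one (by linarith), deriv_th2_one (by norm_num)]
    ring

theorem continuous_glU {A Bu : ℝ → ℝ} (hA : ContinuousOn A (Ioi 0)) (hB : Continuous Bu) :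
    Continuous (glU A Bu) := by
  unfold glU
  have h1 : Continuous fun u => th2 (xu u) := contDiff_th2.continuous.comp continuous_xu
  have h2 : Continuous fun u => A (xu u) := hA.comp_continuous continuous_xu xu_pos
  exact ((continuous_const.sub h1).mul h2).add (h1.mul hB)

theorem continuous_glDU {A A' Bu B'u : ℝ → ℝ} (hA : ContinuousOn A (Ioi 0))
    (hA' : ContinuousOn A' (Ioi 0)) (hB : Continuous Bu) (hB' : Continuous B'u) :
    Continuous (glDU A A' Bu B'u) := by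
  unfold glDU
  have h1 : Continuous fun u => th2 (xu u) := contDiff_th2.continuous.comp continuous_xu
  have h2 : Continuous fun u => A (xu u) := hA.comp_continuous continuous_xu xu_pos
  have h3 : Continuous fun u => A' (xu u) := hA'.comp_continuous continuous_xu xu_pos
  have h4 : Continuous fun u => deriv th2 (xu u) :=
    (contDiff_th2.continuous_deriv (by simp)).comp continuous_xu
  exact (((continuous_const.sub h1).mul h3).add (h1.mul hB')).add (h4.mul (hB.sub h2))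

/-- The kernel in the variable `u = 1 / ρ`. -/
noncomputable def sksU (m : ℕ) (v v' w w' u a b t : ℝ) : ℝ :=
  (((v' - a * w') * (1 - b ^ 2) + (v - a * w) * u * (m - 1 + b ^ 2) - m * ((v - a * w) * b) -
    w * u * |b| * t) +
   ((v' - b * w') * (1 - a ^ 2) + (v - b * w) * u * (m - 1 + a ^ 2) - m * ((v - b * w) * a) -
    w * u * |a| * t)) / 2

theorem sks_eq_sksU {m : ℕ} {v v' w w' r a b t : ℝ} :
    sks m v v' w w' r a b t = sksU m v v' w w' (1 / r) a b t := by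
  unfold sks skxs sksU
  ring

theorem continuous_srt : Continuous fun z : ℝ × ℝ × ℝ => srt z.2.1 z.2.2 := by
  unfold srt
  fun_prop

/-- The kernel of the glued field. -/
noncomputable def KS (m : ℕ) (lam : ℝ) (Vi Vi' Wi Wi' Vo Vo' Wo Wo' : ℝ → ℝ) (r a b : ℝ) : ℝ :=
  lam + sks m (gl Vi Vo r) (glD Vi Vi' Vo Vo' r) (gl Wi Wo r) (glD Wi Wi' Wo Wo' r) r a b (srt a b)

/-- The kernel of the glued field in the variable `u = 1 / r`. -/
noncomputable def KSU (m : ℕ) (lam : ℝ) (Vi Vi' Wi Wi' Vu Vu' Wu Wu' : ℝ → ℝ) (u a b : ℝ) : ℝ :=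
  lam + sksU m (glU Vi Vu u) (glDU Vi Vi' Vu Vu' u) (glU Wi Wu u) (glDU Wi Wi' Wu Wu' u) u a b
    (srt a b)

section

variable {m : ℕ} {lam s : ℝ} {f : ℝ → ℝ} {Vi Wi Vo Wo Vi' Wi' Vo' Wo' Vu Vu' Wu Wu' : ℝ → ℝ}

theorem KS_eq_KSU (hV : ∀ r > 0, Vo r = Vu (1 / r)) (hV' : ∀ r > 0, Vo' r = Vu' (1 / r))
    (hW : ∀ r > 0, Wo r = Wu (1 / r)) (hW' : ∀ r > 0, Wo' r = Wu' (1 / r)) (r : ℝ) (hr : 0 < r)
    (a b : ℝ) : KS m lam Vi Vi' Wi Wi' Vo Vo' Wo Wo' r a b =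
      KSU m lam Vi Vi' Wi Wi' Vu Vu' Wu Wu' (1 / r) a b := by
  unfold KS KSU
  rw [gl_eq_glU hV hr, gl_eq_glU hW hr, glD_eq_glDU hV hV' hr, glD_eq_glDU hW hW' hr, sks_eq_sksU]

theorem continuous_KSU (cVi : ContinuousOn Vi (Ioi 0))
    (cVi' : ContinuousOn Vi' (Ioi 0)) (cWi : ContinuousOn Wi (Ioi 0))
    (cWi' : ContinuousOn Wi' (Ioi 0)) (cVu : Continuous Vu) (cVu' : Continuous Vu')
    (cWu : Continuous Wu) (cWu' : Continuous Wu') :
    Continuous fun z : ℝ × ℝ × ℝ =>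
      KSU m lam Vi Vi' Wi Wi' Vu Vu' Wu Wu' z.1 z.2.1 z.2.2 := by
  unfold KSU sksU
  have h1 : Continuous fun z : ℝ × ℝ × ℝ => glU Vi Vu z.1 :=
    (continuous_glU cVi cVu).comp continuous_fst
  have h2 : Continuous fun z : ℝ × ℝ × ℝ => glU Wi Wu z.1 :=
    (continuous_glU cWi cWu).comp continuous_fst
  have h3 : Continuous fun z : ℝ × ℝ × ℝ => glDU Vi Vi' Vu Vu' z.1 :=
    (continuous_glDU cVi cVi' cVu cVu').comp continuous_fst
  have h4 : Continuous fun z : ℝ × ℝ × ℝ => glDU Wi Wi' Wu Wu' z.1 :=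
    (continuous_glDU cWi cWi' cWu cWu').comp continuous_fst
  have h5 := continuous_srt
  fun_prop

/-- The inequalities for the glued field. -/
theorem glueS_all {C D : ℝ} (hC : 0 ≤ C) (hD : 0 ≤ D)
    (hin : ∀ ρ, 0 < ρ → ρ ≤ 21 / 10 → InS m lam s f C (Vi ρ) (Vi' ρ) (Wi ρ) (Wi' ρ) ρ ∧
      InR m lam s f (Vi ρ) (Vi' ρ) (Wi ρ) (Wi' ρ) ρ)
    (hout : ∀ ρ, 2 ≤ ρ → InS m lam s f C (Vo ρ) (Vo' ρ) (Wo ρ) (Wo' ρ) ρ ∧
      InR m lam s f (Vo ρ) (Vo' ρ) (Wo ρ) (Wo' ρ) ρ)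
    (hj : ∀ ρ, 2 ≤ ρ → ρ ≤ 21 / 10 → |Wo ρ - Wi ρ| ≤ Vo ρ - Vi ρ ∧ Vo ρ - Vi ρ ≤ D) :
    ∃ C', 0 ≤ C' ∧ ∀ ρ > 0,
      InS m lam s f C' (gl Vi Vo ρ) (glD Vi Vi' Vo Vo' ρ) (gl Wi Wo ρ) (glD Wi Wi' Wo Wo' ρ) ρ ∧
      InR m lam s f (gl Vi Vo ρ) (glD Vi Vi' Vo Vo' ρ) (gl Wi Wo ρ) (glD Wi Wi' Wo Wo' ρ) ρ := by
  obtain ⟨M, hM0, hM⟩ := exists_bound_th2
  have hMD := mul_nonneg hM0 hD
  refine ⟨C + 2 * (M * D), by linarith, ?_⟩
  intro ρ hρ
  rcases le_or_gt ρ 2 with h | h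
  · obtain ⟨h1, h2⟩ := hin ρ hρ (by linarith)
    have e1 : gl Vi Vo ρ = Vi ρ := by simp only [gl, th2_zero h]; ring
    have e2 : gl Wi Wo ρ = Wi ρ := by simp only [gl, th2_zero h]; ring
    have e3 : glD Vi Vi' Vo Vo' ρ = Vi' ρ := by
      simp only [glD, th2_zero h, deriv_th2_zero h]; ring
    have e4 : glD Wi Wi' Wo Wo' ρ = Wi' ρ := by
      simp only [glD, th2_zero h, deriv_th2_zero h]; ring
    rw [e1, e2, e3, e4]
    exact ⟨h1.mono (by linarith), h2⟩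
  · rcases le_or_gt (21 / 10) ρ with h' | h'
    · obtain ⟨h1, h2⟩ := hout ρ h.le
      have e1 : gl Vi Vo ρ = Vo ρ := by simp only [gl, th2_one h']; ring
      have e2 : gl Wi Wo ρ = Wo ρ := by simp only [gl, th2_one h']; ring
      have e3 : glD Vi Vi' Vo Vo' ρ = Vo' ρ := by
        simp only [glD, th2_one h', deriv_th2_one h']; ring
      have e4 : glD Wi Wi' Wo Wo' ρ = Wo' ρ := by
        simp only [glD, th2_one h', deriv_th2_one h']; ring
      rw [e1, e2, e3, e4]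
      exact ⟨h1.mono (by linarith), h2⟩
    · obtain ⟨j1, j2⟩ := hj ρ h.le h'.le
      have hd := deriv_th2_nonneg ρ
      have hu : |deriv th2 ρ * (Wo ρ - Wi ρ)| ≤ deriv th2 ρ * (Vo ρ - Vi ρ) := by
        rw [abs_mul, abs_of_nonneg hd]
        exact mul_le_mul_of_nonneg_left j1 hd
      obtain ⟨a1, a2⟩ := hin ρ hρ h'.le
      obtain ⟨b1, b2⟩ := hout ρ h.le
      have h1 := InS.mix (by linarith) (th2_nonneg ρ) (th2_le_one ρ) a1 b1 hu
      have h2 := InR.mix hρ (th2_nonneg ρ) (th2_le_one ρ) a1 b1 a2 b2 hu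
      refine ⟨h1.mono ?_, h2⟩
      have hx : 0 ≤ Vo ρ - Vi ρ := (abs_nonneg _).trans j1
      have := mul_le_mul (hM ρ ⟨h.le, h'.le⟩) j2 hx hM0
      linarith

theorem hasDerivAt_gl {A A' B B' : ℝ → ℝ} {ρ : ℝ} (dA : HasDerivAt A (A' ρ) ρ)
    (dB : HasDerivAt B (B' ρ) ρ) : HasDerivAt (gl A B) (glD A A' B B' ρ) ρ := by
  refine ((((hasDerivAt_th2 ρ).const_sub 1).mul dA).add
    ((hasDerivAt_th2 ρ).mul dB)).congr_deriv ?_
  simp only [glD]; ring

theorem contDiffOn_gl {A B : ℝ → ℝ} (sA : ContDiffOn ℝ ∞ A (Ioi 0))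
    (sB : ContDiffOn ℝ ∞ B (Ioi 0)) : ContDiffOn ℝ ∞ (gl A B) (Ioi 0) :=
  (contDiffOn_const.sub contDiff_th2.contDiffOn).mul sA |>.add
      (contDiff_th2.contDiffOn.mul sB)

/-- The field `approxR`, from the inequalities for a field. -/
theorem regS_approxR {V V' W W' : ℝ → ℝ} {K : ℝ → ℝ → ℝ → ℝ} {C : ℝ} (hs : 0 ≤ s)
    (hf : MonotoneOn f (Icc 0 1)) (hf0 : 0 ≤ f 0) (hC : 0 ≤ C)
    (hVs : ContDiffOn ℝ ∞ V (Ioi 0)) (hWs : ContDiffOn ℝ ∞ W (Ioi 0))
    (dV : ∀ ρ > 0, HasDerivAt V (V' ρ) ρ) (dW : ∀ ρ > 0, HasDerivAt W (W' ρ) ρ)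
    (hall : ∀ ρ > 0, InS m lam s f C (V ρ) (V' ρ) (W ρ) (W' ρ) ρ)
    (hKe : ∀ ρ > 0, ∀ a b : ℝ, K ρ a b = lam + sks m (V ρ) (V' ρ) (W ρ) (W' ρ) ρ a b (srt a b))
    (hKu : ∀ ε > 0, ∀ r₀ > 0, ∃ δ > 0, ∀ r ρ q : ℝ, r₀ ≤ r → 0 < ρ → r = q * ρ → 0 ≤ q → q ≤ 1 →
      1 - q ^ 2 < δ → ∀ a b : ℝ, |a| ≤ 1 → |b| ≤ 1 → K r a b ≤ K ρ (q * a) (q * b) + ε) :
    ∀ ε > 0, ∀ r₀ > 0, ∃ Φ : ℝ × ℝ → ℝ, ∃ δ > 0, ContDiffOn ℝ ∞ Φ {p | -δ < p.1} ∧
    (∀ p : ℝ × ℝ, 0 ≤ p.1 → 0 ≤ Φ p) ∧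
    (∀ r a b : ℝ, 0 ≤ r → |a| ≤ 1 → |b| ≤ 1 → 0 ≤ ker m Φ (lam + ε) r a b) ∧
    (∀ r a b : ℝ, 0 < r → 0 ≤ a → a ≤ 1 → 0 ≤ b → b ≤ 1 →
      a * b * (s * r - (f a + f b) / 2 - ε) ≤ ker m Φ (lam + ε) r a b * r ^ m) ∧
    ∀ r a b : ℝ, r₀ ≤ r → |a| ≤ 1 → |b| ≤ 1 → K r a b ≤ ker m Φ (lam + ε) r a b := by
  intro ε hε r₀ hr₀
  obtain ⟨δ, hδ, hKδ⟩ := hKu (ε / 4) (by positivity) r₀ hr₀
  obtain ⟨η, hη, hη1, hη2, hη3⟩ := reg_eta (D := ((m : ℝ) / 2 + 1) * s) hC (by positivity) hε hδ hr₀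
  have hlam : ∀ r a b : ℝ, ker m (rPhi V W η) (lam + ε) r a b =
      ker m (rPhi V W η) lam r a b + ε := by
    intro r a b; unfold ker ker0; ring
  have hnn : ∀ r a b : ℝ, 0 ≤ r → |a| ≤ 1 → |b| ≤ 1 →
      0 ≤ ker m (rPhi V W η) (lam + ε) r a b := by
    intro r a b hr ha hb
    obtain ⟨ρ, q, hρ, hρ2, hq, hq0, hq1, -⟩ := P8.exists_rho hη hr
    obtain ⟨d3, d4, d5, hK, -⟩ := hall ρ hρ
    have h1 := rkerS_ge (m := m) (lam := lam) hη ha hb hρ hρ2 hq hq0 hq1 (dV ρ hρ) (dW ρ hρ) d3 d5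
    have h2 : |q * a| ≤ 1 := by
      rw [abs_mul, abs_of_nonneg hq0]; exact mul_le_one₀ hq1 (abs_nonneg _) ha
    have h3 : |q * b| ≤ 1 := by
      rw [abs_mul, abs_of_nonneg hq0]; exact mul_le_one₀ hq1 (abs_nonneg _) hb
    have h4 := hK _ _ h2 h3
    rw [hlam]
    linarith
  refine ⟨rPhi V W η, η ^ 2, by positivity, rPhi_contDiff hVs hWs, ?_, hnn, ?_, ?_⟩
  · intro p hp
    exact rPhi_nonneg hη (fun ρ hρ => (hall ρ hρ).1) (fun ρ hρ => (hall ρ hρ).2.1) hp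
  · intro r a b hr ha ha1 hb hb1
    have haa : |a| ≤ 1 := by rwa [abs_of_nonneg ha]
    have hbb : |b| ≤ 1 := by rwa [abs_of_nonneg hb]
    obtain ⟨ρ, q, hρ, hρ2, hq, hq0, hq1, -⟩ := P8.exists_rho hη hr.le
    obtain ⟨d3, d4, d5, -, hP⟩ := hall ρ hρ
    have h1 := rkerS_ge (m := m) (lam := lam) hη haa hbb hρ hρ2 hq hq0 hq1 (dV ρ hρ) (dW ρ hρ)
      d3 d5
    have hK0 := hnn r a b hr.le haa hbb
    have hqa : q * a ≤ a := by nlinarith
    have hqb : q * b ≤ b := by nlinarith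
    have hqa0 : 0 ≤ q * a := mul_nonneg hq0 ha
    have hqb0 : 0 ≤ q * b := mul_nonneg hq0 hb
    have h2 := hP _ _ hqa0 (hqa.trans ha1) hqb0 (hqb.trans hb1)
    have f1 : f (q * a) ≤ f a := hf ⟨hqa0, hqa.trans ha1⟩ ⟨ha, ha1⟩ hqa
    have f2 : f (q * b) ≤ f b := hf ⟨hqb0, hqb.trans hb1⟩ ⟨hb, hb1⟩ hqb
    have f3 : 0 ≤ f a := hf0.trans (hf ⟨le_rfl, zero_le_one⟩ ⟨ha, ha1⟩ ha)
    have f4 : 0 ≤ f b := hf0.trans (hf ⟨le_rfl, zero_le_one⟩ ⟨hb, hb1⟩ hb)
    have key : (q * a) * (q * b) * (s * ρ - (f a + f b) / 2) ≤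
        ker m (rPhi V W η) (lam + ε) r a b * ρ ^ m := by
      calc (q * a) * (q * b) * (s * ρ - (f a + f b) / 2) ≤
          (q * a) * (q * b) * (s * ρ - (f (q * a) + f (q * b)) / 2) :=
            mul_le_mul_of_nonneg_left (by linarith) (by positivity)
        _ ≤ _ := h2
        _ ≤ _ := by
            refine mul_le_mul_of_nonneg_right ?_ (by positivity)
            rw [hlam]
            linarith
    have := regularise (m := m) hs hη hρ hρ2 hr.le hq hq0 hq1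
      (mul_nonneg ha hb) (by linarith) hK0 key
    refine le_trans ?_ this
    refine mul_le_mul_of_nonneg_left ?_ (mul_nonneg ha hb)
    linarith
  · intro r a b hr ha hb
    have hr0 : 0 < r := lt_of_lt_of_le hr₀ hr
    obtain ⟨ρ, q, hρ, hρ2, hq, hq0, hq1, -⟩ := P8.exists_rho hη hr0.le
    obtain ⟨d3, d4, d5, -, -⟩ := hall ρ hρ
    have h1 := rkerS_ge (m := m) (lam := lam) hη ha hb hρ hρ2 hq hq0 hq1 (dV ρ hρ) (dW ρ hρ)
      d3 d5
    have h4 := hKe ρ hρ (q * a) (q * b)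
    have h5 : 1 - q ^ 2 < δ := by
      have e1 : (1 - q ^ 2) * ρ ^ 2 = η ^ 2 := by
        have : r ^ 2 = q ^ 2 * ρ ^ 2 := by rw [hq]; ring
        linarith
      have e2 : δ * r₀ ^ 2 ≤ δ * ρ ^ 2 := by
        refine mul_le_mul_of_nonneg_left ?_ hδ.le
        have : r₀ ^ 2 ≤ r ^ 2 := pow_le_pow_left₀ hr₀.le hr 2
        linarith [sq_nonneg η]
      have e3 : (1 - q ^ 2) * ρ ^ 2 < δ * ρ ^ 2 := by linarith
      exact lt_of_mul_lt_mul_right e3 (by positivity)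
    have h6 := hKδ r ρ q hr hρ hq hq0 hq1 h5 a b ha hb
    rw [hlam]
    linarith

end

end Vale.Agent.P219.TP
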