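import Vale.Agent.P219.TP.CertNine
import Vale.Agent.P219.TPR.PolyNineR
import Vale.Agent.P219.TPR.RigS

/-! # The certificate with strictness in dimension 9 -/

open MeasureTheory Set Metric Filter Topology
open scoped ENNReal ContDiff

namespace Vale.Agent.P219.TP

theorem P9.inR_in {l : ℝ} (hl : 0 < l) (hl2 : l ≤ 21 / 10) :
    InR 8 92000 3594240 P9.f (P9.Vi l) (P9.Vi' l) (P9.Wi l) (P9.Wi' l) l := by
  have h0 := hl.le
  have hp : ∀ {x y : ℝ}, x * l ^ 8 = l ^ 3 * y → l ^ 5 ≤ y → 0 < x := by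
    intro x y h hy
    have hy0 : 0 < y := lt_of_lt_of_le (by positivity) hy
    have : 0 < x * l ^ 8 := by rw [h]; positivity
    exact pos_of_mul_pos_left this (by positivity)
  refine inR_mk hl ?_ ?_ ?_ ?_ ?_ ?_ ?_ fun a b ha ha1 hb hb1 => P9.f_conv ha ha1 hb hb1
  · have := P9.wR h0 hl2
    unfold P9.Wi; positivity
  · intro a b ha ha1 hb hb1
    refine hp (P9.sks_in hl _ _ _) ?_
    rw [abs_of_nonneg ha, abs_of_nonneg hb]
    exact P9.kRpp h0 hl2 ha ha1 hb hb1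
  · intro a b ha ha1 hb hb1
    refine hp (P9.sks_in hl _ _ _) ?_
    rw [abs_of_nonneg ha, abs_neg, abs_of_nonneg hb]
    exact P9.kRpm h0 hl2 ha ha1 hb hb1
  · intro a b ha ha1 hb hb1
    refine hp (P9.sks_in hl _ _ _) ?_
    rw [abs_neg, abs_of_nonneg ha, abs_neg, abs_of_nonneg hb]
    exact P9.kRmm h0 hl2 ha ha1 hb hb1
  · intro c hc hc1
    rw [P9.sks_in hl, abs_of_nonneg hc]
    exact P9.diag h0 hl2 hc hc1
  · intro c hc hc1 h
    rw [P9.sks_in hl, abs_of_nonneg hc] at h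
    have h1 := P9.diagR h0 hl2 hc hc1
    have h2 : (l - 2 * c) ^ 2 * (l + c) ≤ 0 := by linarith
    have h3 : (l - 2 * c) ^ 2 ≤ 0 := nonpos_of_mul_nonpos_left h2 (by positivity)
    have h4 : (l - 2 * c) ^ 2 = 0 := le_antisymm h3 (sq_nonneg _)
    have := pow_eq_zero_iff two_ne_zero |>.1 h4
    linarith
  · intro b hb hb1
    rw [P9.sks_in hl, abs_one, abs_of_nonneg hb]
    exact P9.one h0 hl2 hb hb1

theorem P9.inR_out {l : ℝ} (hl2 : 2 ≤ l) :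
    InR 8 92000 3594240 P9.f (P9.Vo l) (P9.Vo' l) (P9.Wo l) (P9.Wo' l) l := by
  have hl : 0 < l := by linarith
  have hp : ∀ {x y : ℝ}, x * l ^ 8 = l ^ 5 * y → l ^ 3 ≤ y → 0 < x := by
    intro x y h hy
    have hy0 : 0 < y := lt_of_lt_of_le (by positivity) hy
    have : 0 < x * l ^ 8 := by rw [h]; positivity
    exact pos_of_mul_pos_left this (by positivity)
  refine inR_mk hl ?_ ?_ ?_ ?_ ?_ ?_ ?_ fun a b ha ha1 hb hb1 => P9.f_conv ha ha1 hb hb1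
  · unfold P9.Wo; positivity
  · intro a b ha ha1 hb hb1
    refine hp (P9.sks_out hl _ _ _) ?_
    rw [abs_of_nonneg ha, abs_of_nonneg hb]
    exact P9.kRopp hl2 ha ha1 hb hb1
  · intro a b ha ha1 hb hb1
    refine hp (P9.sks_out hl _ _ _) ?_
    rw [abs_of_nonneg ha, abs_neg, abs_of_nonneg hb]
    exact P9.kRopm hl2 ha ha1 hb hb1
  · intro a b ha ha1 hb hb1
    refine hp (P9.sks_out hl _ _ _) ?_
    rw [abs_neg, abs_of_nonneg ha, abs_neg, abs_of_nonneg hb]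
    exact P9.kRomm hl2 ha ha1 hb hb1
  · intro c hc hc1
    rw [P9.sks_out hl, abs_of_nonneg hc]
    exact P9.diagO hl2 hc hc1
  · intro c hc hc1 h
    rw [P9.sks_out hl, abs_of_nonneg hc] at h
    have h1 := P9.diagOR hl2 hc hc1
    have h4 : (l - 2 * c) ^ 2 = 0 := le_antisymm (by linarith) (sq_nonneg _)
    have := pow_eq_zero_iff two_ne_zero |>.1 h4
    linarith
  · intro b hb hb1
    rw [P9.sks_out hl, abs_one, abs_of_nonneg hb]
    exact P9.oneO hl2 hb hb1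

theorem P9.jump {l : ℝ} (hl : 2 ≤ l) (hl2 : l ≤ 21 / 10) :
    |P9.Wo l - P9.Wi l| ≤ P9.Vo l - P9.Vi l ∧ P9.Vo l - P9.Vi l ≤ 1000000 := by
  have hl0 : 0 < l := by linarith
  have j1 := P9.j1 hl hl2
  have j2 := P9.j2 hl hl2
  have j3 := P9.j3 hl hl2
  have e1 : (P9.Vo l - P9.Vi l) * l ^ 4 = 10055 * l ^ 4 + 126820 * l ^ 2 - P9.Vn l := by
    unfold P9.Vo P9.Vi; field_simp
  have e2 : (P9.Wo l - P9.Wi l) * l ^ 4 = 77400 * l ^ 2 - l * P9.Wn l := by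
    unfold P9.Wo P9.Wi; field_simp
  have hl4 : 0 < l ^ 4 := by positivity
  rw [← e1, ← e2] at j1 j2
  rw [← e1] at j3
  refine ⟨?_, ?_⟩
  · rw [abs_le]
    constructor
    · refine le_of_mul_le_mul_right ?_ hl4
      linarith
    · refine le_of_mul_le_mul_right ?_ hl4
      linarith
  · refine le_of_mul_le_mul_right ?_ hl4
    linarith

theorem P9.sVi : ContDiffOn ℝ ∞ P9.Vi (Ioi 0) := P9.contDiffOn_div (by unfold P9.Vn; fun_prop) 4
theorem P9.sWi : ContDiffOn ℝ ∞ P9.Wi (Ioi 0) := P9.contDiffOn_div (by unfold P9.Wn; fun_prop) 3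
theorem P9.sVi' : ContDiffOn ℝ ∞ P9.Vi' (Ioi 0) := P9.contDiffOn_div (by unfold P9.Vp; fun_prop) 5
theorem P9.sWi' : ContDiffOn ℝ ∞ P9.Wi' (Ioi 0) := P9.contDiffOn_div (by unfold P9.Wp; fun_prop) 4
theorem P9.sVo : ContDiffOn ℝ ∞ P9.Vo (Ioi 0) :=
  contDiffOn_const.add (P9.contDiffOn_div contDiff_const 2)
theorem P9.sWo : ContDiffOn ℝ ∞ P9.Wo (Ioi 0) := P9.contDiffOn_div contDiff_const 2

/-- The exact kernel. -/
noncomputable def P9.K : ℝ → ℝ → ℝ → ℝ :=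
  KS 8 92000 P9.Vi P9.Vi' P9.Wi P9.Wi' P9.Vo P9.Vo' P9.Wo P9.Wo'

/-- The exact kernel in the variable `1 / r`. -/
noncomputable def P9.KU : ℝ → ℝ → ℝ → ℝ :=
  KSU 8 92000 P9.Vi P9.Vi' P9.Wi P9.Wi' (fun u => 10055 + 126820 * u ^ 2)
    (fun u => -253640 * u ^ 3) (fun u => 77400 * u ^ 2) (fun u => -154800 * u ^ 3)

theorem P9.K_eq_KU (r : ℝ) (hr : 0 < r) (a b : ℝ) : P9.K r a b = P9.KU (1 / r) a b := by
  refine KS_eq_KSU ?_ ?_ ?_ ?_ r hr a b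
  · intro r _; unfold P9.Vo; ring
  · intro r _; unfold P9.Vo'; ring
  · intro r _; unfold P9.Wo; ring
  · intro r _; unfold P9.Wo'; ring

theorem P9.continuous_KU : Continuous fun z : ℝ × ℝ × ℝ => P9.KU z.1 z.2.1 z.2.2 :=
  continuous_KSU P9.sVi.continuousOn P9.sVi'.continuousOn P9.sWi.continuousOn
    P9.sWi'.continuousOn (by fun_prop) (by fun_prop) (by fun_prop) (by fun_prop)

theorem P9.all : ∃ C, 0 ≤ C ∧ ∀ ρ > 0,
    InS 8 92000 3594240 P9.f C (gl P9.Vi P9.Vo ρ) (glD P9.Vi P9.Vi' P9.Vo P9.Vo' ρ)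
      (gl P9.Wi P9.Wo ρ) (glD P9.Wi P9.Wi' P9.Wo P9.Wo' ρ) ρ ∧
    InR 8 92000 3594240 P9.f (gl P9.Vi P9.Vo ρ) (glD P9.Vi P9.Vi' P9.Vo P9.Vo' ρ)
      (gl P9.Wi P9.Wo ρ) (glD P9.Wi P9.Wi' P9.Wo P9.Wo' ρ) ρ :=
  glueS_all (C := 100000000) (D := 1000000) (by norm_num) (by norm_num)
    (fun _ h1 h2 => ⟨P9.inS_in h1 h2, P9.inR_in h1 h2⟩) (fun _ h1 => ⟨P9.inS_out h1, P9.inR_out h1⟩)
    (fun _ h1 h2 => P9.jump h1 h2)

/-- The certificate with strictness in dimension 9. -/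
noncomputable def certRNine : CertR 9 where
  toCert := certNine
  K := P9.K
  K_cont := contOn_of_U P9.K_eq_KU P9.continuous_KU
  K_PI r a b hr ha ha1 hb hb1 := by
    obtain ⟨C, -, h⟩ := P9.all
    exact (h r hr).1.2.2.2.2 a b ha.le ha1 hb.le hb1
  K_eq r a b hr ha ha1 hb hb1 heq := by
    obtain ⟨C, -, h⟩ := P9.all
    exact (h r hr).2.2 a b ha ha1 hb hb1 heq
  K_pos r a b hr ha hb := by
    obtain ⟨C, -, h⟩ := P9.all
    exact (h r hr).2.1 a b ha hb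
  approxR := by
    obtain ⟨C, hC, h⟩ := P9.all
    exact regS_approxR (m := 8) (lam := 92000) (s := 3594240) (f := P9.f)
      (by norm_num) P9.mono_f P9.f_zero.ge hC
      (contDiffOn_gl P9.sVi P9.sVo) (contDiffOn_gl P9.sWi P9.sWo)
      (fun ρ hρ => hasDerivAt_gl (A' := P9.Vi') (B' := P9.Vo') (P9.hasDerivAt_Vi hρ)
        (P9.hasDerivAt_Vo hρ))
      (fun ρ hρ => hasDerivAt_gl (A' := P9.Wi') (B' := P9.Wo') (P9.hasDerivAt_Wi hρ)
        (P9.hasDerivAt_Wo hρ))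
      (fun ρ hρ => (h ρ hρ).1) (fun _ _ _ _ => rfl)
      (fun ε hε r₀ hr₀ => unif_of_U P9.K_eq_KU P9.continuous_KU hε hr₀)

end Vale.Agent.P219.TP
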