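import Vale.Agent.P219.TPR.CertRGlue
import Vale.Agent.P219.TP.CertSeven

/-! # The strict certificate in dimension 7 -/

open MeasureTheory Set Metric Filter Topology
open scoped ENNReal ContDiff

set_option linter.unusedSimpArgs false

namespace Vale.Agent.P219.TP

/-! ### The inner polynomials -/

theorem P7.A_skey {l u S v : ℝ} (hl : 0 < l) (hu : 0 ≤ u) (hS : 0 ≤ S) (hv : 0 ≤ v)
    (h : 0 < S ∨ 0 < v) :
    0 < l ^ 1 *
      (v ^ 3 * (11805 / 16 * u ^ 8 + 35415 / 4 * l * u ^ 7 + 832465 / 16 * l ^ 2 * u ^ 6 +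
      1462265 / 8 * l ^ 3 * u ^ 5 + 6428249 / 16 * l ^ 4 * u ^ 4 + 1119059 / 2 * l ^ 5 * u ^ 3 +
      7822907 / 16 * l ^ 6 * u ^ 2 + 2013137 / 8 * l ^ 7 * u + 474755 / 8 * l ^ 8) +
      S * v ^ 2 * (35415 / 16 * u ^ 8 + 580865 / 32 * l * u ^ 7 + 2528953 / 32 * l ^ 2 * u ^ 6 +
      7544013 / 32 * l ^ 3 * u ^ 5 + 15142917 / 32 * l ^ 4 * u ^ 4 +
      9974913 / 16 * l ^ 5 * u ^ 3 + 2248563 / 4 * l ^ 6 * u ^ 2 + 2789095 / 8 * l ^ 7 * u +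
      433741 / 4 * l ^ 8) + S ^ 2 * v * (59025 / 16 * u ^ 8 + 439205 / 16 * l * u ^ 7 +
      95975 * l ^ 2 * u ^ 6 + 3422443 / 16 * l ^ 3 * u ^ 5 + 1245137 / 4 * l ^ 4 * u ^ 4 +
      2271557 / 8 * l ^ 5 * u ^ 3 + 3358901 / 16 * l ^ 6 * u ^ 2 + 1431493 / 8 * l ^ 7 * u +
      651861 / 8 * l ^ 8) + S ^ 3 * (35415 / 16 * u ^ 8 + 650727 / 32 * l * u ^ 7 +
      2810923 / 32 * l ^ 2 * u ^ 6 + 7276603 / 32 * l ^ 3 * u ^ 5 +
      11576471 / 32 * l ^ 4 * u ^ 4 + 5485207 / 16 * l ^ 5 * u ^ 3 +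
      1608747 / 8 * l ^ 6 * u ^ 2 + 765489 / 8 * l ^ 7 * u + 129567 / 4 * l ^ 8)) := by
  rcases h with h | h <;> positivity

theorem P7.A_pos {l S : ℝ} (hl : 0 < l) (hl2 : l ≤ 2) (hS : 0 ≤ S) (hS2 : S ≤ 2) :
    0 < gA 6 42432 l (l ^ 3 * (2 + l) ^ 4) (P7.Vn l) (P7.Vp l) (P7.Wn l) (P7.Wp l) S := by
  have h : 0 < S ∨ 0 < 2 - S := by
    rcases lt_or_ge 0 S with h | h
    · exact Or.inl h
    · right; linarith
  refine (P7.A_skey hl (sub_nonneg.2 hl2) hS (sub_nonneg.2 hS2) h).trans_eq ?_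
  simp only [gA, P7.Vn, P7.Vp, P7.Wn, P7.Wp, P7.M, P7.M1]; ring

theorem P7.B_skey {l u S v : ℝ} (hl : 0 < l) (hu : 0 ≤ u) (hS : 0 ≤ S) (hv : 0 ≤ v)
    (h : 0 < S ∨ 0 < v) :
    0 < l ^ 1 *
      (v ^ 3 * (11805 / 16 * u ^ 8 + 35415 / 4 * l * u ^ 7 + 832465 / 16 * l ^ 2 * u ^ 6 +
      1462265 / 8 * l ^ 3 * u ^ 5 + 6428249 / 16 * l ^ 4 * u ^ 4 + 1119059 / 2 * l ^ 5 * u ^ 3 +
      7822907 / 16 * l ^ 6 * u ^ 2 + 2013137 / 8 * l ^ 7 * u + 474755 / 8 * l ^ 8) +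
      S * v ^ 2 * (35415 / 16 * u ^ 8 + 580865 / 32 * l * u ^ 7 + 2528953 / 32 * l ^ 2 * u ^ 6 +
      7544013 / 32 * l ^ 3 * u ^ 5 + 15142917 / 32 * l ^ 4 * u ^ 4 +
      9974913 / 16 * l ^ 5 * u ^ 3 + 2248563 / 4 * l ^ 6 * u ^ 2 + 2789095 / 8 * l ^ 7 * u +
      433741 / 4 * l ^ 8) + S ^ 2 * v * (11805 / 4 * u ^ 8 + 297545 / 16 * l * u ^ 7 +
      993165 / 16 * l ^ 2 * u ^ 6 + 2698085 / 16 * l ^ 3 * u ^ 5 + 5197717 / 16 * l ^ 4 * u ^ 4 +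
      2872393 / 8 * l ^ 5 * u ^ 3 + 1899761 / 8 * l ^ 6 * u ^ 2 + 286215 / 2 * l ^ 7 * u +
      60160 * l ^ 8) + S ^ 3 * (11805 / 8 * u ^ 8 + 131307 / 16 * l * u ^ 7 +
      369033 / 16 * l ^ 2 * u ^ 6 + 1012635 / 16 * l ^ 3 * u ^ 5 + 2148441 / 16 * l ^ 4 * u ^ 4 +
      1131405 / 8 * l ^ 5 * u ^ 3 + 205317 / 4 * l ^ 6 * u ^ 2 + 2358 * l ^ 7 * u +
      4197 * l ^ 8)) := by
  rcases h with h | h <;> positivity

theorem P7.B_pos {l S : ℝ} (hl : 0 < l) (hl2 : l ≤ 2) (hS : 0 ≤ S) (hS2 : S ≤ 2) :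
    0 < gA 6 42432 l (l ^ 3 * (2 + l) ^ 4) (P7.Vn l) (P7.Vp l) (P7.Wn l) (P7.Wp l) S +
      S ^ 2 / 4 * gT 6 l (P7.Vn l) (P7.Vp l) (P7.Wn l) (P7.Wp l) S := by
  have h : 0 < S ∨ 0 < 2 - S := by
    rcases lt_or_ge 0 S with h | h
    · exact Or.inl h
    · right; linarith
  refine (P7.B_skey hl (sub_nonneg.2 hl2) hS (sub_nonneg.2 hS2) h).trans_eq ?_
  simp only [gA, gT, P7.Vn, P7.Vp, P7.Wn, P7.Wp, P7.M, P7.M1]; ring

theorem P7.Q_skey {l u S v : ℝ} (hl : 0 < l) (hu : 0 ≤ u) (hS : 0 < S) (hv : 0 ≤ v) :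
    0 < l ^ 3 *
      (v ^ 6 * (11805 / 128 * l * u ^ 8 + 35415 / 32 * l ^ 2 * u ^ 7 +
      832465 / 128 * l ^ 3 * u ^ 6 + 1462265 / 64 * l ^ 4 * u ^ 5 +
      6428249 / 128 * l ^ 5 * u ^ 4 + 1119059 / 16 * l ^ 6 * u ^ 3 +
      7822907 / 128 * l ^ 7 * u ^ 2 + 2013137 / 64 * l ^ 8 * u + 474755 / 64 * l ^ 9) +
      S * v ^ 5 * (11805 / 64 * u ^ 9 + 11805 / 4 * l * u ^ 8 + 5327325 / 256 * l ^ 2 * u ^ 7 +
      22551723 / 256 * l ^ 3 * u ^ 6 + 62502309 / 256 * l ^ 4 * u ^ 5 +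
      115235295 / 256 * l ^ 5 * u ^ 4 + 70383087 / 128 * l ^ 6 * u ^ 3 +
      56161335 / 128 * l ^ 7 * u ^ 2 + 6902145 / 32 * l ^ 8 * u + 3241257 / 64 * l ^ 9) +
      S ^ 2 * v ^ 4 * (59025 / 64 * u ^ 9 + 439025 / 32 * l * u ^ 8 +
      23204721 / 256 * l ^ 2 * u ^ 7 + 90801825 / 256 * l ^ 3 * u ^ 6 +
      230451421 / 256 * l ^ 4 * u ^ 5 + 389261663 / 256 * l ^ 5 * u ^ 4 +
      219725387 / 128 * l ^ 6 * u ^ 3 + 82559131 / 64 * l ^ 7 * u ^ 2 +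
      39437659 / 64 * l ^ 8 * u + 1160365 / 8 * l ^ 9) + S ^ 3 * v ^ 3 * (516575 / 256 * u ^ 9 +
      7377939 / 256 * l * u ^ 8 + 46693555 / 256 * l ^ 2 * u ^ 7 +
      173414453 / 256 * l ^ 3 * u ^ 6 + 207524131 / 128 * l ^ 4 * u ^ 5 +
      82608485 / 32 * l ^ 5 * u ^ 4 + 176920467 / 64 * l ^ 6 * u ^ 3 +
      128075695 / 64 * l ^ 7 * u ^ 2 + 15107971 / 16 * l ^ 8 * u + 7175653 / 32 * l ^ 9) +
      S ^ 4 * v ^ 2 * (522957 / 256 * u ^ 9 + 7307285 / 256 * l * u ^ 8 +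
      45162405 / 256 * l ^ 2 * u ^ 7 + 163094821 / 256 * l ^ 3 * u ^ 6 +
      189322833 / 128 * l ^ 4 * u ^ 5 + 73234959 / 32 * l ^ 5 * u ^ 4 +
      153594531 / 64 * l ^ 6 * u ^ 3 + 221022911 / 128 * l ^ 7 * u ^ 2 +
      52703367 / 64 * l ^ 8 * u + 12723875 / 64 * l ^ 9) + S ^ 5 * v * (131345 / 128 * u ^ 9 +
      1820121 / 128 * l * u ^ 8 + 11156695 / 128 * l ^ 2 * u ^ 7 +
      39925091 / 128 * l ^ 3 * u ^ 6 + 91948313 / 128 * l ^ 4 * u ^ 5 +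
      141797443 / 128 * l ^ 5 * u ^ 4 + 149452251 / 128 * l ^ 6 * u ^ 3 +
      108968023 / 128 * l ^ 7 * u ^ 2 + 13154551 / 32 * l ^ 8 * u + 6360625 / 64 * l ^ 9) +
      S ^ 6 * (15609 / 64 * u ^ 9 + 432855 / 128 * l * u ^ 8 + 332151 / 16 * l ^ 2 * u ^ 7 +
      9523359 / 128 * l ^ 3 * u ^ 6 + 22000029 / 128 * l ^ 4 * u ^ 5 +
      17075169 / 64 * l ^ 5 * u ^ 4 + 36291783 / 128 * l ^ 6 * u ^ 3 +
      6614511 / 32 * l ^ 7 * u ^ 2 + 6251337 / 64 * l ^ 8 * u + 725835 / 32 * l ^ 9)) := by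
  positivity

theorem P7.Q_eq {l S : ℝ} (hl : 0 < l) (hl2 : l ≤ 2) (hS : 0 < S) (hS2 : S ≤ 2)
    (h : l ^ 5 * gA 6 42432 l (l ^ 3 * (2 + l) ^ 4) (P7.Vn l) (P7.Vp l) (P7.Wn l) (P7.Wp l) S +
      S ^ 2 / 4 * (l ^ 5 * gT 6 l (P7.Vn l) (P7.Vp l) (P7.Wn l) (P7.Wp l) S -
        (1133280 * l - 2 * P7.f (S / 2) / 2) * (l ^ 3 * (2 + l) ^ 4)) = 0) : l = S := by
  have h1 := P7.Q_skey hl (sub_nonneg.2 hl2) hS (sub_nonneg.2 hS2)
  generalize hR : l ^ 3 * _ = R at h1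
  have h2 : (l - S) ^ 2 * R = 0 := by
    rw [← h, ← hR]
    simp only [gA, gT, P7.Vn, P7.Vp, P7.Wn, P7.Wp, P7.M, P7.M1, P7.f]; ring
  have h3 := pow_eq_zero_iff (two_ne_zero) |>.1 ((mul_eq_zero.1 h2).resolve_right h1.ne')
  linarith

/-! ### The outer polynomials, with the jump subtracted -/

/-- The constant coefficient of `l D (κ_out - J)`. -/
noncomputable def P7.AJ (l S : ℝ) : ℝ :=
  gA 6 42432 l (l ^ 3) (P7.Un l) (P7.Up l) 0 0 S - 54977 / 16 * ((1 - S) * (2 + S)) * (l * l ^ 3)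

/-- The linear coefficient of `l D (κ_out - J)`. -/
noncomputable def P7.TJ (l S : ℝ) : ℝ :=
  gT 6 l (P7.Un l) (P7.Up l) 0 0 S - 54977 / 16 * (2 + S) * (l * l ^ 3)

theorem P7.AJ_key {l t S v : ℝ} (hl : 0 < l) (ht : 0 ≤ t) (hS : 0 ≤ S) (hv : 0 ≤ v)
    (h : 0 < S ∨ 0 < v) :
    0 < l * ((474755 / 4 * v ^ 2 + 392727 / 4 * S * v + 129567 / 2 * S ^ 2) + t * (1002781 / 8 * v ^ 2
      + 1110701 / 8 * S * v + 293563 / 4 * S ^ 2) + t ^ 2 * (853437 / 16 * v ^ 2 + 1423773 / 16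
      * S * v + 450099 / 8 * S ^ 2) + t ^ 3 * (284479 / 32 * v ^ 2 + 623935 / 32 * S * v +
      224705 / 16 * S ^ 2)) := by
  rcases h with h | h <;> positivity

theorem P7.AJ_pos {l S : ℝ} (hl : 2 ≤ l) (hS : 0 ≤ S) (hS2 : S ≤ 2) : 0 < P7.AJ l S := by
  have h : 0 < S ∨ 0 < 2 - S := by
    rcases lt_or_ge 0 S with h | h
    · exact Or.inl h
    · right; linarith
  refine (P7.AJ_key (l := l) (by linarith) (sub_nonneg.2 hl) hS (sub_nonneg.2 hS2) h).trans_eq ?_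
  simp only [P7.AJ, gA, P7.Un, P7.Up]; ring

theorem P7.BJ_key {l t S v : ℝ} (hl : 0 < l) (ht : 0 ≤ t) (hS : 0 ≤ S) (hv : 0 ≤ v)
    (h : 0 < S ∨ 0 < v) :
    0 < l * ((474755 / 8 * v ^ 3 + 433741 / 4 * S * v ^ 2 + 60160 * S ^ 2 * v + 4197 * S ^ 3) + t *
      (1002781 / 16 * v ^ 3 + 1056741 / 8 * S * v ^ 2 + 91139 * S ^ 2 * v + 11412 * S ^ 3) + t ^
      2 * (853437 / 32 * v ^ 3 + 1138605 / 16 * S * v ^ 2 + 67470 * S ^ 2 * v + 17823 * S ^ 3) +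
      t ^ 3 * (284479 / 64 * v ^ 3 + 454207 / 32 * S * v ^ 2 + 15912 * S ^ 2 * v + 5304 * S ^ 3)) := by
  rcases h with h | h <;> positivity

theorem P7.BJn_key {l t S v : ℝ} (hl : 0 < l) (ht : 0 ≤ t) (hS : 0 ≤ S) (hv : 0 ≤ v)
    (h : 0 < S ∨ 0 < v) :
    0 < l * ((474755 / 8 * v ^ 3 + 247631 * S * v ^ 2 + 677103 / 2 * S ^ 2 * v + 157137 * S ^ 3) + t *
      (1002781 / 16 * v ^ 3 + 975801 / 4 * S * v ^ 2 + 1259417 / 4 * S ^ 2 * v + 143886 * S ^ 3)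
      + t ^ 2 * (853437 / 32 * v ^ 3 + 710853 / 8 * S * v ^ 2 + 822861 / 8 * S ^ 2 * v + 45825 *
      S ^ 3) + t ^ 3 * (284479 / 64 * v ^ 3 + 199615 / 16 * S * v ^ 2 + 199615 / 16 * S ^ 2 * v
      + 5304 * S ^ 3)) := by
  rcases h with h | h <;> positivity

theorem P7.BJ_pos {l S : ℝ} (hl : 2 ≤ l) (hS : -2 ≤ S) (hS2 : S ≤ 2) :
    0 < P7.AJ l S + S ^ 2 / 4 * P7.TJ l S := by
  rcases le_total 0 S with h0 | h0
  · have h : 0 < S ∨ 0 < 2 - S := by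
      rcases lt_or_ge 0 S with h | h
      · exact Or.inl h
      · right; linarith
    refine (P7.BJ_key (l := l) (by linarith) (sub_nonneg.2 hl) h0 (sub_nonneg.2 hS2) h).trans_eq ?_
    simp only [P7.AJ, P7.TJ, gA, gT, P7.Un, P7.Up]; ring
  · have h : 0 < -S ∨ 0 < 2 - -S := by
      rcases lt_or_ge 0 (-S) with h | h
      · exact Or.inl h
      · right; linarith
    refine (P7.BJn_key (l := l) (S := -S) (v := 2 - -S) (by linarith) (sub_nonneg.2 hl)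
      (by linarith) (by linarith) h).trans_eq ?_
    simp only [P7.AJ, P7.TJ, gA, gT, P7.Un, P7.Up]; ring

theorem P7.TJ_nonpos {l S : ℝ} (hl : 2 ≤ l) (hS : -2 ≤ S) : P7.TJ l S ≤ 0 := by
  have h0 : 0 ≤ l := by linarith
  have h1 : 0 ≤ 2 + S := by linarith
  have h2 : 0 ≤ l * (37336 * l + 40932 + 54977 / 16 * (2 + S) * l ^ 3) := by positivity
  have e : P7.TJ l S = -(l * (37336 * l + 40932 + 54977 / 16 * (2 + S) * l ^ 3)) := by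
    simp only [P7.TJ, gT, P7.Un, P7.Up]; ring
  rw [e]
  linarith

theorem P7.QJ_key {l t S v : ℝ} (hl : 0 < l) (ht : 0 ≤ t) (hS : 0 < S) (hv : 0 ≤ v) :
    0 ≤ l ^ 3 * ((474755 / 32 * v ^ 8 + 3241257 / 32 * S * v ^ 7 + 1160365 / 4 * S ^ 2 * v ^ 6 + 7175653 /
      16 * S ^ 3 * v ^ 5 + 12723875 / 32 * S ^ 4 * v ^ 4 + 6360625 / 32 * S ^ 5 * v ^ 3 + 725835
      / 16 * S ^ 6 * v ^ 2) + t * (1213523 * v ^ 3 + 2357964 * S * v ^ 2 + 1309372 * S ^ 2 * v)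
      + t ^ 2 * (5286045 / 4 * v ^ 3 + 5610051 / 2 * S * v ^ 2 + 1994388 * S ^ 2 * v + 304710 *
      S ^ 3) + t ^ 3 * (790986 * v ^ 3 + 3736993 / 2 * S * v ^ 2 + 1543930 * S ^ 2 * v + 328977
      * S ^ 3) + t ^ 4 * (4416529 / 16 * v ^ 3 + 5835177 / 8 * S * v ^ 2 + 686903 * S ^ 2 * v +
      181998 * S ^ 3) + t ^ 5 * (853437 / 16 * v ^ 3 + 1250613 / 8 * S * v ^ 2 + 162942 * S ^ 2
      * v + 49647 * S ^ 3) + t ^ 6 * (284479 / 64 * v ^ 3 + 454207 / 32 * S * v ^ 2 + 15912 * S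
      ^ 2 * v + 5304 * S ^ 3)) ∧ (0 < t → 0 < l ^ 3 * ((474755 / 32 * v ^ 8 + 3241257 / 32 * S * v ^ 7 + 1160365 / 4 * S ^ 2 * v ^ 6 + 7175653 /
      16 * S ^ 3 * v ^ 5 + 12723875 / 32 * S ^ 4 * v ^ 4 + 6360625 / 32 * S ^ 5 * v ^ 3 + 725835
      / 16 * S ^ 6 * v ^ 2) + t * (1213523 * v ^ 3 + 2357964 * S * v ^ 2 + 1309372 * S ^ 2 * v)
      + t ^ 2 * (5286045 / 4 * v ^ 3 + 5610051 / 2 * S * v ^ 2 + 1994388 * S ^ 2 * v + 304710 *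
      S ^ 3) + t ^ 3 * (790986 * v ^ 3 + 3736993 / 2 * S * v ^ 2 + 1543930 * S ^ 2 * v + 328977
      * S ^ 3) + t ^ 4 * (4416529 / 16 * v ^ 3 + 5835177 / 8 * S * v ^ 2 + 686903 * S ^ 2 * v +
      181998 * S ^ 3) + t ^ 5 * (853437 / 16 * v ^ 3 + 1250613 / 8 * S * v ^ 2 + 162942 * S ^ 2
      * v + 49647 * S ^ 3) + t ^ 6 * (284479 / 64 * v ^ 3 + 454207 / 32 * S * v ^ 2 + 15912 * S
      ^ 2 * v + 5304 * S ^ 3))) := by
  constructor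
  · positivity
  · intro ht
    positivity

theorem P7.QJ {l S : ℝ} (hl : 2 ≤ l) (hS : 0 < S) (hS2 : S ≤ 2) :
    0 ≤ l ^ 5 * P7.AJ l S + S ^ 2 / 4 * (l ^ 5 * P7.TJ l S -
      (1133280 * l - 2 * P7.f (S / 2) / 2) * l ^ 3) ∧ (2 < l → 0 < l ^ 5 * P7.AJ l S +
      S ^ 2 / 4 * (l ^ 5 * P7.TJ l S - (1133280 * l - 2 * P7.f (S / 2) / 2) * l ^ 3)) := by
  have h := P7.QJ_key (l := l) (t := l - 2) (by linarith) (sub_nonneg.2 hl) hS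
    (sub_nonneg.2 hS2)
  constructor
  · refine h.1.trans_eq ?_
    simp only [P7.AJ, P7.TJ, gA, gT, P7.Un, P7.Up, P7.f]; ring
  · intro h2
    refine (h.2 (sub_pos.2 h2)).trans_eq ?_
    simp only [P7.AJ, P7.TJ, gA, gT, P7.Un, P7.Up, P7.f]; ring

/-! ### The kernel -/

theorem P7.Wi_two : P7.Wi 2 = 0 := by norm_num [P7.Wi, P7.M]

theorem P7.Wi'_two : P7.Wi' 2 = -(54977 / 8) := by norm_num [P7.Wi', P7.M, P7.M1]

theorem P7.Vi_two : P7.Vi 2 = 12745 := by norm_num [P7.Vi, P7.Wi, P7.M]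

theorem P7.Vi'_two : P7.Vi' 2 = -(8078 + 54977 / 8) := by
  norm_num [P7.Vi', P7.Wi_two, P7.Wi'_two]

theorem P7.Vo_two : P7.Vo 2 = 12745 := by norm_num [P7.Vo]

theorem P7.Vo'_two : P7.Vo' 2 = -8078 := by norm_num [P7.Vo']

theorem P7.jump (a b : ℝ) : kou 6 42432 P7.Vo P7.Vo' 2 a b -
    kin 6 42432 P7.Vi P7.Vi' P7.Wi P7.Wi' 2 a b =
      54977 / 16 * ((1 - a) * (1 - b) * (2 + a + b)) := by
  unfold kou kin sk skx
  rw [P7.Wi_two, P7.Wi'_two, P7.Vi_two, P7.Vi'_two, P7.Vo_two, P7.Vo'_two]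
  ring

theorem P7.kou_AJ {l : ℝ} (hl : 0 < l) (a b : ℝ) :
    l * l ^ 3 * (kou 6 42432 P7.Vo P7.Vo' l a b -
      54977 / 16 * ((1 - a) * (1 - b) * (2 + a + b))) =
      P7.AJ l (a + b) + a * b * P7.TJ l (a + b) := by
  unfold kou sk skx P7.Vo P7.Vo' P7.AJ P7.TJ gA gT P7.Un P7.Up
  field_simp
  ring

/-- The exact kernel in dimension 7. -/
noncomputable def P7.KR (r a b : ℝ) : ℝ :=
  KG 6 42432 P7.Vi P7.Vi' P7.Wi P7.Wi' P7.Vo P7.Vo' r a b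

theorem P7.KR_le {r : ℝ} (hr : r ≤ 2) (a b : ℝ) : P7.KR r a b =
    42432 + sk 6 (P7.Vi r) (P7.Vi' r) (P7.Wi r) (P7.Wi' r) r a b := KG_le hr a b

theorem P7.KR_ge {r : ℝ} (hr : 2 ≤ r) (a b : ℝ) : P7.KR r a b =
    kou 6 42432 P7.Vo P7.Vo' r a b - 54977 / 16 * ((1 - a) * (1 - b) * (2 + a + b)) := by
  rw [← P7.jump]
  exact KG_ge hr a b

theorem P7.KR_AJ {r : ℝ} (hr : 2 ≤ r) (a b : ℝ) :
    r * r ^ 3 * P7.KR r a b = P7.AJ r (a + b) + a * b * P7.TJ r (a + b) := by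
  rw [P7.KR_ge hr, P7.kou_AJ (by linarith)]

theorem P7.KR_pos_in {l a b : ℝ} (hl : 0 < l) (hl2 : l ≤ 2) (ha : |a| ≤ 1) (hb : |b| ≤ 1) :
    0 < 42432 + sk 6 (P7.Vi l) (P7.Vi' l) (P7.Wi l) (P7.Wi' l) l a b := by
  have h0 := hl.le
  have hD : (0 : ℝ) < l ^ 3 * (2 + l) ^ 4 := by positivity
  have eW : P7.Wi l * (l ^ 3 * (2 + l) ^ 4) = P7.Wn l := by
    unfold P7.Wi P7.Wn
    field_simp
  have eW' : P7.Wi' l * (l ^ 3 * (2 + l) ^ 4) = P7.Wp l := by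
    unfold P7.Wi' P7.Wp
    field_simp
  have eV : P7.Vi l * (l ^ 3 * (2 + l) ^ 4) = P7.Vn l := by
    unfold P7.Vi P7.Vn
    rw [← eW]
    field_simp
  have eV' : P7.Vi' l * (l ^ 3 * (2 + l) ^ 4) = P7.Vp l := by
    unfold P7.Vi' P7.Vp
    rw [← eW, ← eW']
    field_simp
  obtain ⟨d1, d2, d3, -, d5⟩ := dom_ab (abs_nonneg a) ha (abs_nonneg b) hb
  have hA := P7.A_pos hl hl2 d1 d2
  have hB := P7.B_pos hl hl2 d1 d2
  have h2 := lin_pos hA hB d3 d5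
  have hT : l * (l ^ 3 * (2 + l) ^ 4) *
      (42432 + sk 6 (P7.Vi l) (P7.Vi' l) (P7.Wi l) (P7.Wi' l) l |a| |b|) =
      gA 6 42432 l (l ^ 3 * (2 + l) ^ 4) (P7.Vn l) (P7.Vp l) (P7.Wn l) (P7.Wp l) (|a| + |b|) +
      |a| * |b| * gT 6 l (P7.Vn l) (P7.Vp l) (P7.Wn l) (P7.Wp l) (|a| + |b|) := by
    rw [← eV, ← eV', ← eW, ← eW']
    have h := l_sk (m := 6) (v := P7.Vi l) (v' := P7.Vi' l) (w := P7.Wi l) (w' := P7.Wi' l) hl
      (abs_nonneg a) (abs_nonneg b)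
    have e : l * (l ^ 3 * (2 + l) ^ 4) *
        (42432 + sk 6 (P7.Vi l) (P7.Vi' l) (P7.Wi l) (P7.Wi' l) l |a| |b|) =
        42432 * l * (l ^ 3 * (2 + l) ^ 4) + (l ^ 3 * (2 + l) ^ 4) *
          (l * sk 6 (P7.Vi l) (P7.Vi' l) (P7.Wi l) (P7.Wi' l) l |a| |b|) := by ring
    rw [e, h]
    simp only [gA, gT]
    push_cast
    ring
  rw [← hT] at h2
  have h3 := pos_of_mul_pos_right h2 (mul_pos hl hD).le
  have hlD : 0 < l * (l ^ 3 * (2 + l) ^ 4) := mul_pos hl hD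
  have n1 := P7.N1 h0 hl2
  have n2 := P7.N2 h0 hl2
  have nw := P7.W_nonneg h0 hl2
  rw [← eV, ← eW] at n1
  rw [← eV, ← eW, ← eW'] at n2
  rw [← eW] at nw
  have h4 := sk_abs (m := 6) (v := P7.Vi l) (v' := P7.Vi' l) (w := P7.Wi l) (w' := P7.Wi' l)
    (l := l) (nonneg_of_mul_nonneg_left nw hD) (by
      refine nonneg_of_mul_nonneg_right (a := l * (l ^ 3 * (2 + l) ^ 4)) ?_ hlD
      generalize l ^ 3 * (2 + l) ^ 4 = D at *
      have e : l * D * ((6 : ℕ) * P7.Vi l - 2 * (6 : ℕ) * P7.Wi l + (6 : ℕ) * P7.Wi l / l) =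
          6 * (l * (P7.Vi l * D) - 2 * l * (P7.Wi l * D) + P7.Wi l * D) := by
        push_cast
        field_simp
      rw [e]
      exact mul_nonneg (by norm_num) n1) (by
      refine nonneg_of_mul_nonneg_right (a := l * (l ^ 3 * (2 + l) ^ 4)) ?_ hlD
      generalize l ^ 3 * (2 + l) ^ 4 = D at *
      have e : l * D * (P7.Wi' l + ((6 : ℕ) - 1) * P7.Wi l / l + (6 : ℕ) * P7.Vi l -
          2 * (6 : ℕ) * P7.Wi l) = l * (P7.Wi' l * D) + 5 * (P7.Wi l * D) +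
          6 * l * (P7.Vi l * D) - 12 * l * (P7.Wi l * D) := by
        push_cast
        field_simp
        ring
      rw [e]
      exact n2) ha hb
  linarith

theorem P7.KR_pos {r a b : ℝ} (hr : 0 < r) (ha : |a| ≤ 1) (hb : |b| ≤ 1) : 0 < P7.KR r a b := by
  rcases le_total r 2 with h | h
  · rw [P7.KR_le h]
    exact P7.KR_pos_in hr h ha hb
  · have ha' := abs_le.1 ha
    have hb' := abs_le.1 hb
    have h1 := P7.KR_AJ h a b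
    have h2 := P7.BJ_pos h (by linarith : -2 ≤ a + b) (by linarith)
    have h3 := P7.TJ_nonpos h (by linarith : -2 ≤ a + b)
    have h4 : a * b ≤ (a + b) ^ 2 / 4 := by
      have := sq_nonneg (a - b)
      linarith
    have h5 := mul_nonneg (sub_nonneg.2 h4) (neg_nonneg.2 h3)
    have h6 : 0 < r * r ^ 3 * P7.KR r a b := by
      rw [h1]
      linarith
    exact pos_of_mul_pos_right h6 (by positivity)

/-! ### The inequality for pairs facing each other -/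

theorem P7.KR_pi_in {l a b : ℝ} (hl : 0 < l) (hl2 : l ≤ 2) (ha : 0 < a) (ha1 : a ≤ 1)
    (hb : 0 < b) (hb1 : b ≤ 1) :
    a * b * (1133280 * l - (P7.f a + P7.f b) / 2) ≤ P7.KR l a b * l ^ 6 ∧
      (P7.KR l a b * l ^ 6 = a * b * (1133280 * l - (P7.f a + P7.f b) / 2) →
        l = 2 * a ∧ l = 2 * b) := by
  have h0 := hl.le
  have hD : (0 : ℝ) < l ^ 3 * (2 + l) ^ 4 := by positivity
  have eW : P7.Wi l * (l ^ 3 * (2 + l) ^ 4) = P7.Wn l := by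
    unfold P7.Wi P7.Wn
    field_simp
  have eW' : P7.Wi' l * (l ^ 3 * (2 + l) ^ 4) = P7.Wp l := by
    unfold P7.Wi' P7.Wp
    field_simp
  have eV : P7.Vi l * (l ^ 3 * (2 + l) ^ 4) = P7.Vn l := by
    unfold P7.Vi P7.Vn
    rw [← eW]
    field_simp
  have eV' : P7.Vi' l * (l ^ 3 * (2 + l) ^ 4) = P7.Vp l := by
    unfold P7.Vi' P7.Vp
    rw [← eW, ← eW']
    field_simp
  obtain ⟨d1, d2, d3, d4, d5⟩ := dom_ab ha.le ha1 hb.le hb1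
  have hS : 0 < a + b := by positivity
  have hT : l * (l ^ 3 * (2 + l) ^ 4) * P7.KR l a b =
      gA 6 42432 l (l ^ 3 * (2 + l) ^ 4) (P7.Vn l) (P7.Vp l) (P7.Wn l) (P7.Wp l) (a + b) +
      a * b * gT 6 l (P7.Vn l) (P7.Vp l) (P7.Wn l) (P7.Wp l) (a + b) := by
    rw [P7.KR_le hl2, ← eV, ← eV', ← eW, ← eW']
    have h := l_sk (m := 6) (v := P7.Vi l) (v' := P7.Vi' l) (w := P7.Wi l) (w' := P7.Wi' l) hl
      ha.le hb.le
    have e : l * (l ^ 3 * (2 + l) ^ 4) *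
        (42432 + sk 6 (P7.Vi l) (P7.Vi' l) (P7.Wi l) (P7.Wi' l) l a b) =
        42432 * l * (l ^ 3 * (2 + l) ^ 4) + (l ^ 3 * (2 + l) ^ 4) *
          (l * sk 6 (P7.Vi l) (P7.Vi' l) (P7.Wi l) (P7.Wi' l) l a b) := by ring
    rw [e, h]
    simp only [gA, gT]
    push_cast
    ring
  have h := pi_strict (L := l ^ 5) (m := 6) (F := 2 * P7.f ((a + b) / 2))
    (G := P7.G (a + b) (a * b)) (by positivity) (by ring) hD hT rfl
    (P7.A_pos hl hl2 d1 d2) (P7.Q h0 hl2 d1 d2) (P7.G_nonneg _ _ d1 d2 d3 d4 d5)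
    (P7.f_add a b) (mul_pos ha hb) d5
  refine ⟨h.1, fun h1 => ?_⟩
  obtain ⟨h2, h3⟩ := h.2 h1
  have h4 := eq_of_prod h2
  have h5 := P7.Q_eq hl hl2 hS d2 h3
  constructor <;> linarith

theorem P7.KR_pi_out {l a b : ℝ} (hl : 2 ≤ l) (ha : 0 < a) (ha1 : a ≤ 1)
    (hb : 0 < b) (hb1 : b ≤ 1) :
    a * b * (1133280 * l - (P7.f a + P7.f b) / 2) ≤ P7.KR l a b * l ^ 6 ∧
      (P7.KR l a b * l ^ 6 = a * b * (1133280 * l - (P7.f a + P7.f b) / 2) → l ≤ 2) := by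
  have h0 : 0 < l := by linarith
  obtain ⟨d1, d2, d3, d4, d5⟩ := dom_ab ha.le ha1 hb.le hb1
  have hS : 0 < a + b := by positivity
  have hQ := P7.QJ hl hS d2
  have h := pi_strict (L := l ^ 5) (D := l ^ 3) (m := 6) (F := 2 * P7.f ((a + b) / 2))
    (G := P7.G (a + b) (a * b)) (by positivity) (by ring) (by positivity) (P7.KR_AJ hl a b) rfl
    (P7.AJ_pos hl d1 d2) hQ.1 (P7.G_nonneg _ _ d1 d2 d3 d4 d5)
    (P7.f_add a b) (mul_pos ha hb) d5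
  refine ⟨h.1, fun h1 => ?_⟩
  obtain ⟨-, h3⟩ := h.2 h1
  by_contra hcon
  push Not at hcon
  exact absurd h3 (hQ.2 hcon).ne'

/-! ### Continuity -/

theorem P7.contOn_Wi' : ContinuousOn P7.Wi' (Ioi 0) := by
  unfold P7.Wi' P7.M1 P7.M
  refine ContinuousOn.div (by fun_prop) (by fun_prop) ?_
  intro l hl
  have : (0 : ℝ) < l := hl
  positivity

theorem P7.contOn_Vi' : ContinuousOn P7.Vi' (Ioi 0) := by
  have h1 : ContinuousOn (fun l : ℝ => -62960 / l ^ 3) (Ioi 0) := by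
    refine ContinuousOn.div (by fun_prop) (by fun_prop) ?_
    intro l hl
    have : (0 : ℝ) < l := hl
    positivity
  have h2 := P7.contDiffOn_Wi.continuousOn
  have h3 := P7.contOn_Wi'
  unfold P7.Vi'
  exact ((h1.sub continuousOn_const).add (h2.div_const 2)).add
    ((by fun_prop : ContinuousOn (fun l : ℝ => l / 2) (Ioi 0)).mul h3)

/-- The outer kernel in the variable `u = 1 / r`. -/
noncomputable def P7.Go (u a b : ℝ) : ℝ :=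
  42432 + (-18668 * u ^ 2 - 27288 * u ^ 3) * (1 - (a ^ 2 + b ^ 2) / 2) +
    (18668 * u ^ 2 + 13644 * u ^ 3) * (5 + (a ^ 2 + b ^ 2) / 2) -
    3 * (18668 * u + 13644 * u ^ 2) * (a + b)

theorem P7.continuous_Go : Continuous fun z : ℝ × ℝ × ℝ => P7.Go z.1 z.2.1 z.2.2 := by
  unfold P7.Go
  fun_prop

theorem P7.kou_Go (y : ℝ) (hy : 2 ≤ y) (a b : ℝ) :
    kou 6 42432 P7.Vo P7.Vo' y a b = P7.Go (1 / y) a b := by
  have h0 : 0 < y := by linarith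
  unfold kou sk skx P7.Go P7.Vo P7.Vo'
  field_simp
  ring

/-- The strict certificate in dimension 7. -/
noncomputable def certRSeven : CertR 7 where
  toCert := certSeven
  K := P7.KR
  K_cont := KG_cont P7.contDiffOn_Vi P7.contDiffOn_Wi P7.contOn_Vi' P7.contOn_Wi'
    P7.continuous_Go P7.kou_Go
  K_PI r a b hr ha ha1 hb hb1 := by
    rcases le_total r 2 with h | h
    · exact (P7.KR_pi_in hr h ha ha1 hb hb1).1
    · exact (P7.KR_pi_out h ha ha1 hb hb1).1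
  K_eq r a b hr ha ha1 hb hb1 h := by
    rcases le_total r 2 with h2 | h2
    · exact (P7.KR_pi_in hr h2 ha ha1 hb hb1).2 h
    · exact (P7.KR_pi_in hr ((P7.KR_pi_out h2 ha ha1 hb hb1).2 h) ha ha1 hb hb1).2 h
  K_pos r a b hr ha hb := P7.KR_pos hr ha hb
  approxR := by
    refine approxR_glue (m := 6) (C := 0) (by norm_num) (by norm_num : (0 : ℝ) ≤ 1133280)
      P7.mono_f P7.f_zero.ge le_rfl P7.contDiffOn_Vi P7.contDiffOn_Wi P7.contDiffOn_Vo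
      (fun l hl => P7.hasDerivAt_Vi hl) (fun l hl => P7.hasDerivAt_Wi hl)
      (fun l hl => P7.hasDerivAt_Vo hl) P7.contOn_Vi' P7.contOn_Wi' ?_ ?_ P7.Wi_two ?_
      (fun l h1 h2 => P7.inOK_in h1 h2) (fun l h1 => P7.inOK_out h1) P7.continuous_Go P7.kou_Go ?_
    · have h3 : ContinuousAt (fun l : ℝ => 27288 / l ^ 3) 2 :=
        ContinuousAt.div (by fun_prop) (by fun_prop) (by norm_num)
      have h2 : ContinuousAt (fun l : ℝ => -18668 / l ^ 2) 2 :=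
        ContinuousAt.div (by fun_prop) (by fun_prop) (by norm_num)
      unfold P7.Vo'
      exact h2.sub h3
    · rw [P7.Vi_two, P7.Vo_two]
    · rw [P7.Vi_two]
      norm_num
    · intro a b ha hb
      have ha' := abs_le.1 ha
      have hb' := abs_le.1 hb
      have h1 := P7.jump a b
      have h2 : 0 ≤ 54977 / 16 * ((1 - a) * (1 - b) * (2 + a + b)) := by
        have e1 : 0 ≤ 1 - a := by linarith
        have e2 : 0 ≤ 1 - b := by linarith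
        have e3 : 0 ≤ 2 + a + b := by linarith
        positivity
      show kin 6 42432 P7.Vi P7.Vi' P7.Wi P7.Wi' 2 a b ≤ kou 6 42432 P7.Vo P7.Vo' 2 a b
      linarith

end Vale.Agent.P219.TP
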