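import Vale.Agent.P219.TPR.CertR
import Vale.Agent.P219.TP.CertSix

/-! # The strict certificate in dimension 6 -/

open MeasureTheory Set Metric
open scoped ENNReal ContDiff

namespace Vale.Agent.P219.TP

/-- the exact kernel in dimension 6 -/
noncomputable def K6R (r a b : ℝ) : ℝ :=
  1 + (10 * (3 + a ^ 2 + b ^ 2) - 25 * (a + b) * r) / (17 * r ^ 2)

/-- the polynomial of the certificate in dimension 6 -/
noncomputable def P6R (l a b : ℝ) : ℝ :=
  17 * l ^ 5 - 25 * (a + b) * l ^ 4 + 10 * (3 + a ^ 2 + b ^ 2) * l ^ 3 -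
      360 * (a * b) * l + a * b * (a + b) * (240 + 48 * (a ^ 2 - a * b + b ^ 2))

theorem K6R_mul {r : ℝ} (hr : 0 < r) (a b : ℝ) :
    K6R r a b * r ^ 5 - a * b * (360 / 17 * r - (f6 a + f6 b) / 2) = P6R r a b / 17 := by
  unfold K6R P6R f6
  field_simp
  ring

theorem P6R_eq {l a b : ℝ} (hl : 0 < l) (ha : 0 < a) (hb : 0 < b) (h : P6R l a b = 0) :
    l = 2 * a ∧ l = 2 * b := by
  have hS : 0 < a + b := by positivity
  have hp : 0 < a * b := by positivity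
  have hD : 0 ≤ (a + b) ^ 2 - 4 * (a * b) := by nlinarith [sq_nonneg (a - b)]
  have h0 : 0 ≤ 17 * l ^ 2 - 25 * (a + b) * l + 30 + 10 * (a + b) ^ 2 := by
    nlinarith [sq_nonneg (17 * l - 25 / 2 * (a + b)), sq_nonneg (a + b)]
  have e : (a + b) ^ 2 * P6R l a b =
      ((a + b) ^ 2 - 4 * (a * b)) * (l ^ 3 * (17 * l ^ 2 - 25 * (a + b) * l + 30 +
        10 * (a + b) ^ 2)) +
      4 * (a * b) * ((l - (a + b)) ^ 2 * (17 * l ^ 3 + 9 * (a + b) * l ^ 2 +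
        (30 + 6 * (a + b) ^ 2) * l + 60 * (a + b) + 3 * (a + b) ^ 3)) +
      36 * (a + b) * (a * b) * ((a + b) ^ 2 - 4 * (a * b)) * (a + b) ^ 2 := by
    unfold P6R
    ring
  rw [h, mul_zero] at e
  have t1 : 0 ≤ ((a + b) ^ 2 - 4 * (a * b)) * (l ^ 3 * (17 * l ^ 2 - 25 * (a + b) * l + 30 +
        10 * (a + b) ^ 2)) := mul_nonneg hD (mul_nonneg (by positivity) h0)
  have hpos : 0 < 17 * l ^ 3 + 9 * (a + b) * l ^ 2 +
        (30 + 6 * (a + b) ^ 2) * l + 60 * (a + b) + 3 * (a + b) ^ 3 := by positivity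
  have t2 : 0 ≤ 4 * (a * b) * ((l - (a + b)) ^ 2 * (17 * l ^ 3 + 9 * (a + b) * l ^ 2 +
        (30 + 6 * (a + b) ^ 2) * l + 60 * (a + b) + 3 * (a + b) ^ 3)) := by positivity
  have t3 : 0 ≤ 36 * (a + b) * (a * b) * ((a + b) ^ 2 - 4 * (a * b)) * (a + b) ^ 2 := by
    positivity
  have z3 : 36 * (a + b) * (a * b) * ((a + b) ^ 2 - 4 * (a * b)) * (a + b) ^ 2 = 0 := by
    linarith
  have z2 : 4 * (a * b) * ((l - (a + b)) ^ 2 * (17 * l ^ 3 + 9 * (a + b) * l ^ 2 +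
        (30 + 6 * (a + b) ^ 2) * l + 60 * (a + b) + 3 * (a + b) ^ 3)) = 0 := by linarith
  have d0 : (a + b) ^ 2 - 4 * (a * b) = 0 := by
    have h1 : (36 * (a + b) * (a * b) * (a + b) ^ 2) * ((a + b) ^ 2 - 4 * (a * b)) = 0 := by
      rw [← z3]; ring
    rcases mul_eq_zero.1 h1 with h2 | h2
    · exact absurd h2 (by positivity)
    · exact h2
  have hab : a = b := by
    have h1 : (a - b) ^ 2 = 0 := by rw [← d0]; ring
    have h2 : a - b = 0 := by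
      exact pow_eq_zero_iff (two_ne_zero) |>.1 h1
    linarith
  have hlS : l = a + b := by
    have h1 : (4 * (a * b) * (17 * l ^ 3 + 9 * (a + b) * l ^ 2 +
        (30 + 6 * (a + b) ^ 2) * l + 60 * (a + b) + 3 * (a + b) ^ 3)) * (l - (a + b)) ^ 2 = 0 := by
      rw [← z2]; ring
    rcases mul_eq_zero.1 h1 with h2 | h2
    · exact absurd h2 (by positivity)
    · have h3 : l - (a + b) = 0 := pow_eq_zero_iff (two_ne_zero) |>.1 h2
      linarith
  constructor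
  · rw [hlS, ← hab]; ring
  · rw [hlS, hab]; ring

theorem K6R_pos {r a b : ℝ} (hr : 0 < r) (ha : |a| ≤ 1) (hb : |b| ≤ 1) : 0 < K6R r a b := by
  have h1 : a ^ 2 ≤ 1 := by nlinarith [sq_abs a, abs_nonneg a]
  have h2 : b ^ 2 ≤ 1 := by nlinarith [sq_abs b, abs_nonneg b]
  have h3 : 0 < 17 * r ^ 2 + 10 * (3 + a ^ 2 + b ^ 2) - 25 * (a + b) * r := by
    nlinarith [sq_nonneg (17 * r - 25 / 2 * (a + b)), sq_nonneg (a - b)]
  have h4 : K6R r a b = (17 * r ^ 2 + 10 * (3 + a ^ 2 + b ^ 2) - 25 * (a + b) * r) /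
      (17 * r ^ 2) := by
    unfold K6R
    field_simp
    ring
  rw [h4]
  positivity

/-- the regularised kernel is at least the exact one away from `r = 0` -/
theorem K6R_le_ker {η : ℝ} (hη : 0 < η) {r r₀ a b ε : ℝ} (hr₀ : 0 < r₀) (hr : r₀ ≤ r)
    (ha : |a| ≤ 1) (hb : |b| ≤ 1) (hε : 3 * η ^ 2 * (1 / r₀ ^ 4 + 1 / r₀ ^ 3) ≤ ε) :
    K6R r a b ≤ ker 5 (fun p => g6 η p.1) (1 + ε) r a b := by
  have hr0 : 0 < r := hr₀.trans_le hr
  rw [ker6_eq hη]
  have ha2 : a ^ 2 ≤ 1 := by nlinarith [sq_abs a, abs_nonneg a]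
  have hb2 : b ^ 2 ≤ 1 := by nlinarith [sq_abs b, abs_nonneg b]
  have hD : 0 < r ^ 2 + η ^ 2 := by positivity
  have key : 1 + ε + (10 / 17) / (r ^ 2 + η ^ 2) ^ 2 * (5 * (r ^ 2 + η ^ 2) -
        r ^ 2 * (2 - a ^ 2 - b ^ 2) - 5 / 2 * (r * (a + b)) * (r ^ 2 + η ^ 2)) - K6R r a b =
      ε - (10 / 17) * (5 * (η ^ 2 / (r ^ 2 * (r ^ 2 + η ^ 2))) -
        5 / 2 * (a + b) * (η ^ 2 / (r * (r ^ 2 + η ^ 2)))) +
        (10 / 17) * ((2 - a ^ 2 - b ^ 2) * (η ^ 2 * (2 * r ^ 2 + η ^ 2) /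
          (r ^ 2 * (r ^ 2 + η ^ 2) ^ 2))) := by
    unfold K6R
    field_simp
    ring
  have t1 : 0 ≤ (10 / 17) * ((2 - a ^ 2 - b ^ 2) * (η ^ 2 * (2 * r ^ 2 + η ^ 2) /
          (r ^ 2 * (r ^ 2 + η ^ 2) ^ 2))) := by
    have : 0 ≤ 2 - a ^ 2 - b ^ 2 := by linarith
    positivity
  have t2 : η ^ 2 / (r ^ 2 * (r ^ 2 + η ^ 2)) ≤ η ^ 2 * (1 / r₀ ^ 4) := by
    rw [mul_one_div]
    refine div_le_div_of_nonneg_left (by positivity) (by positivity) ?_
    calc r₀ ^ 4 ≤ r ^ 4 := pow_le_pow_left₀ hr₀.le hr 4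
      _ ≤ r ^ 2 * (r ^ 2 + η ^ 2) := by nlinarith [mul_nonneg (sq_nonneg r) (sq_nonneg η)]
  have t3 : η ^ 2 / (r * (r ^ 2 + η ^ 2)) ≤ η ^ 2 * (1 / r₀ ^ 3) := by
    rw [mul_one_div]
    refine div_le_div_of_nonneg_left (by positivity) (by positivity) ?_
    calc r₀ ^ 3 ≤ r ^ 3 := pow_le_pow_left₀ hr₀.le hr 3
      _ ≤ r * (r ^ 2 + η ^ 2) := by nlinarith [mul_nonneg hr0.le (sq_nonneg η)]
  have hab : -(a + b) ≤ 2 := by
    have h1 := neg_abs_le a
    have h2 := neg_abs_le b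
    linarith
  have t4 : 0 ≤ η ^ 2 / (r * (r ^ 2 + η ^ 2)) := by positivity
  have t5 : -(5 / 2) * (a + b) * (η ^ 2 / (r * (r ^ 2 + η ^ 2))) ≤
      5 * (η ^ 2 / (r * (r ^ 2 + η ^ 2))) := by nlinarith
  have t6 : 0 ≤ η ^ 2 * (1 / r₀ ^ 4) := by positivity
  have t7 : 0 ≤ η ^ 2 * (1 / r₀ ^ 3) := by positivity
  have t8 : (10 / 17) * (5 * (η ^ 2 / (r ^ 2 * (r ^ 2 + η ^ 2))) -
        5 / 2 * (a + b) * (η ^ 2 / (r * (r ^ 2 + η ^ 2)))) ≤
      3 * η ^ 2 * (1 / r₀ ^ 4 + 1 / r₀ ^ 3) := by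
    nlinarith
  linarith

/-- The strict certificate in dimension 6. -/
noncomputable def certRSix : CertR 6 where
  toCert := certSix
  K := K6R
  K_cont := by
    unfold K6R
    refine ContinuousOn.add continuousOn_const (ContinuousOn.div (by fun_prop) (by fun_prop) ?_)
    intro z hz
    have h1 : (0 : ℝ) < z.1 := hz
    positivity
  K_PI r a b hr ha _ hb _ := by
    have h1 := K6R_mul hr a b
    have h2 : 0 ≤ P6R r a b := CH.pi6 hr ha.le hb.le
    show a * b * (360 / 17 * r - (f6 a + f6 b) / 2) ≤ K6R r a b * r ^ 5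
    have h3 : 0 ≤ P6R r a b / 17 := by positivity
    linarith
  K_eq r a b hr ha _ hb _ h := by
    have h0 : K6R r a b * r ^ 5 = a * b * (360 / 17 * r - (f6 a + f6 b) / 2) := h
    have h1 := K6R_mul hr a b
    rw [h0, sub_self] at h1
    refine P6R_eq hr ha hb ?_
    linarith
  K_pos _ _ _ hr ha hb := K6R_pos hr ha hb
  approxR ε hε r₀ hr₀ := by
    set C : ℝ := 3 * (1 / r₀ ^ 4 + 1 / r₀ ^ 3) with hC
    have hCpos : 0 < C := by positivity
    set η : ℝ := min (min (17 / 360 * ε) 1) (ε / C) with hηd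
    have hη : 0 < η := lt_min (lt_min (by positivity) one_pos) (by positivity)
    have hη1 : η ≤ 17 / 360 * ε := (min_le_left _ _).trans (min_le_left _ _)
    have hη2 : η ≤ 1 := (min_le_left _ _).trans (min_le_right _ _)
    have hη3 : η ≤ ε / C := min_le_right _ _
    refine ⟨fun p => g6 η p.1, η ^ 2, by positivity, ?_, ?_, ?_, ?_, ?_⟩
    · unfold g6
      refine ContDiffOn.div contDiffOn_const ?_ ?_
      · exact (contDiff_fst.add contDiff_const).contDiffOn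
      · intro p hp
        have : -η ^ 2 < p.1 := hp
        linarith
    · intro p hp
      unfold g6
      positivity
    · intro r a b hr ha hb
      exact ker6_nonneg hη (lam := 1 + ε) (by linarith) hr ha hb
    · intro r a b hr ha ha1 hb hb1
      have h := pi6_ker hη (lam := 1 + ε) (by linarith) hr ha ha1 hb hb1
      refine le_trans ?_ h
      refine mul_le_mul_of_nonneg_left ?_ (mul_nonneg ha hb)
      show 360 / 17 * r - (f6 a + f6 b) / 2 - ε ≤ _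
      linarith
    · intro r a b hr ha hb
      refine K6R_le_ker hη hr₀ hr ha hb ?_
      have h1 : η ^ 2 ≤ η := by nlinarith
      have h2 : η * C ≤ ε := by rwa [le_div_iff₀ hCpos] at hη3
      calc 3 * η ^ 2 * (1 / r₀ ^ 4 + 1 / r₀ ^ 3) = η ^ 2 * C := by rw [hC]; ring
        _ ≤ η * C := mul_le_mul_of_nonneg_right h1 hCpos.le
        _ ≤ ε := h2

end Vale.Agent.P219.TP
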