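import Vale.Agent.P219.TPR.CertREight
import Vale.Agent.P219.TP.CertTen

set_option linter.all false

/-! # The certificate with strictness in dimension 10 -/

open MeasureTheory Set Metric Filter Topology
open scoped ENNReal ContDiff

namespace Vale.Agent.P219.TP

/-- A quartic which is strictly concave between `p₀` and `p₁` (in the sense of divided
differences) and nonnegative at the end points vanishes only at the end points. -/
theorem quartic_interp_pos {g0 g1 g2 g3 g4 p p0 p1 : ℝ} (h0 : p0 < p) (h1 : p < p1)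
    (hc : g2 + g3 * (p + p0 + p1) +
      g4 * (p ^ 2 + p0 ^ 2 + p1 ^ 2 + p * p0 + p * p1 + p0 * p1) < 0)
    (e0 : 0 ≤ g0 + g1 * p0 + g2 * p0 ^ 2 + g3 * p0 ^ 3 + g4 * p0 ^ 4)
    (e1 : 0 ≤ g0 + g1 * p1 + g2 * p1 ^ 2 + g3 * p1 ^ 3 + g4 * p1 ^ 4) :
    0 < g0 + g1 * p + g2 * p ^ 2 + g3 * p ^ 3 + g4 * p ^ 4 := by
  have key : (p1 - p0) * (g0 + g1 * p + g2 * p ^ 2 + g3 * p ^ 3 + g4 * p ^ 4) =
      (p1 - p) * (g0 + g1 * p0 + g2 * p0 ^ 2 + g3 * p0 ^ 3 + g4 * p0 ^ 4) +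
      (p - p0) * (g0 + g1 * p1 + g2 * p1 ^ 2 + g3 * p1 ^ 3 + g4 * p1 ^ 4) +
      (p - p0) * (p1 - p) * (p1 - p0) * (-(g2 + g3 * (p + p0 + p1) +
        g4 * (p ^ 2 + p0 ^ 2 + p1 ^ 2 + p * p0 + p * p1 + p0 * p1))) := by ring
  have a1 : 0 < p1 - p := by linarith
  have a2 : 0 < p - p0 := by linarith
  have a3 : 0 < p1 - p0 := by linarith
  have a4 : 0 < -(g2 + g3 * (p + p0 + p1) +
      g4 * (p ^ 2 + p0 ^ 2 + p1 ^ 2 + p * p0 + p * p1 + p0 * p1)) := by linarith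
  have b1 : 0 ≤ (p1 - p) * (g0 + g1 * p0 + g2 * p0 ^ 2 + g3 * p0 ^ 3 + g4 * p0 ^ 4) :=
    mul_nonneg a1.le e0
  have b2 : 0 ≤ (p - p0) * (g0 + g1 * p1 + g2 * p1 ^ 2 + g3 * p1 ^ 3 + g4 * p1 ^ 4) :=
    mul_nonneg a2.le e1
  have b3 : 0 < (p - p0) * (p1 - p) * (p1 - p0) * (-(g2 + g3 * (p + p0 + p1) +
        g4 * (p ^ 2 + p0 ^ 2 + p1 ^ 2 + p * p0 + p * p1 + p0 * p1))) := by
    positivity
  have h2 : 0 < (p1 - p0) * (g0 + g1 * p + g2 * p ^ 2 + g3 * p ^ 3 + g4 * p ^ 4) := by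
    rw [key]; linarith
  exact pos_of_mul_pos_right h2 a3.le

namespace P10

theorem kS_diag_pos {r c : ℝ} (hr : 0 ≤ r) (hc : 0 ≤ c) (hc1 : c ≤ 1) :
    0 < kS r (2 * c) (c ^ 2) (1 - c ^ 2) := by
  obtain ⟨y, hy⟩ : ∃ y, y = 1 - c ^ 2 := ⟨_, rfl⟩
  obtain ⟨z1, hz1⟩ : ∃ z, z = 1 - c := ⟨_, rfl⟩
  obtain ⟨z2, hz2⟩ : ∃ z, z = 1 - c ^ 2 := ⟨_, rfl⟩
  obtain ⟨z3, hz3⟩ : ∃ z, z = 1 - c ^ 3 := ⟨_, rfl⟩
  obtain ⟨z4, hz4⟩ : ∃ z, z = 1 - c ^ 4 := ⟨_, rfl⟩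
  have hy0 : 0 ≤ y := by rw [hy]; exact sub_nonneg.2 (pow_le_one₀ hc hc1)
  have h1 : 0 ≤ z1 := by rw [hz1]; exact sub_nonneg.2 hc1
  have h2 : 0 ≤ z2 := by rw [hz2]; exact sub_nonneg.2 (pow_le_one₀ hc hc1)
  have h3 : 0 ≤ z3 := by rw [hz3]; exact sub_nonneg.2 (pow_le_one₀ hc hc1)
  have h4 : 0 ≤ z4 := by rw [hz4]; exact sub_nonneg.2 (pow_le_one₀ hc hc1)
  have key : 400 * kS r (2 * c) (c ^ 2) (1 - c ^ 2) =
      (-535 * r * c ^ 2 - 612 * r ^ 2 * c + 388 * r ^ 3 + 698 * c - 116 * r) ^ 2 +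
      4 * ((-870 * r * c ^ 2 + 389 * r ^ 2 * c + 507 * c - 154 * r) ^ 2) +
      (475 * r * c ^ 2 + 109 * c - 472 * r) ^ 2 +
      36 * ((-67 * c + 36 * r) ^ 2) +
      2025 * ((c) ^ 2) +
      y * (-1574 * r * c + 677 * r ^ 2 + 478) ^ 2 +
      9 * (y * (124 * r * c - 189) ^ 2) +
      12996 * (y * (1) ^ 2) +
      r * c * y * (-509 * c + 281 * r) ^ 2 +
      9801 * (r * c * y * (c) ^ 2) +
      739 * (r ^ 4 * z2) +
      288 * (r ^ 5 * z1) +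
      18 * (r ^ 2 * c ^ 2) +
      1051 * (r ^ 3 * c) +
      59 * (c ^ 2) +
      1712 * (r * c) +
      1044 * (r * z3) +
      82 * (r * c ^ 5) +
      48 * (r ^ 2 * z4) +
      365 * (r ^ 3 * c ^ 3) +
      522 * ((r - 1) ^ 2) +
      144 * (r ^ 4 * (r - 1) ^ 2) +
      509 +
      458 * (r ^ 2) +
      404 * (r ^ 4) +
      1712 * (r ^ 6) := by
    subst hy hz1 hz2 hz3 hz4
    unfold kS; ring
  have h : 0 < 400 * kS r (2 * c) (c ^ 2) (1 - c ^ 2) := by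
    rw [key]; positivity
  linarith

theorem kS_zero_pos {r a : ℝ} (hr : 0 ≤ r) (ha : 0 ≤ a) (ha1 : a ≤ 1) :
    0 < kS r a 0 (1 - a ^ 2 / 2) := by
  obtain ⟨y, hy⟩ : ∃ y, y = 1 - a := ⟨_, rfl⟩
  have hy0 : 0 ≤ y := by rw [hy]; exact sub_nonneg.2 ha1
  have key : 96 * kS r a 0 (1 - a ^ 2 / 2) =
      164956 * (r * y) +
      141660 * ((r - a) ^ 2 * a) +
      68145 * (a * y) +
      58347 * (a ^ 2 * y) +
      57195 * (y) +
      42255 * ((2 * r - 1) ^ 2 * y) +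
      35910 * (1) +
      31305 * ((2 * r - 1) ^ 2 * a * y) +
      20448 * ((r - a) ^ 2 * r ^ 4) +
      16956 * ((2 * r - 3 * a) ^ 2 * r ^ 2) +
      10350 * ((2 * r - 3 * a) ^ 2) +
      9257 * ((2 * r - 3 * a) ^ 2 * y) +
      9072 * ((r - 1) ^ 2 * r ^ 2) +
      5976 * ((2 * r - 1) ^ 2 * r ^ 2 * y) +
      5440 * ((2 * r - 3 * a) ^ 2 * r * y) +
      4064 * ((2 * r - 1) ^ 2 * r * y) +
      4032 * ((2 * r - 1) ^ 2 * r ^ 3 * y) +
      4032 * ((2 * r - 1) ^ 2 * r ^ 4) +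
      1944 * ((2 * r - 1) ^ 2 * r ^ 2 * a * y) +
      1944 * ((2 * r - 1) ^ 2 * r * a * y) := by
    subst hy
    unfold kS; ring
  have h : 0 < 96 * kS r a 0 (1 - a ^ 2 / 2) := by
    rw [key]; positivity
  linarith

theorem kS_lt {r S p w w' : ℝ} (hr : 0 < r) (hS : 0 < S) (hp : 0 ≤ p) (h : w < w') :
    kS r S p w' < kS r S p w := by
  have e : kS r S p w - kS r S p w' = 1 / 2 * (648 * S + 1008 * p * S) * r * (w' - w) := by
    unfold kS; ring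
  have : 0 < 1 / 2 * (648 * S + 1008 * p * S) * r * (w' - w) :=
    mul_pos (by positivity) (by linarith)
  linarith

theorem kS_le {r S p w w' : ℝ} (hr : 0 ≤ r) (hS : 0 ≤ S) (hp : 0 ≤ p) (h : w ≤ w') :
    kS r S p w' ≤ kS r S p w := by
  have e : kS r S p w - kS r S p w' = 1 / 2 * (648 * S + 1008 * p * S) * r * (w' - w) := by
    unfold kS; ring
  have : 0 ≤ 1 / 2 * (648 * S + 1008 * p * S) * r * (w' - w) :=
    mul_nonneg (by positivity) (by linarith)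
  linarith

theorem pS_lt {r S p w w' : ℝ} (hr : 0 < r) (hS : 0 < S) (hp : 0 ≤ p) (h : w < w') :
    pS r S p w' < pS r S p w := by
  have h1 := kS_lt hr hS hp h
  unfold pS
  have : r ^ 3 * kS r S p w' < r ^ 3 * kS r S p w := mul_lt_mul_of_pos_left h1 (by positivity)
  linarith

theorem pS_le {r S p w w' : ℝ} (hr : 0 ≤ r) (hS : 0 ≤ S) (hp : 0 ≤ p) (h : w ≤ w') :
    pS r S p w' ≤ pS r S p w := by
  have h1 := kS_le hr hS hp h
  unfold pS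
  have : r ^ 3 * kS r S p w' ≤ r ^ 3 * kS r S p w := mul_le_mul_of_nonneg_left h1 (by positivity)
  linarith

theorem formk (r S p c : ℝ) : kS r S p (1 - S ^ 2 / 4 + c * (p - S ^ 2 / 4)) =
      kS r S 0 (1 - S ^ 2 / 4 - c * (S ^ 2 / 4)) + (-264 * r ^ 4 - 2052 * r ^ 2 - 2820 -
        1 / 2 * r * (3240 * S - 4032 * S) - 504 * S * r * (1 - S ^ 2 / 4 - c * (S ^ 2 / 4)) -
        324 * S * c * r + 9 / 2 * (1296 + 336 * S ^ 2) * r ^ 2) * p +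
      (-840 * S * r - 504 * S * r * c - 3024 * r ^ 2) * p ^ 2 + 0 * p ^ 3 := by
  unfold kS; ring

theorem formp (r S p c : ℝ) : pS r S p (1 - S ^ 2 / 4 + c * (p - S ^ 2 / 4)) =
      r ^ 3 * kS r S 0 (1 - S ^ 2 / 4 - c * (S ^ 2 / 4)) +
      (r ^ 3 * (-264 * r ^ 4 - 2052 * r ^ 2 - 2820 -
        1 / 2 * r * (3240 * S - 4032 * S) - 504 * S * r * (1 - S ^ 2 / 4 - c * (S ^ 2 / 4)) -
        324 * S * c * r + 9 / 2 * (1296 + 336 * S ^ 2) * r ^ 2) - 16920 * r + 11280 * S +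
        7440 * S ^ 3 + 2016 * S ^ 5 - 5376 * S ^ 7) * p +
      (r ^ 3 * (-840 * S * r - 504 * S * r * c - 3024 * r ^ 2) - 22320 * S - 10080 * S ^ 3 +
        37632 * S ^ 5) * p ^ 2 + (10080 * S - 75264 * S ^ 3) * p ^ 3 + (37632 * S) * p ^ 4 := by
  unfold pS kS; ring

theorem concP' {r S p c : ℝ} (hr : 0 < r) (hS0 : 0 ≤ S) (hS2 : S ≤ 2)
    (h1 : p ≤ (S / 2) ^ 2) (p0 : ℝ) (hp0 : 0 ≤ p0) (hp : p0 ≤ p) (hcase : S ≤ 1 ∨ p0 = S - 1)
    (hc : 0 ≤ c) :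
    (r ^ 3 * (-840 * S * r - 504 * S * r * c - 3024 * r ^ 2) - 22320 * S - 10080 * S ^ 3 +
        37632 * S ^ 5) + (10080 * S - 75264 * S ^ 3) * (p + p0 + (S / 2) ^ 2) +
        (37632 * S) * (p ^ 2 + p0 ^ 2 + ((S / 2) ^ 2) ^ 2 + p * p0 + p * (S / 2) ^ 2 +
          p0 * (S / 2) ^ 2) < 0 := by
  have q1 : 0 < r ^ 3 * (840 * S * r + 504 * S * r * c + 3024 * r ^ 2) := by positivity
  have q2 : -22320 - 10080 * S ^ 2 + 37632 * S ^ 4 +
      (10080 - 75264 * S ^ 2) * (p + p0 + (S / 2) ^ 2) +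
      37632 * (p ^ 2 + p0 ^ 2 + ((S / 2) ^ 2) ^ 2 + p * p0 + p * (S / 2) ^ 2 +
        p0 * (S / 2) ^ 2) ≤ 0 := by
    have hp1 : p ≤ S ^ 2 / 4 := by linarith [h1, show (S / 2) ^ 2 = S ^ 2 / 4 by ring]
    rcases hcase with hcase | hcase
    · have hS2' : S ^ 2 ≤ 1 := pow_le_one₀ hS0 hcase
      exact concAux1 hp0 hp hp1 hS2'
    · exact concAux2 hcase hS0 (by linarith) hS2 hp hp1
  have q3 := mul_nonpos_of_nonneg_of_nonpos hS0 q2
  nlinarith [q1, q3]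

theorem kS_pos' {r a b : ℝ} (hr : 0 < r) (ha : 0 ≤ a) (ha1 : a ≤ 1) (hb : 0 ≤ b)
    (hb1 : b ≤ 1) :
    0 < kS r (a + b) (a * b) √((1 - a ^ 2) * (1 - b ^ 2)) ∧
      (0 < a → 0 < b → a ≠ b → 0 < pS r (a + b) (a * b) √((1 - a ^ 2) * (1 - b ^ 2))) := by
  by_cases hab : a = b
  · subst hab
    refine ⟨?_, fun _ _ h => absurd rfl h⟩
    have h := kS_diag_pos (r := r) (c := a) hr.le ha ha1
    have h2 : 0 ≤ 1 - a ^ 2 := sub_nonneg.2 (pow_le_one₀ ha ha1)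
    rw [Real.sqrt_mul_self h2]
    rw [show a + a = 2 * a by ring, show a * a = a ^ 2 by ring]
    exact h
  obtain ⟨h1, h0, h2⟩ := P8.interp_pts ha ha1 hb hb1
  have hw : (1 - a ^ 2) * (1 - b ^ 2) = (1 + a * b) ^ 2 - (a + b) ^ 2 := by ring
  have hlt : a * b < ((a + b) / 2) ^ 2 := by
    have : 0 < (a - b) ^ 2 := by
      have : a - b ≠ 0 := sub_ne_zero.2 hab
      positivity
    nlinarith
  have hS0 : 0 < a + b := by
    rcases eq_or_lt_of_le ha with h | h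
    · rcases eq_or_lt_of_le hb with h' | h'
      · exact absurd (h.symm.trans h') hab
      · linarith
    · linarith
  have hS2 : a + b < 2 := by
    rcases eq_or_lt_of_le ha1 with h | h
    · rcases eq_or_lt_of_le hb1 with h' | h'
      · exact absurd (h.trans h'.symm) hab
      · linarith
    · linarith
  have hpp : 0 < a → 0 < b → 0 < a * b := fun h h' => mul_pos h h'
  suffices H : 0 < kS r (a + b) (a * b) √((1 - a ^ 2) * (1 - b ^ 2)) ∧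
      (0 < a * b → 0 < pS r (a + b) (a * b) √((1 - a ^ 2) * (1 - b ^ 2))) from
    ⟨H.1, fun h h' _ => H.2 (hpp h h')⟩
  clear hpp
  rw [hw]
  generalize a + b = S at *
  generalize a * b = p at *
  have dk : 0 < kS r S ((S / 2) ^ 2) (1 - S ^ 2 / 4) := by
    have := kS_diag_pos (r := r) (c := S / 2) hr.le (by positivity) (by linarith)
    rwa [show 2 * (S / 2) = S by ring, show 1 - (S / 2) ^ 2 = 1 - S ^ 2 / 4 by ring] at this
  have dp : 0 ≤ pS r S ((S / 2) ^ 2) (1 - S ^ 2 / 4) := by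
    have := pS_diag (r := r) (c := S / 2) hr.le (by positivity) (by linarith)
    rwa [show 2 * (S / 2) = S by ring, show 1 - (S / 2) ^ 2 = 1 - S ^ 2 / 4 by ring] at this
  have hdiag : ∀ c : ℝ, 1 - S ^ 2 / 4 = 1 - S ^ 2 / 4 + c * ((S / 2) ^ 2 - S ^ 2 / 4) := by
    intro c; ring
  have hp4 : 4 * p ≤ S ^ 2 := by
    have : (S / 2) ^ 2 = S ^ 2 / 4 := by ring
    linarith
  rcases le_or_gt S 1 with hS1 | hS1
  · have hS2' : S ^ 2 ≤ 1 := pow_le_one₀ hS0.le hS1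
    have hwb := w_le_amgm (S := S) (p := p) (by linarith) hp4
    have z1 : 0 < kS r S 0 (1 - S ^ 2 / 4 + 1 * (0 - S ^ 2 / 4)) := by
      have := kS_zero_pos hr.le hS0.le hS1
      rwa [show 1 - S ^ 2 / 4 + 1 * (0 - S ^ 2 / 4) = 1 - S ^ 2 / 2 by ring]
    have z2 : 0 ≤ pS r S 0 (1 - S ^ 2 / 4 + 1 * (0 - S ^ 2 / 4)) := by
      have := pS_zero hr.le hS0.le hS1
      rwa [show 1 - S ^ 2 / 4 + 1 * (0 - S ^ 2 / 4) = 1 - S ^ 2 / 2 by ring]
    constructor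
    · refine lt_of_lt_of_le ?_ (kS_le hr.le hS0.le h0 hwb)
      rw [hdiag 1, formk] at dk
      rw [formk] at z1 ⊢
      refine cubic_interp' h0 h1 ?_ z1 dk
      have : 0 ≤ 840 * S * r + 504 * S * r * 1 + 3024 * r ^ 2 := by positivity
      linarith
    · intro hp
      refine lt_of_lt_of_le ?_ (pS_le hr.le hS0.le h0 hwb)
      rw [hdiag 1, formp] at dp
      rw [formp] at z2 ⊢
      exact quartic_interp_pos hp hlt (concP' hr hS0.le hS2.le h1 0 le_rfl h0 (Or.inl hS1)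
        (by norm_num)) z2 dp
  · have hwb := w_le_tangent hS0.le hS2 h2
    set c := (4 + S ^ 2) / (4 - S ^ 2) with hc
    have hD : 0 < 4 - S ^ 2 := by nlinarith
    have hc0 : 0 ≤ c := by rw [hc]; positivity
    have ew : (1 - (S - 1) ^ 2) / (3 + (S - 1)) =
        1 - S ^ 2 / 4 + c * ((S - 1) - S ^ 2 / 4) := by
      rw [hc]
      have h3 : 3 + (S - 1) ≠ 0 := by linarith
      have h4 : 4 - S ^ 2 ≠ 0 := hD.ne'
      rw [div_eq_iff h3]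
      field_simp
      ring
    have z1' : 0 ≤ kS r S (S - 1) ((1 - (S - 1) ^ 2) / (3 + (S - 1))) := by
      have := kS_one (b := S - 1) hr.le (by linarith) (by linarith)
      rwa [show 1 + (S - 1) = S by ring] at this
    have z2' : 0 ≤ pS r S (S - 1) ((1 - (S - 1) ^ 2) / (3 + (S - 1))) := by
      have := pS_one (b := S - 1) hr.le (by linarith) (by linarith)
      rwa [show 1 + (S - 1) = S by ring] at this
    rcases eq_or_lt_of_le h2 with hp1 | hp1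
    · -- one of the two numbers is `1`: the angular factor vanishes
      have hw0 : √((1 + p) ^ 2 - S ^ 2) = 0 := by
        rw [show (1 + p) ^ 2 - S ^ 2 = 0 by rw [← hp1]; ring, Real.sqrt_zero]
      have hwp : 0 < (1 - (S - 1) ^ 2) / (3 + (S - 1)) := by
        apply div_pos _ (by linarith)
        nlinarith
      rw [hw0, ← hp1]
      refine ⟨lt_of_le_of_lt z1' (kS_lt hr hS0 (by linarith) hwp),
        fun _ => lt_of_le_of_lt z2' (pS_lt hr hS0 (by linarith) hwp)⟩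
    · have z1 := z1'
      have z2 := z2'
      rw [ew] at z1 z2
      constructor
      · refine lt_of_lt_of_le ?_ (kS_le hr.le hS0.le h0 hwb)
        have dk' := dk.le
        rw [hdiag c, formk] at dk'
        rw [formk] at z1 ⊢
        refine cubic_interp_pos hp1 hlt ?_ z1 dk'
        have : 0 < 840 * S * r + 504 * S * r * c + 3024 * r ^ 2 := by positivity
        linarith
      · intro hp
        refine lt_of_lt_of_le ?_ (pS_le hr.le hS0.le h0 hwb)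
        rw [hdiag c, formp] at dp
        rw [formp] at z2 ⊢
        exact quartic_interp_pos hp1 hlt (concP' hr hS0.le hS2.le h1 (S - 1) (by linarith) h2
          (Or.inr rfl) hc0) z2 dp

/-! ### Strict positivity of the kernel -/

theorem k10_pos_pos' {r a b : ℝ} (hr : 0 < r) (ha : 0 ≤ a) (ha1 : a ≤ 1) (hb : 0 ≤ b)
    (hb1 : b ≤ 1) : 0 < k10 r a b √((1 - a ^ 2) * (1 - b ^ 2)) := by
  rw [k10_eq ha hb]
  exact (kS_pos' hr ha ha1 hb hb1).1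

theorem k10_lt {r a b w w' : ℝ} (hr : 0 < r) (ha : a ≠ 0) (h : w < w') :
    k10 r a b w' < k10 r a b w := by
  have e : k10 r a b w - k10 r a b w' =
      1 / 2 * ((648 + 1008 * a ^ 2) * |b| + (648 + 1008 * b ^ 2) * |a|) * r * (w' - w) := by
    unfold k10; ring
  have ha' : 0 < |a| := abs_pos.2 ha
  have : 0 < 1 / 2 * ((648 + 1008 * a ^ 2) * |b| + (648 + 1008 * b ^ 2) * |a|) * r * (w' - w) :=
    mul_pos (by positivity) (by linarith)
  linarith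

theorem k10_anti {r a : ℝ} (hr : 0 < r) (ha : 0 < a) (ha1 : a ≤ 1) :
    0 < k10 r a (-a) (1 - a ^ 2) := by
  have e : k10 r a (-a) (1 - a ^ 2) = 381 * r ^ 6 + 132 * (7 + 2 * a ^ 2) * r ^ 4 +
      (2565 - 3780 * a ^ 2 - 3024 * a ^ 4) * r ^ 2 + (1410 + 2820 * a ^ 2) -
      (648 + 1008 * a ^ 2) * a * (1 - a ^ 2) * r := by
    unfold k10
    rw [abs_neg, abs_of_nonneg ha.le]
    ring
  rw [e]
  obtain ⟨t, ht⟩ : ∃ t, t = a ^ 2 := ⟨_, rfl⟩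
  obtain ⟨x, hx⟩ : ∃ x, x = r ^ 2 := ⟨_, rfl⟩
  have ht0 : 0 ≤ t := by rw [ht]; positivity
  have ht1 : t ≤ 1 := by rw [ht]; exact pow_le_one₀ ha.le ha1
  have hx0 : 0 ≤ x := by rw [hx]; positivity
  have hat : a ≤ (1 + t) / 2 := by nlinarith [sq_nonneg (a - 1)]
  have hrx : r ≤ (1 + x) / 2 := by nlinarith [sq_nonneg (r - 1)]
  have hL : (648 + 1008 * a ^ 2) * a * (1 - a ^ 2) * r ≤
      (162 + 252 * t) * (1 - t ^ 2) * (1 + x) := by
    rw [← ht]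
    have k1 : (648 + 1008 * t) * a * (1 - t) * r ≤
        (648 + 1008 * t) * ((1 + t) / 2) * (1 - t) * ((1 + x) / 2) := by
      have : 0 ≤ 1 - t := by linarith
      gcongr
    refine k1.trans (le_of_eq ?_)
    ring
  have e2 : 381 * r ^ 6 + 132 * (7 + 2 * a ^ 2) * r ^ 4 +
      (2565 - 3780 * a ^ 2 - 3024 * a ^ 4) * r ^ 2 + (1410 + 2820 * a ^ 2) =
      381 * x ^ 3 + 132 * (7 + 2 * t) * x ^ 2 + (2565 - 3780 * t - 3024 * t ^ 2) * x +
        (1410 + 2820 * t) := by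
    rw [ht, hx]; ring
  rw [e2]
  have h1 : 0 < 381 * x ^ 3 + 1188 * x ^ 2 - 4239 * x + 4230 := by
    nlinarith [mul_nonneg hx0 (sq_nonneg (x - 1)), sq_nonneg (x - 6 / 5)]
  have h2 : 0 ≤ 381 * x ^ 3 + 924 * x ^ 2 + 2403 * x := by positivity
  have key : 381 * x ^ 3 + 132 * (7 + 2 * t) * x ^ 2 + (2565 - 3780 * t - 3024 * t ^ 2) * x +
        (1410 + 2820 * t) - (162 + 252 * t) * (1 - t ^ 2) * (1 + x) =
      (1 - t) * (381 * x ^ 3 + 924 * x ^ 2 + 2403 * x) + (1 - t) * (1248 - t * (414 + 252 * t)) +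
      t * (381 * x ^ 3 + 1188 * x ^ 2 - 4239 * x + 4230) +
      t * (1 - t) * ((2610 - 252 * t) * x) := by ring
  have h3 : 0 ≤ (1 - t) * (381 * x ^ 3 + 924 * x ^ 2 + 2403 * x) :=
    mul_nonneg (by linarith) h2
  have h4 : 0 ≤ t * (1 - t) * ((2610 - 252 * t) * x) := by
    have : 0 ≤ 1 - t := by linarith
    have : 0 ≤ 2610 - 252 * t := by linarith
    positivity
  have h5 : 0 < (1 - t) * (1248 - t * (414 + 252 * t)) +
      t * (381 * x ^ 3 + 1188 * x ^ 2 - 4239 * x + 4230) := by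
    have h6 : 0 < 1248 - t * (414 + 252 * t) := by nlinarith
    rcases eq_or_lt_of_le ht1 with h | h
    · rw [h]; linarith
    · have h7 : 0 < (1 - t) * (1248 - t * (414 + 252 * t)) := mul_pos (by linarith) h6
      have h8 : 0 ≤ t * (381 * x ^ 3 + 1188 * x ^ 2 - 4239 * x + 4230) := mul_nonneg ht0 h1.le
      linarith
  linarith

theorem k10_pos_neg' {r a b : ℝ} (hr : 0 < r) (ha : 0 ≤ a) (ha1 : a ≤ 1) (hb : 0 ≤ b)
    (hb1 : b ≤ 1) : 0 < k10 r a (-b) √((1 - a ^ 2) * (1 - (-b) ^ 2)) := by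
  rcases eq_or_lt_of_le hb with h | h
  · rw [← h, neg_zero]
    exact k10_pos_pos' hr ha ha1 le_rfl zero_le_one
  rw [neg_sq]
  have hx : 0 ≤ 1 - a ^ 2 := sub_nonneg.2 (pow_le_one₀ ha ha1)
  have hy : 0 ≤ 1 - b ^ 2 := sub_nonneg.2 (pow_le_one₀ hb hb1)
  rcases eq_or_ne a b with hab | hab
  · subst hab
    rw [Real.sqrt_mul_self hx]
    exact k10_anti hr h ha1
  · have hlt : √((1 - a ^ 2) * (1 - b ^ 2)) < 1 - (a ^ 2 + b ^ 2) / 2 := by
      have h1 : 0 < 1 - (a ^ 2 + b ^ 2) / 2 := by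
        rcases lt_or_gt_of_ne hab with h' | h'
        · nlinarith
        · nlinarith
      rw [Real.sqrt_lt' h1]
      have h2 : a ^ 2 - b ^ 2 ≠ 0 := by
        intro h3
        have h4 : (a - b) * (a + b) = 0 := by linarith
        rcases mul_eq_zero.1 h4 with h5 | h5
        · exact hab (by linarith)
        · linarith
      have h3 : 0 < (a ^ 2 - b ^ 2) ^ 2 := by positivity
      nlinarith
    have h4 : k10 r a (-b) (1 - (a ^ 2 + b ^ 2) / 2) <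
        k10 r a (-b) √((1 - a ^ 2) * (1 - b ^ 2)) := by
      have e : k10 r a (-b) √((1 - a ^ 2) * (1 - b ^ 2)) -
          k10 r a (-b) (1 - (a ^ 2 + b ^ 2) / 2) =
          1 / 2 * ((648 + 1008 * a ^ 2) * b + (648 + 1008 * b ^ 2) * a) * r *
            ((1 - (a ^ 2 + b ^ 2) / 2) - √((1 - a ^ 2) * (1 - b ^ 2))) := by
        unfold k10
        rw [abs_neg, abs_of_nonneg ha, abs_of_nonneg hb]
        ring
      have : 0 < 1 / 2 * ((648 + 1008 * a ^ 2) * b + (648 + 1008 * b ^ 2) * a) * r *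
            ((1 - (a ^ 2 + b ^ 2) / 2) - √((1 - a ^ 2) * (1 - b ^ 2))) :=
        mul_pos (by positivity) (by linarith)
      linarith
    exact lt_of_le_of_lt (K4_poly hr.le ha ha1 hb hb1) h4

theorem k10_neg_neg' {r a b : ℝ} (hr : 0 ≤ r) (ha : 0 ≤ a) (ha1 : a ≤ 1) (hb : 0 ≤ b)
    (hb1 : b ≤ 1) : 0 < k10 r (-a) (-b) √((1 - (-a) ^ 2) * (1 - (-b) ^ 2)) := by
  have ha2 : a ^ 2 ≤ 1 := pow_le_one₀ ha ha1
  have hb2 : b ^ 2 ≤ 1 := pow_le_one₀ hb hb1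
  have hw : √((1 - (-a) ^ 2) * (1 - (-b) ^ 2)) ≤ 1 := by
    rw [Real.sqrt_le_iff, neg_sq, neg_sq]
    refine ⟨by norm_num, ?_⟩
    rw [one_pow]
    exact mul_le_one₀ (by nlinarith) (by linarith) (by nlinarith)
  refine lt_of_lt_of_le ?_ (k10_mono hr hw)
  have e : k10 r (-a) (-b) 1 = 381 * r ^ 6 + 132 * ((7 + (a ^ 2 + b ^ 2)) * r ^ 4 +
      9 / 2 * (a + b) * r ^ 5) + 513 * ((5 + 2 * (a ^ 2 + b ^ 2)) * r ^ 2 +
      9 / 2 * (a + b) * r ^ 3) + 470 * ((3 + 3 * (a ^ 2 + b ^ 2)) + 9 / 2 * (a + b) * r) +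
      1 / 2 * r * (648 * (5 * a * b ^ 2 + 5 * b * a ^ 2) +
      336 * (a ^ 3 * (4 + 5 * b ^ 2) + b ^ 3 * (4 + 5 * a ^ 2))) +
      1 / 2 * r * (a * (2592 - (648 + 1008 * b ^ 2)) + b * (2592 - (648 + 1008 * a ^ 2))) +
      9 / 2 * (1296 * (a * b) + 336 * (a * b ^ 3 + a ^ 3 * b)) * r ^ 2 := by
    unfold k10
    rw [abs_neg, abs_neg, abs_of_nonneg ha, abs_of_nonneg hb]
    ring
  rw [e]
  have h1 : 0 ≤ 2592 - (648 + 1008 * b ^ 2) := by linarith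
  have h2 : 0 ≤ 2592 - (648 + 1008 * a ^ 2) := by linarith
  positivity

theorem k10_pos {r a b : ℝ} (hr : 0 < r) (ha : |a| ≤ 1) (hb : |b| ≤ 1) :
    0 < k10 r a b √((1 - a ^ 2) * (1 - b ^ 2)) := by
  have hsymm : ∀ a b : ℝ, k10 r a b √((1 - a ^ 2) * (1 - b ^ 2)) =
      k10 r b a √((1 - b ^ 2) * (1 - a ^ 2)) := by
    intro a b
    rw [mul_comm (1 - b ^ 2) (1 - a ^ 2)]
    unfold k10; ring
  rcases le_total 0 a with h1 | h1 <;> rcases le_total 0 b with h2 | h2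
  · rw [abs_of_nonneg h1] at ha
    rw [abs_of_nonneg h2] at hb
    exact k10_pos_pos' hr h1 ha h2 hb
  · rw [abs_of_nonneg h1] at ha
    rw [abs_of_nonpos h2] at hb
    have := k10_pos_neg' hr h1 ha (neg_nonneg.2 h2) hb
    rwa [neg_neg] at this
  · rw [abs_of_nonpos h1] at ha
    rw [abs_of_nonneg h2] at hb
    have := k10_pos_neg' hr h2 hb (neg_nonneg.2 h1) ha
    rwa [neg_neg, ← hsymm] at this
  · rw [abs_of_nonpos h1] at ha
    rw [abs_of_nonpos h2] at hb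
    have := k10_neg_neg' hr.le (neg_nonneg.2 h1) ha (neg_nonneg.2 h2) hb
    rwa [neg_neg, neg_neg] at this

/-! ### Equality case -/

theorem pS_diag_eq {r c : ℝ} (hr : 0 < r) (hc : 0 ≤ c) (hc1 : c ≤ 1)
    (h : pS r (2 * c) (c ^ 2) (1 - c ^ 2) = 0) : r = 2 * c := by
  obtain ⟨y, hy⟩ : ∃ y, y = 1 - c := ⟨_, rfl⟩
  have hy0 : 0 ≤ y := by rw [hy]; exact sub_nonneg.2 hc1
  have e : pS r (2 * c) (c ^ 2) (1 - c ^ 2) = (r - 2 * c) ^ 2 * (-2688 * c ^ 7 - 2688 * r * c ^ 6 - 2016 * r ^ 2 * c ^ 5 - 1344 * r ^ 3 * c ^ 4 - 1008 * r ^ 4 * c ^ 3 + 84 * r ^ 5 * c ^ 2 + 336 * r ^ 6 * c + 381 * r ^ 7 + 1008 * c ^ 5 + 1008 * r * c ^ 4 + 756 * r ^ 2 * c ^ 3 + 504 * r ^ 3 * c ^ 2 - 921 * r ^ 4 * c + 924 * r ^ 5 + 3720 * c ^ 3 + 3720 * r * c ^ 2 + 2790 * r ^ 2 * c + 2565 * r ^ 3 + 5640 * c + 1410 * r) := by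
    unfold pS kS; ring
  have key : 64 * (-2688 * c ^ 7 - 2688 * r * c ^ 6 - 2016 * r ^ 2 * c ^ 5 - 1344 * r ^ 3 * c ^ 4 - 1008 * r ^ 4 * c ^ 3 + 84 * r ^ 5 * c ^ 2 + 336 * r ^ 6 * c + 381 * r ^ 7 + 1008 * c ^ 5 + 1008 * r * c ^ 4 + 756 * r ^ 2 * c ^ 3 + 504 * r ^ 3 * c ^ 2 - 921 * r ^ 4 * c + 924 * r ^ 5 + 3720 * c ^ 3 + 3720 * r * c ^ 2 + 2790 * r ^ 2 * c + 2565 * r ^ 3 + 5640 * c + 1410 * r) =
      360960 * (c) +
      172032 * (r * c ^ 4 * y) +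
      172032 * (c ^ 6 * y) +
      172032 * (c ^ 5 * y) +
      172032 * (r * c ^ 5 * y) +
      164160 * (r ^ 3) +
      129024 * (r ^ 2 * c ^ 3 * y) +
      129024 * (r ^ 2 * c ^ 4 * y) +
      107520 * (c ^ 4 * y) +
      107520 * (c ^ 3 * y) +
      107520 * (r * c ^ 3 * y) +
      91776 * (r ^ 3 * c ^ 2 * y) +
      90240 * (r) +
      90240 * (r ^ 2 * c ^ 2 * y) +
      86016 * (r ^ 3 * c ^ 3 * y) +
      73584 * (r ^ 4 * c * y) +
      65424 * (r ^ 4 * c ^ 2 * y) +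
      59520 * ((r - 2) ^ 2 * r * c ^ 2) +
      44640 * ((r - 2) ^ 2 * r ^ 2 * c) +
      44640 * ((r - 2) ^ 2 * r ^ 3 * c) +
      36960 * ((r - 2) ^ 2 * r ^ 2 * c ^ 2) +
      32640 * ((r - 2) ^ 2 * c ^ 3) +
      26992 * (r ^ 6) +
      17943 * (r ^ 5 * y) +
      17636 * (r ^ 7) +
      14201 * (r ^ 5) +
      7200 * ((r - 2) ^ 2 * r ^ 3 * c ^ 2) +
      6748 * ((r - 2) ^ 2 * r ^ 5 * y) +
      6748 * ((r - 1 / 2) ^ 2 * r ^ 5 * c) +
      5760 * ((r - 2) ^ 2 * r * c ^ 3) +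
      912 * ((r - c) ^ 2 * r ^ 4 * c) +
      348 * ((r - 2) ^ 2 * r ^ 4 * c) := by
    subst hy
    ring
  have h0 : 0 < 64 * (-2688 * c ^ 7 - 2688 * r * c ^ 6 - 2016 * r ^ 2 * c ^ 5 - 1344 * r ^ 3 * c ^ 4 - 1008 * r ^ 4 * c ^ 3 + 84 * r ^ 5 * c ^ 2 + 336 * r ^ 6 * c + 381 * r ^ 7 + 1008 * c ^ 5 + 1008 * r * c ^ 4 + 756 * r ^ 2 * c ^ 3 + 504 * r ^ 3 * c ^ 2 - 921 * r ^ 4 * c + 924 * r ^ 5 + 3720 * c ^ 3 + 3720 * r * c ^ 2 + 2790 * r ^ 2 * c + 2565 * r ^ 3 + 5640 * c + 1410 * r) := by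
    rw [key]; positivity
  rw [e] at h
  rcases mul_eq_zero.1 h with h1 | h1
  · have := pow_eq_zero_iff (two_ne_zero) |>.1 h1
    linarith
  · rw [h1] at h0
    norm_num at h0

theorem pi10_eq {r a b : ℝ} (hr : 0 < r) (ha : 0 < a) (ha1 : a ≤ 1) (hb : 0 < b) (hb1 : b ≤ 1)
    (h : r ^ 3 * k10 r a b √((1 - a ^ 2) * (1 - b ^ 2)) =
      a * b * (16920 * r - (f a + f b) / 2)) : r = 2 * a ∧ r = 2 * b := by
  have hp : pS r (a + b) (a * b) √((1 - a ^ 2) * (1 - b ^ 2)) = 0 := by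
    rw [k10_eq ha.le hb.le] at h
    unfold pS
    rw [h]
    unfold f
    ring
  by_cases hab : a = b
  · subst hab
    have h2 : 0 ≤ 1 - a ^ 2 := sub_nonneg.2 (pow_le_one₀ ha.le ha1)
    rw [Real.sqrt_mul_self h2, show a + a = 2 * a by ring, show a * a = a ^ 2 by ring] at hp
    have := pS_diag_eq hr ha.le ha1 hp
    exact ⟨this, this⟩
  · have := (kS_pos' hr ha.le ha1 hb.le hb1).2 ha hb hab
    rw [hp] at this
    exact absurd this (lt_irrefl _)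

/-! ### The exact kernel and its approximation -/

/-- The kernel in the variables `m = 1 / r`, `a`, `b`. -/
noncomputable def Hk (m a b : ℝ) : ℝ :=
  381 + 132 * ((7 + (a ^ 2 + b ^ 2)) * m ^ 2 - 9 / 2 * (a + b) * m) +
    513 * ((5 + 2 * (a ^ 2 + b ^ 2)) * m ^ 4 - 9 / 2 * (a + b) * m ^ 3) +
    470 * ((3 + 3 * (a ^ 2 + b ^ 2)) * m ^ 6 - 9 / 2 * (a + b) * m ^ 5) -
    1 / 2 * m ^ 5 * (648 * (a * (4 + 5 * b ^ 2) + b * (4 + 5 * a ^ 2)) +
      336 * (a ^ 3 * (4 + 5 * b ^ 2) + b ^ 3 * (4 + 5 * a ^ 2))) -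
    1 / 2 * ((648 + 1008 * a ^ 2) * |b| + (648 + 1008 * b ^ 2) * |a|) *
      √((1 - a ^ 2) * (1 - b ^ 2)) * m ^ 5 +
    9 / 2 * (1296 * (a * b) + 336 * (a * b ^ 3 + a ^ 3 * b)) * m ^ 4

theorem Hk_eq {ρ a b : ℝ} (hρ : 0 < ρ) :
    k10 ρ a b √((1 - a ^ 2) * (1 - b ^ 2)) / ρ ^ 6 = Hk (1 / ρ) a b := by
  unfold k10 Hk
  field_simp

theorem Hk_unif {U ε : ℝ} (hε : 0 < ε) : ∃ δ > 0, ∀ u q a b : ℝ, 0 ≤ u → u ≤ U → 0 ≤ q →
    q ≤ 1 → 1 - q < δ → |a| ≤ 1 → |b| ≤ 1 → Hk u a b < Hk (q * u) (q * a) (q * b) + ε := by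
  have hC : IsCompact (Icc (0 : ℝ) U ×ˢ (Icc (0 : ℝ) 1 ×ˢ (Icc (-1 : ℝ) 1 ×ˢ Icc (-1 : ℝ) 1))) :=
    isCompact_Icc.prod (isCompact_Icc.prod (isCompact_Icc.prod isCompact_Icc))
  have hcont : Continuous fun z : ℝ × ℝ × ℝ × ℝ =>
      Hk (z.2.1 * z.1) (z.2.1 * z.2.2.1) (z.2.1 * z.2.2.2) := by
    unfold Hk
    fun_prop
  have h := Metric.uniformContinuousOn_iff.1
    (hC.uniformContinuousOn_of_continuous hcont.continuousOn) ε hε
  obtain ⟨δ, hδ, h⟩ := h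
  refine ⟨δ, hδ, fun u v a b hu hu1 hv hv1 hvδ ha hb => ?_⟩
  have hab := abs_le.1 ha
  have hbb := abs_le.1 hb
  have h1 := h (u, v, a, b) ⟨⟨hu, hu1⟩, ⟨hv, hv1⟩, ⟨hab.1, hab.2⟩, ⟨hbb.1, hbb.2⟩⟩
    (u, 1, a, b) ⟨⟨hu, hu1⟩, ⟨zero_le_one, le_rfl⟩, ⟨hab.1, hab.2⟩, ⟨hbb.1, hbb.2⟩⟩ (by
      rw [Prod.dist_eq, Prod.dist_eq, Prod.dist_eq]
      simp only [dist_self]
      rw [Real.dist_eq, abs_sub_comm, abs_of_nonneg (by linarith : (0 : ℝ) ≤ 1 - v)]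
      simp [hδ, hvδ])
  rw [Real.dist_eq, abs_lt] at h1
  simp only [one_mul] at h1
  linarith [h1.1]

end P10

/-- The strict certificate in dimension 10. -/
noncomputable def certRTen : CertR 10 where
  toCert := certTen
  K := fun r a b => P10.k10 r a b √((1 - a ^ 2) * (1 - b ^ 2)) / r ^ 6
  K_cont := by
    have hc : Continuous fun z : ℝ × ℝ × ℝ =>
        P10.k10 z.1 z.2.1 z.2.2 √((1 - z.2.1 ^ 2) * (1 - z.2.2 ^ 2)) := by
      unfold P10.k10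
      fun_prop
    exact hc.continuousOn.div (by fun_prop) fun z hz => pow_ne_zero 6 (ne_of_gt hz)
  K_PI r a b hr ha ha1 hb hb1 := by
    have h := P10.pi10 hr.le ha.le ha1 hb.le hb1
    have e : P10.k10 r a b √((1 - a ^ 2) * (1 - b ^ 2)) / r ^ 6 * r ^ (10 - 1) =
        r ^ 3 * P10.k10 r a b √((1 - a ^ 2) * (1 - b ^ 2)) := by
      norm_num
      field_simp
    rw [e]
    exact h
  K_eq r a b hr ha ha1 hb hb1 h := by
    have e : P10.k10 r a b √((1 - a ^ 2) * (1 - b ^ 2)) / r ^ 6 * r ^ (10 - 1) =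
        r ^ 3 * P10.k10 r a b √((1 - a ^ 2) * (1 - b ^ 2)) := by
      norm_num
      field_simp
    rw [e] at h
    exact P10.pi10_eq hr ha ha1 hb hb1 h
  K_pos r a b hr ha hb := div_pos (P10.k10_pos hr ha hb) (by positivity)
  approxR ε hε r₀ hr₀ := by
    obtain ⟨δ, hδ, hG⟩ := P10.Hk_unif (U := 1 / r₀) hε
    obtain ⟨η, hηd⟩ : ∃ η, η = min (ε / 93060) (r₀ * (min δ 1 / 2)) := ⟨_, rfl⟩
    have hm : 0 < min δ 1 := lt_min hδ one_pos
    have hη : 0 < η := by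
      rw [hηd]
      exact lt_min (by positivity) (by positivity)
    have hη1 : η ≤ ε / 93060 := hηd ▸ min_le_left _ _
    have hη2 : η ≤ r₀ * (min δ 1 / 2) := hηd ▸ min_le_right _ _
    refine ⟨P10.Phi η, η ^ 2, by positivity, P10.Phi_contDiff, ?_, ?_, ?_, ?_⟩
    · intro p hp
      exact P10.Phi_nonneg hη hp
    · intro r a b hr ha hb
      exact P10.ker_nonneg (lam := 381 + ε) hη (by linarith) hr ha hb
    · intro r a b hr ha ha1 hb hb1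
      have h := P10.pi_ker hη (lam := 381 + ε) (by linarith) hr ha ha1 hb hb1
      refine le_trans (mul_le_mul_of_nonneg_left ?_ (mul_nonneg ha hb)) h
      show 16920 * r - (P10.f a + P10.f b) / 2 - ε ≤ 16920 * r - (P10.f a + P10.f b) / 2 -
        11 / 2 * 16920 * η
      linarith
    · intro r a b hr ha hb
      have hr0 : 0 < r := lt_of_lt_of_le hr₀ hr
      obtain ⟨ρ, q, hρ, hρ2, hq, hq0, hq1, -⟩ := P8.exists_rho hη hr0.le
      have h1 := P10.ker_ge hη hr0.le ha hb hρ hρ2 hq hq0 hq1 (lam := 381) le_rfl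
      have h2 : P10.k10 ρ (q * a) (q * b) √((1 - (q * a) ^ 2) * (1 - (q * b) ^ 2)) / ρ ^ 6 ≤
          ker 9 (P10.Phi η) 381 r a b := by
        rw [div_le_iff₀ (by positivity)]
        exact h1
      rw [P10.Hk_eq hρ] at h2
      have hq' : q ≠ 0 := by
        rintro rfl
        rw [zero_mul] at hq
        linarith
      have hρr : 1 / ρ = q * (1 / r) := by
        rw [hq]
        field_simp
      rw [hρr] at h2
      have h3 : ker 9 (P10.Phi η) (381 + ε) r a b = ker 9 (P10.Phi η) 381 r a b + ε := by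
        unfold ker ker0
        ring
      have h4 : 1 - q < δ := by
        have e1 : (1 - q ^ 2) * ρ ^ 2 = η ^ 2 := by
          have : r ^ 2 = q ^ 2 * ρ ^ 2 := by rw [hq]; ring
          nlinarith
        have e2 : η ^ 2 < δ * ρ ^ 2 := by
          have a1 : η ^ 2 ≤ (r₀ * (min δ 1 / 2)) ^ 2 := pow_le_pow_left₀ hη.le hη2 2
          have a2 : (r₀ * (min δ 1 / 2)) ^ 2 = r₀ ^ 2 * (min δ 1 * min δ 1 / 4) := by ring
          have a3 : min δ 1 * min δ 1 ≤ δ * 1 :=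
            mul_le_mul (min_le_left _ _) (min_le_right _ _) hm.le hδ.le
          have a4 : r₀ ^ 2 ≤ ρ ^ 2 := by
            rw [hρ2]
            have : r₀ ^ 2 ≤ r ^ 2 := pow_le_pow_left₀ hr₀.le hr 2
            nlinarith [sq_nonneg η]
          have a5 : r₀ ^ 2 * (min δ 1 * min δ 1 / 4) ≤ r₀ ^ 2 * (δ / 4) :=
            mul_le_mul_of_nonneg_left (by linarith) (sq_nonneg _)
          have a6 : 0 < r₀ ^ 2 := by positivity
          nlinarith [mul_pos hδ a6, mul_le_mul_of_nonneg_left a4 hδ.le]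
        have e3 : 0 < ρ ^ 2 := by positivity
        rw [← e1] at e2
        have e4 : 1 - q ^ 2 < δ := lt_of_mul_lt_mul_right e2 e3.le
        nlinarith
      have h5 := hG (1 / r) q a b (by positivity)
        (one_div_le_one_div_of_le hr₀ hr) hq0 hq1 h4 ha hb
      show P10.k10 r a b √((1 - a ^ 2) * (1 - b ^ 2)) / r ^ 6 ≤ ker 9 (P10.Phi η) (381 + ε) r a b
      rw [h3, P10.Hk_eq hr0]
      linarith

end Vale.Agent.P219.TP
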