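import Vale.Agent.P219.TP.Sobolev

/-! # The two-point functional at an almost minimizer -/

open MeasureTheory Set Metric
open scoped ENNReal ContDiff

namespace Vale.Agent.P219.TP

variable {n : ℕ} (G : Geo n)

/-- Arithmetic of the last step. -/
theorem near_min_arith (hn : 2 ≤ n) {R R₀ R₁ v₀ A₂ P Cc t η X₀ Jp Dg D' e : ℝ}
    (hR₀ : 0 < R₀) (hR0R : R₀ ≤ R) (hRR1 : R ≤ R₁) (hv₀ : 0 < v₀) (hPA : P ≤ A₂)
    (hCc : 0 ≤ Cc) (ht : 0 < t) (hη : 0 ≤ η) (he : 0 < e)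
    (hfin : D' ≤ Dg - t * (R⁻¹ * Jp) + Cc * t ^ 2 * P +
        ((n : ℝ) - 1) / R * (Cc * t * η + Cc * t ^ 2) +
        n * Geo.om n * R ^ (n - 1) / v₀ ^ 2 * (X₀ * t) ^ 2) (hD' : 0 ≤ D')
    (hK₁ : (Cc * A₂ + ((n : ℝ) - 1) / R₀ * Cc +
      n * Geo.om n * R₁ ^ (n - 1) / v₀ ^ 2 * X₀ ^ 2) * t ≤ e / (3 * R₁))
    (hK₂ : ((n : ℝ) - 1) / R₀ * Cc * η ≤ e / (3 * R₁)) (hDg : Dg ≤ t * (e / (3 * R₁))) :
    Jp ≤ e := by
  have hom : 0 < Geo.om n := om_pos (by omega)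
  have hn0 : (0 : ℝ) < n := by positivity
  have hn1' : (0 : ℝ) < (n : ℝ) - 1 := by
    have : (2 : ℝ) ≤ n := by exact_mod_cast hn
    linarith
  have hR : 0 < R := hR₀.trans_le hR0R
  have hR₁ : 0 < R₁ := hR.trans_le hRR1
  set K₁ : ℝ := Cc * A₂ + ((n : ℝ) - 1) / R₀ * Cc +
    n * Geo.om n * R₁ ^ (n - 1) / v₀ ^ 2 * X₀ ^ 2 with hK₁d
  set K₂ : ℝ := ((n : ℝ) - 1) / R₀ * Cc with hK₂d
  have f2 : Cc * t ^ 2 * P + ((n : ℝ) - 1) / R * (Cc * t * η + Cc * t ^ 2) +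
      n * Geo.om n * R ^ (n - 1) / v₀ ^ 2 * (X₀ * t) ^ 2 ≤ t * (K₁ * t) + t * (K₂ * η) := by
    have h1 : Cc * t ^ 2 * P ≤ Cc * t ^ 2 * A₂ := by gcongr
    have h2 : ((n : ℝ) - 1) / R * (Cc * t * η + Cc * t ^ 2) ≤
        ((n : ℝ) - 1) / R₀ * (Cc * t * η + Cc * t ^ 2) := by gcongr
    have h3 : n * Geo.om n * R ^ (n - 1) / v₀ ^ 2 * (X₀ * t) ^ 2 ≤
        n * Geo.om n * R₁ ^ (n - 1) / v₀ ^ 2 * (X₀ * t) ^ 2 := by gcongr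
    have h4 : t * (K₁ * t) + t * (K₂ * η) = Cc * t ^ 2 * A₂ +
        ((n : ℝ) - 1) / R₀ * (Cc * t * η + Cc * t ^ 2) +
        n * Geo.om n * R₁ ^ (n - 1) / v₀ ^ 2 * (X₀ * t) ^ 2 := by
      rw [hK₁d, hK₂d]; ring
    linarith
  have f3 : t * (K₁ * t) ≤ t * (e / (3 * R₁)) := by gcongr
  have f4 : t * (K₂ * η) ≤ t * (e / (3 * R₁)) := by gcongr
  have f5 : t * (e / R₁) = 3 * (t * (e / (3 * R₁))) := by field_simp
  have f6 : t * (R⁻¹ * Jp) ≤ t * (e / R₁) := by linarith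
  have f7 : R⁻¹ * Jp ≤ e / R₁ := le_of_mul_le_mul_left f6 ht
  have f8 : Jp ≤ e / R₁ * R := by
    have := mul_le_mul_of_nonneg_left f7 hR.le
    rw [← mul_assoc, mul_inv_cancel₀ hR.ne', one_mul] at this
    linarith
  refine f8.trans ?_
  rw [div_mul_eq_mul_div, div_le_iff₀ hR₁]
  gcongr

/-- The first variation at one point of an almost minimizer. -/
theorem near_min_point (hn : 2 ≤ n) {o : E n} {ρ : ℝ}
    (h0 : ∀ h, G.Cls o ρ h → 0 ≤ G.def' h) {Φ : ℝ × ℝ → ℝ} {δ : ℝ}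
    (hδ : 0 < δ) (hΦ : ContDiffOn ℝ ∞ Φ {p | -δ < p.1}) (lam : ℝ)
    {R₀ R₁ v₀ A₂ M Cc t₀ : ℝ}
    (hR₀ : 0 < R₀) (hv₀ : 0 < v₀) (hCc : 0 ≤ Cc)
    (hcon : ∀ (p ν : E n) (R t : ℝ) (h : E n → ℝ), ‖G.lg o p‖ ≤ ρ →
      ‖ν‖ = 1 → R₀ ≤ R → R ≤ R₁ → 0 ≤ t → t ≤ t₀ → G.Cls o ρ h → ∃ h', G.Cls o ρ h' ∧
      G.per h' ≤ G.per h - t * (∫ x, R⁻¹ * kap (n - 1) Φ (‖G.lg p x‖ / R)
          (inner ℝ (G.lg p x) ν / ‖G.lg p x‖) (G.ang h x p) * ‖G.D h x‖ ∂G.vol) +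
          Cc * t ^ 2 * G.per h ∧
      G.vp h - t * (∫ x, th Φ R ν (G.lg p x) * inner ℝ (G.lg x p) (G.D h x) ∂G.vol) -
          Cc * t * G.vol.real {x | 0 < h x ∧ h x < 1} - Cc * t ^ 2 ≤ G.vp h')
    (hM : 0 ≤ M) (hMb : ∀ (ν v : E n) (R : ℝ), ‖ν‖ = 1 → R₀ ≤ R → R ≤ R₁ → ‖v‖ ≤ 2 * ρ →
      |th Φ R ν v| ≤ M)
    {t η e : ℝ} (ht : 0 < t) (htt₀ : t ≤ t₀) (ht1 : t ≤ 1) (hηp : 0 < η) (hη1 : η ≤ 1)
    (he : 0 < e) (hρ : 0 < ρ)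
    (htX : (M * (2 * ρ) * A₂ + 2 * Cc) * t ≤ v₀ / 2)
    (hK₁ : (Cc * A₂ + ((n : ℝ) - 1) / R₀ * Cc +
      n * Geo.om n * R₁ ^ (n - 1) / v₀ ^ 2 * (M * (2 * ρ) * A₂ + 2 * Cc) ^ 2) * t ≤
        e / (3 * R₁))
    (hK₂ : ((n : ℝ) - 1) / R₀ * Cc * η ≤ e / (3 * R₁))
    {g : E n → ℝ} (hg : G.Cls o ρ g) (hgη : G.vol.real {x | 0 < g x ∧ g x < 1} ≤ η)
    (hgI : G.def' g ≤ t * (e / (3 * R₁))) (hPA : G.per g ≤ A₂)
    (hvlow : v₀ ≤ G.vp g) {R : ℝ} (hR : R = (G.vp g / Geo.om n) ^ (1 / (n : ℝ)))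
    (hR0R : R₀ ≤ R) (hRR1 : R ≤ R₁) {p : E n} (hDp : G.D g p ≠ 0) :
    (∫ q, ker0 (n - 1) Φ lam (‖G.lg p q‖ / R) (G.ang g p q) (G.ang g q p) *
      ‖G.D g q‖ ∂G.vol) ≤ lam * G.per g + e := by
  have hvp : 0 < G.vp g := hv₀.trans_le hvlow
  obtain ⟨hRp, hRn, hRc⟩ := model_scale hn hvp hR
  have hpB : ‖G.lg o p‖ ≤ ρ := by
    by_contra hne
    exact hDp (norm_D_zero_of_notMem G fun hm => hne (Cls.tsupport_sub G hg hm))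
  have hν : ‖‖G.D g p‖⁻¹ • G.D g p‖ = 1 := by
    rw [norm_smul, norm_inv, norm_norm, inv_mul_cancel₀ (norm_ne_zero_iff.2 hDp)]
  obtain ⟨g', hg', hper, hvp'⟩ := hcon p (‖G.D g p‖⁻¹ • G.D g p) R t g hpB hν hR0R hRR1 ht.le
    htt₀ hg
  have hKR : (∫ x, R⁻¹ * kap (n - 1) Φ (‖G.lg p x‖ / R)
          (inner ℝ (G.lg p x) (‖G.D g p‖⁻¹ • G.D g p) / ‖G.lg p x‖) (G.ang g x p) *
            ‖G.D g x‖ ∂G.vol) = R⁻¹ * ∫ x, kap (n - 1) Φ (‖G.lg p x‖ / R)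
          (inner ℝ (G.lg p x) (‖G.D g p‖⁻¹ • G.D g p) / ‖G.lg p x‖) (G.ang g x p) *
            ‖G.D g x‖ ∂G.vol := by
    rw [← integral_const_mul]
    congr 1
    funext x
    ring
  rw [hKR] at hper
  have hQb : |∫ x, th Φ R (‖G.D g p‖⁻¹ • G.D g p) (G.lg p x) *
          inner ℝ (G.lg x p) (G.D g x) ∂G.vol| ≤ M * (2 * ρ) * A₂ := by
    refine (Q_bound G hM hpB (fun w hw => hMb _ w R hν hR0R hRR1 hw) hg).trans ?_
    gcongr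
  have hJe := J_eq G hg.smooth (Cls.compact G hg) hδ hΦ hn lam hRp hDp
  rw [hJe]
  generalize (∫ x, kap (n - 1) Φ (‖G.lg p x‖ / R)
          (inner ℝ (G.lg p x) (‖G.D g p‖⁻¹ • G.D g p) / ‖G.lg p x‖) (G.ang g x p) *
            ‖G.D g x‖ ∂G.vol) = Kp at hper
  generalize (∫ x, th Φ R (‖G.D g p‖⁻¹ • G.D g p) (G.lg p x) *
          inner ℝ (G.lg x p) (G.D g x) ∂G.vol) = Q at hvp' hQb
  have hxb := x_bound ht ht1 hηp.le hη1 hCc hQb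
  have hvpx : G.vp g - (t * Q + Cc * t * η + Cc * t ^ 2) ≤ G.vp g' := by
    refine le_trans ?_ hvp'
    have : Cc * t * G.vol.real {x | 0 < g x ∧ g x < 1} ≤ Cc * t * η := by gcongr
    linarith
  have hfin := arith_descent hn (L₁ := Cc * t ^ 2 * G.per g) hRp hv₀ hvlow hRn hRc
    (hxb.trans htX) rfl hvpx hper hxb
  have := near_min_arith hn (D' := G.def' g') (Dg := G.def' g) hR₀ hR0R hRR1 hv₀ hPA hCc ht
    hηp.le he hfin (h0 g' hg') hK₁ hK₂ hgI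
  linarith

/-- At an almost minimizer of the deficit with a thin layer the pair integral of the kernel is at
most `(λ P + e) P`. PROOF: as in the proof of `def_nonneg_of_cert` (exists_contract, arith_descent,
J_eq, pairInt_fubini, pairInt_ker), with `I = 0`: for each `p` in the support, the contraction
towards `p` with `t = sqrt η` gives `∫ ker0 |D h| ≤ λ P + e`; integrate in `p`. -/
theorem near_min (hn : 2 ≤ n) (o : E n) {ρ : ℝ} (hρ : 0 < ρ)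
    (h0 : ∀ h, G.Cls o ρ h → 0 ≤ G.def' h) {Φ : ℝ × ℝ → ℝ} {δ : ℝ}
    (hδ : 0 < δ) (hΦ : ContDiffOn ℝ ∞ Φ {p | -δ < p.1}) (hΦ0 : ∀ p : ℝ × ℝ, 0 ≤ p.1 → 0 ≤ Φ p)
    (lam : ℝ) {R₀ R₁ : ℝ} (hR₀ : 0 < R₀) :
    ∀ e > 0, ∃ η > 0, ∀ (h : E n → ℝ) (R : ℝ), G.Cls o ρ h → G.def' h < η →
      G.vol.real {x | 0 < h x ∧ h x < 1} < η → R₀ ≤ R → R ≤ R₁ → G.vp h = Geo.om n * R ^ n →
      G.pairInt (fun r a b => ker (n - 1) Φ lam (r / R) a b) h ≤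
        (lam * G.per h + e) * G.per h := by
  intro e he
  rcases lt_or_ge R₁ R₀ with hR | hR₀₁
  · exact ⟨1, one_pos, fun h R _ _ _ h1 h2 _ => absurd (h1.trans h2) (not_le.2 hR)⟩
  have hR₁ : 0 < R₁ := hR₀.trans_le hR₀₁
  have hn0 : (0 : ℝ) < n := by positivity
  have hn1' : (0 : ℝ) < (n : ℝ) - 1 := by
    have : (2 : ℝ) ≤ n := by exact_mod_cast hn
    linarith
  have hom : 0 < Geo.om n := om_pos (by omega)
  have hsigp : 0 < sig n := sig_pos (by omega)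
  have hsig : sig n = n * Geo.om n := sig_eq (by omega)
  obtain ⟨Cc, t₀, hCc, ht₀, hcon⟩ := exists_contract G hn o hρ hδ hΦ hΦ0 (R₁ := R₁) hR₀
  obtain ⟨M, hM, hMb⟩ := th_bounds (n := n) hδ hΦ R₁ hR₀ (2 * ρ)
  obtain ⟨A₂, hA₂⟩ : ∃ A₂ : ℝ, A₂ = sig n * R₁ ^ (n - 1) + 1 := ⟨_, rfl⟩
  have hA₂p : 0 < A₂ := by rw [hA₂]; positivity
  obtain ⟨v₀, hv₀⟩ : ∃ v₀ : ℝ, v₀ = Geo.om n * R₀ ^ n := ⟨_, rfl⟩
  have hv₀p : 0 < v₀ := by rw [hv₀]; positivity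
  obtain ⟨t₁, ht₁, ht₁'⟩ := exists_small (a := M * (2 * ρ) * A₂ + 2 * Cc) (by positivity)
    (b := v₀ / 2) (by positivity)
  obtain ⟨t₂, ht₂, ht₂'⟩ := exists_small (a := Cc * A₂ + ((n : ℝ) - 1) / R₀ * Cc +
    n * Geo.om n * R₁ ^ (n - 1) / v₀ ^ 2 * (M * (2 * ρ) * A₂ + 2 * Cc) ^ 2) (by positivity)
    (b := e / (3 * R₁)) (by positivity)
  obtain ⟨t, ht⟩ : ∃ t : ℝ, t = min (min t₀ 1) (min t₁ t₂) := ⟨_, rfl⟩
  have htp : 0 < t := by rw [ht]; positivity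
  have htt₀ : t ≤ t₀ := ht ▸ (min_le_left _ _).trans (min_le_left _ _)
  have ht1 : t ≤ 1 := ht ▸ (min_le_left _ _).trans (min_le_right _ _)
  have htX := ht₁' t htp.le (ht ▸ (min_le_right _ _).trans (min_le_left _ _))
  have htK := ht₂' t htp.le (ht ▸ (min_le_right _ _).trans (min_le_right _ _))
  obtain ⟨η₂, hη₂, hη₂'⟩ := exists_small (a := ((n : ℝ) - 1) / R₀ * Cc) (by positivity)
    (b := e / (3 * R₁)) (by positivity)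
  obtain ⟨η, hη⟩ : ∃ η : ℝ, η = min (min 1 η₂) (t * (e / (3 * R₁))) := ⟨_, rfl⟩
  have hηp : 0 < η := by rw [hη]; positivity
  have hη1 : η ≤ 1 := hη ▸ (min_le_left _ _).trans (min_le_left _ _)
  have hηK := hη₂' η hηp.le (hη ▸ (min_le_left _ _).trans (min_le_right _ _))
  have hηt : η ≤ t * (e / (3 * R₁)) := hη ▸ min_le_right _ _
  refine ⟨η, hηp, fun h R hh hd hlay hR0R hRR1 hvp => ?_⟩
  have hRp : 0 < R := hR₀.trans_le hR0R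
  have hReq : R = (G.vp h / Geo.om n) ^ (1 / (n : ℝ)) := by
    rw [hvp, mul_div_cancel_left₀ _ hom.ne', one_div,
      Real.pow_rpow_inv_natCast hRp.le (by omega)]
  have hvlow : v₀ ≤ G.vp h := by
    rw [hv₀, hvp]
    gcongr
  obtain ⟨-, -, hRc⟩ := model_scale hn (hv₀p.trans_le hvlow) hReq
  have hPA : G.per h ≤ A₂ := by
    have h1 : G.def' h = G.per h - n * Geo.om n ^ (1 / (n : ℝ)) *
      G.vp h ^ (((n : ℝ) - 1) / n) := rfl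
    rw [h1, hRc, ← hsig] at hd
    have h2 : sig n * R ^ (n - 1) ≤ sig n * R₁ ^ (n - 1) := by gcongr
    rw [hA₂]
    linarith
  have hc : HasCompactSupport h := Cls.compact G hh
  have hκ := continuous_ker0' hδ hΦ (n - 1) lam R
  have hX1 : G.pairInt (fun r a b => ker (n - 1) Φ lam (r / R) a b) h =
      G.pairInt (fun r a b => ker0 (n - 1) Φ lam (r / R) a b) h :=
    pairInt_ker G hh.smooth hc (κ := fun r a b => ker0 (n - 1) Φ lam (r / R) a b) hκ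
  have hX2 := pairInt_fubini G hh.smooth hc
    (κ := fun r a b => ker0 (n - 1) Φ lam (r / R) a b) hκ
  have hX3 := integrable_outer G hh.smooth hc
    (κ := fun r a b => ker0 (n - 1) Φ lam (r / R) a b) hκ
  rw [hX1, hX2]
  have hX4 : (lam * G.per h + e) * G.per h = ∫ p, (lam * G.per h + e) * ‖G.D h p‖ ∂G.vol := by
    rw [integral_const_mul]
    rfl
  rw [hX4]
  refine integral_mono hX3 ((integrable_D G hh.smooth hc).const_mul _) fun p => ?_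
  by_cases hDp : G.D h p = 0
  · simp [hDp]
  · have := near_min_point G hn h0 hδ hΦ lam hR₀ hv₀p hCc hcon hM
      (fun ν v R h1 h2 h3 h4 => (hMb ν v R h1 h2 h3 h4).1) htp htt₀ ht1 hηp hη1 he hρ htX htK
      hηK hh hlay.le (hd.le.trans hηt) hPA hvlow hReq hR0R hRR1 hDp
    exact mul_le_mul_of_nonneg_right this (norm_nonneg _)

end Vale.Agent.P219.TP
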