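import Vale.Agent.P219.TP.TPineq

/-! # The two-point inequality for a kernel on pairs of points -/

open MeasureTheory Set Metric
open scoped ENNReal ContDiff

namespace Vale.Agent.P219.TP

variable {n : ℕ} (G : Geo n)

/-- `∫∫ κ(p,q) |dh|(p) |dh|(q) dvol dvol`. -/
noncomputable def Geo.pairInt2 (κ : E n → E n → ℝ) (h : E n → ℝ) : ℝ :=
  ∫ z : E n × E n, κ z.1 z.2 * (‖G.D h z.1‖ * ‖G.D h z.2‖) ∂(G.vol.prod G.vol)

/-- The integrand, as a function of the pair of points (with the Jacobian). -/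
noncomputable def tpgK (κ : E n → E n → ℝ) (h : E n → ℝ) (p q : E n) (r : ℝ) : ℝ≥0∞ :=
  ENNReal.ofReal (κ p q * |(G.T p (G.lg p q)).det| * (‖G.D h p‖ * ‖G.D h q‖) * r ^ (n - 1))

/-- The integrand on a geodesic. -/
noncomputable def tpgk (κ : E n → E n → ℝ) (h : E n → ℝ) (x u : E n) (s t : ℝ) : ℝ≥0∞ :=
  tpgK G κ h (G.ex x (s • u)) (G.ex x (t • u)) (t - s)

theorem tpg_gk_shift (κ : E n → E n → ℝ) (h : E n → ℝ) (x u : E n) (σ τ : ℝ) :
    tpgk G κ h (G.ex x (σ • u)) (G.V σ x u) 0 (τ - σ) = tpgk G κ h x u σ τ := by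
  unfold tpgk
  rw [zero_smul, G.ex_zero, G.ex_flow, add_sub_cancel, sub_zero]

theorem tpg_measurable_K {κ : E n → E n → ℝ}
    (hκm : Measurable fun z : E n × E n => κ z.1 z.2) {h : E n → ℝ} (hh : ContDiff ℝ 1 h) :
    Measurable fun z : (E n × E n) × ℝ => tpgK G κ h z.1.1 z.1.2 z.2 := by
  unfold tpgK
  have hD := tpi_continuous_D G hh
  have h1 : Continuous fun z : E n × E n => (G.T z.1 (G.lg z.1 z.2)).det :=
    ContinuousLinearMap.continuous_det.comp (G.T_smooth.continuous.comp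
      (continuous_fst.prodMk G.lg_smooth.continuous))
  have h2 : Measurable fun z : E n × E n => κ z.1 z.2 * |(G.T z.1 (G.lg z.1 z.2)).det| *
      (‖G.D h z.1‖ * ‖G.D h z.2‖) := by
    refine (hκm.mul h1.abs.measurable).mul ?_
    exact ((hD.comp continuous_fst).norm.mul (hD.comp continuous_snd).norm).measurable
  exact ENNReal.measurable_ofReal.comp ((h2.comp measurable_fst).mul (measurable_snd.pow_const _))

theorem tpg_measurable_gk {κ : E n → E n → ℝ}
    (hκm : Measurable fun z : E n × E n => κ z.1 z.2) {h : E n → ℝ} (hh : ContDiff ℝ 1 h) :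
    Measurable fun z : (E n × E n) × (ℝ × ℝ) => tpgk G κ h z.1.1 z.1.2 z.2.1 z.2.2 := by
  unfold tpgk
  have he : Continuous fun z : (E n × E n) × ℝ => G.ex z.1.1 (z.2 • z.1.2) :=
    G.ex_smooth.continuous.comp ((continuous_fst.comp continuous_fst).prodMk
      (continuous_snd.smul (continuous_snd.comp continuous_fst)))
  have h1 : Measurable fun z : (E n × E n) × (ℝ × ℝ) => G.ex z.1.1 (z.2.1 • z.1.2) :=
    (he.comp (continuous_fst.prodMk (continuous_fst.comp continuous_snd))).measurable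
  have h2 : Measurable fun z : (E n × E n) × (ℝ × ℝ) => G.ex z.1.1 (z.2.2 • z.1.2) :=
    (he.comp (continuous_fst.prodMk (continuous_snd.comp continuous_snd))).measurable
  have h3 : Measurable fun z : (E n × E n) × (ℝ × ℝ) => z.2.2 - z.2.1 := by fun_prop
  exact (tpg_measurable_K G hκm hh).comp ((h1.prodMk h2).prodMk h3)

/-- Inner integral of the pair kernel. -/
noncomputable def tpgG (κ : E n → E n → ℝ) (h : E n → ℝ) (z : E n × E n) : ℝ≥0∞ :=
  ∫⁻ t in Ioi (0 : ℝ), tpgk G κ h z.1 z.2 0 t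

theorem tpg_measurable_G {κ : E n → E n → ℝ}
    (hκm : Measurable fun z : E n × E n => κ z.1 z.2) {h : E n → ℝ}
    (hh : ContDiff ℝ 1 h) : Measurable (tpgG G κ h) := by
  unfold tpgG
  apply Measurable.lintegral_prod_right'
    (f := fun p : (E n × E n) × ℝ => tpgk G κ h p.1.1 p.1.2 0 p.2)
  exact (tpg_measurable_gk G hκm hh).comp
    (measurable_fst.prodMk (measurable_const.prodMk measurable_snd))

theorem tpg_gk_eq (κ : E n → E n → ℝ) (h : E n → ℝ) (x u : E n) (σ : ℝ) :
    ∫⁻ τ in Ioi σ, tpgk G κ h x u σ τ = tpgG G κ h (G.ex x (σ • u), G.V σ x u) := by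
  unfold tpgG
  rw [← tpi_setLIntegral_shift _ σ]
  apply lintegral_congr
  intro τ
  rw [tpg_gk_shift]

theorem tpg_integrable {h : E n → ℝ} (hh : ContDiff ℝ 1 h) (hc : HasCompactSupport h)
    {κ : E n → E n → ℝ} (hκm : Measurable fun z : E n × E n => κ z.1 z.2)
    (hκb : ∃ C, ∀ p ∈ tsupport h, ∀ q ∈ tsupport h, κ p q ≤ C)
    (hκ0 : ∀ p q, 0 ≤ κ p q) :
    Integrable (fun z : E n × E n => κ z.1 z.2 * (‖G.D h z.1‖ * ‖G.D h z.2‖))
      (G.vol.prod G.vol) := by
  have hD := tpi_continuous_D G hh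
  set K : Set (E n) := tsupport h with hK
  have hKc : IsCompact K := hc
  have hKK : IsCompact (K ×ˢ K) := hKc.prod hKc
  obtain ⟨C, hC⟩ := hκb
  obtain ⟨M, hM⟩ := hKc.exists_bound_of_continuousOn hD.continuousOn
  have hfin : (G.vol.prod G.vol) (K ×ˢ K) < ⊤ := by
    rw [Measure.prod_prod]
    exact ENNReal.mul_lt_top hKc.measure_lt_top hKc.measure_lt_top
  have hmeas : Measurable (fun z : E n × E n => κ z.1 z.2 * (‖G.D h z.1‖ * ‖G.D h z.2‖)) :=
    hκm.mul ((hD.comp continuous_fst).norm.mul (hD.comp continuous_snd).norm).measurable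
  rw [← integrableOn_iff_integrable_of_support_subset (s := K ×ˢ K)]
  · refine Measure.integrableOn_of_bounded (M := C * (M * M)) hfin.ne
      hmeas.aestronglyMeasurable ?_
    refine (ae_restrict_iff' hKK.measurableSet).2 (Filter.Eventually.of_forall fun z hz => ?_)
    have h1 := hC z.1 hz.1 z.2 hz.2
    have h0 := hκ0 z.1 z.2
    have h2 := hM z.1 hz.1
    have h3 := hM z.2 hz.2
    rw [norm_mul, Real.norm_eq_abs, norm_mul, norm_norm, norm_norm, abs_of_nonneg h0]
    have hC0 : 0 ≤ C := h0.trans h1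
    have hM0 : 0 ≤ M := (norm_nonneg _).trans h2
    gcongr
  · intro z hz
    by_contra hzK
    apply hz
    show κ z.1 z.2 * (‖G.D h z.1‖ * ‖G.D h z.2‖) = 0
    rw [mem_prod, not_and_or] at hzK
    rcases hzK with h1 | h1
    · rw [PairGe.D_eq_zero G h1, norm_zero, zero_mul, mul_zero]
    · rw [PairGe.D_eq_zero G h1, norm_zero, mul_zero, mul_zero]

/-- The pair integral in polar coordinates. -/
theorem tpg_pair (hn : 2 ≤ n) {h : E n → ℝ} (hh : ContDiff ℝ 1 h) (hc : HasCompactSupport h)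
    {κ : E n → E n → ℝ} (hκm : Measurable fun z : E n × E n => κ z.1 z.2)
    (hκb : ∃ C, ∀ p ∈ tsupport h, ∀ q ∈ tsupport h, κ p q ≤ C)
    (hκ0 : ∀ p q, 0 ≤ κ p q) :
    tpiJ G (tpgG G κ h) = ENNReal.ofReal (G.pairInt2 κ h) := by
  have hD := tpi_continuous_D G hh
  set F : E n × E n → ℝ := fun z => κ z.1 z.2 * (‖G.D h z.1‖ * ‖G.D h z.2‖) with hF
  have hFm : Measurable F :=
    hκm.mul ((hD.comp continuous_fst).norm.mul (hD.comp continuous_snd).norm).measurable
  have hF0 : ∀ z, 0 ≤ F z := fun z => mul_nonneg (hκ0 _ _) (by positivity)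
  have hFi : Integrable F (G.vol.prod G.vol) := tpg_integrable G hh hc hκm hκb hκ0
  have e1 : ENNReal.ofReal (G.pairInt2 κ h) =
      ∫⁻ x, ∫⁻ y, ENNReal.ofReal (F (x, y)) ∂G.vol ∂G.vol := by
    unfold Geo.pairInt2
    rw [ofReal_integral_eq_lintegral_ofReal hFi (Filter.Eventually.of_forall hF0),
      lintegral_prod (fun z => ENNReal.ofReal (F z))
        (ENNReal.measurable_ofReal.comp hFm).aemeasurable]
  rw [e1]
  unfold tpiJ
  refine lintegral_congr fun x => ?_
  have hFx : Measurable fun y => ENNReal.ofReal (F (x, y)) :=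
    ENNReal.measurable_ofReal.comp (hFm.comp measurable_prodMk_left)
  have hex : Measurable fun v : E n => G.ex x v :=
    ((PairGe.continuous_ex G).comp (Continuous.prodMk_right x)).measurable
  have hTx : Measurable fun v : E n => ENNReal.ofReal |(G.T x v).det| := by
    have h1 : Continuous fun v : E n => (G.T x v).det :=
      ContinuousLinearMap.continuous_det.comp (G.T_smooth.continuous.comp
        (Continuous.prodMk_right x))
    exact ENNReal.measurable_ofReal.comp h1.abs.measurable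
  have hpol := polar (n := n) (by omega) (F := fun v => ENNReal.ofReal |(G.T x v).det| *
    ENNReal.ofReal (F (x, G.ex x v))) (hTx.mul (hFx.comp hex))
  rw [G.lintegral_vol_ex x hFx, hpol]
  refine lintegral_congr fun u => ?_
  unfold tpgG
  refine setLIntegral_congr_fun measurableSet_Ioi fun r hr => ?_
  have hr' : (0 : ℝ) < r := hr
  have hx0 : G.ex x ((0 : ℝ) • (u : E n)) = x := by rw [zero_smul, G.ex_zero]
  simp only [tpgk, tpgK, hF]
  rw [hx0, G.lg_ex, sub_zero, ← ENNReal.ofReal_mul (abs_nonneg _),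
    ← ENNReal.ofReal_mul (by positivity)]
  congr 1
  ring

theorem tpg_measurable_ray {h : E n → ℝ} (hh : ContDiff ℝ 1 h) {κ : E n → E n → ℝ}
    (hκm : Measurable fun z : E n × E n => κ z.1 z.2) (x u : E n) :
    Measurable (Function.uncurry (tpgk G κ h x u)) := by
  have h1 : Measurable fun p : ℝ × ℝ => ((x, u), p) := measurable_prodMk_left
  exact (tpg_measurable_gk G hκm hh).comp h1

theorem tpg_ray_ineq {h : E n → ℝ} (hh : ContDiff ℝ 1 h)
    (h01 : ∀ x, 0 ≤ h x ∧ h x ≤ 1) {κ : E n → E n → ℝ}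
    (hκm : Measurable fun z : E n × E n => κ z.1 z.2) {s : ℝ} {f : ℝ → ℝ}
    (hs : 0 ≤ s) (hf : Continuous f) (hf0 : ∀ a ∈ Icc (0 : ℝ) 1, 0 ≤ f a)
    (hκf : ∀ p q, p ≠ q → G.D h p ≠ 0 → G.D h q ≠ 0 → 0 < G.ang h p q → 0 < G.ang h q p →
      G.ang h p q * G.ang h q p *
          (s * ‖G.lg p q‖ - (f (G.ang h p q) + f (G.ang h q p)) / 2) ≤
        κ p q * (|(G.T p (G.lg p q)).det| * ‖G.lg p q‖ ^ (n - 1))) {L₀ : ℝ}
    (hL₀ : ∀ (x u : E n), ‖u‖ = 1 → ∀ s t, h (G.ex x (s • u)) ≠ 0 →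
      h (G.ex x (t • u)) ≠ 0 → |s - t| ≤ L₀) {x u : E n} (hu : ‖u‖ = 1) {T : ℝ} (hT : 0 ≤ T) :
    ENNReal.ofReal (s * volume.real ({t | h (G.ex x (t • u)) = 1} ∩ Ioo 0 T)) ≤
      (∫⁻ σ in Ioo 0 T, ∫⁻ τ in Ioi σ, tpgk G κ h x u σ τ) +
        ENNReal.ofReal ((∫ t in Ioo 0 T, f (clip (G.ca h x u t)) *
            max 0 (G.ca h x u t * ‖G.D h (G.ex x (t • u))‖)) / 2 +
          (∫ t in Ioo 0 T, f (clip (-G.ca h x u t)) *
            max 0 (-(G.ca h x u t) * ‖G.D h (G.ex x (t • u))‖)) / 2) +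
        ENNReal.ofReal (s * L₀) * (({y | h y ≠ 0}.indicator 1 x : ℝ≥0∞) +
          {y | h y ≠ 0}.indicator 1 (G.ex x (T • u))) := by
  by_cases hcase : h (G.ex x ((0 : ℝ) • u)) = 0 ∧ h (G.ex x (T • u)) = 0
  · -- both ends outside of the support
    obtain ⟨c, hc⟩ := (isCompact_Icc (a := (0 : ℝ)) (b := 1)).exists_bound_of_continuousOn
      hf.continuousOn
    have hfc : ∀ a : ℝ, 0 ≤ f (clip a) ∧ f (clip a) ≤ c := fun a =>
      ⟨hf0 _ (clip_mem a), (le_abs_self _).trans (hc _ (clip_mem a))⟩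
    have hca := measurable_ca G hh x u
    have hm1 : Measurable fun t => f (clip (G.ca h x u t)) :=
      (hf.measurable.comp continuous_clip.measurable).comp hca
    have hm2 : Measurable fun t => f (clip (-G.ca h x u t)) :=
      (hf.measurable.comp continuous_clip.measurable).comp hca.neg
    have key := line_ineq (contDiff_geod G hh x u) (fun t => h01 _) hT hcase.1 hcase.2 hs
      hm1 hm2 (fun t => hfc _) (fun t => hfc _) (tpg_measurable_ray G hh hκm x u) ?_
    · refine key.trans ?_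
      rw [add_assoc]
      refine add_le_add ?_ ?_
      · refine lintegral_mono fun σ => ?_
        exact lintegral_mono_set Ioo_subset_Ioi_self
      · refine le_trans ?_ (le_self_add)
        refine ENNReal.ofReal_le_ofReal (le_of_eq ?_)
        simp only [deriv_geod G hh x u, neg_mul]
    · intro σ τ h0σ hστ hτT
      obtain ⟨a1, a2, a3⟩ := ang_geod G h x hu hστ
      unfold tpgk tpgK
      rw [deriv_geod G hh x u σ, deriv_geod G hh x u τ]
      set a := G.ca h x u σ with ha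
      set b := -G.ca h x u τ with hb
      have hbn : -(G.ca h x u τ * ‖G.D h (G.ex x (τ • u))‖) =
          b * ‖G.D h (G.ex x (τ • u))‖ := by rw [hb]; ring
      rw [hbn]
      have ha1 : a ≤ 1 := (le_abs_self _).trans (ray_abs_ca_le G hu σ)
      have hb1 : b ≤ 1 := by
        refine (le_abs_self _).trans ?_
        rw [hb, abs_neg]
        exact ray_abs_ca_le G hu τ
      have hp0 : 0 ≤ ‖G.D h (G.ex x (σ • u))‖ := norm_nonneg _
      have hq0 : 0 ≤ ‖G.D h (G.ex x (τ • u))‖ := norm_nonneg _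
      rcases le_or_gt a 0 with ha0 | ha0
      · rw [max_eq_left (mul_nonpos_of_nonpos_of_nonneg ha0 hp0), zero_mul, zero_mul,
          ENNReal.ofReal_zero]
        exact zero_le
      rcases le_or_gt b 0 with hb0 | hb0
      · rw [max_eq_left (mul_nonpos_of_nonpos_of_nonneg hb0 hq0), mul_zero, zero_mul,
          ENNReal.ofReal_zero]
        exact zero_le
      by_cases hpz : G.D h (G.ex x (σ • u)) = 0
      · rw [hpz, norm_zero, mul_zero, max_self, zero_mul, zero_mul, ENNReal.ofReal_zero]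
        exact zero_le
      by_cases hqz : G.D h (G.ex x (τ • u)) = 0
      · rw [hqz, norm_zero, mul_zero, max_self, mul_zero, zero_mul, ENNReal.ofReal_zero]
        exact zero_le
      have hpq : G.ex x (σ • u) ≠ G.ex x (τ • u) := by
        intro he
        rw [he, G.lg_self, norm_zero] at a1
        linarith
      refine ENNReal.ofReal_le_ofReal ?_
      rw [max_eq_right (mul_nonneg ha0.le hp0), max_eq_right (mul_nonneg hb0.le hq0),
        clip_of_mem ha0.le ha1, clip_of_mem hb0.le hb1]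
      have h1 := hκf (G.ex x (σ • u)) (G.ex x (τ • u)) hpq hpz hqz (by rw [a2]; exact ha0)
        (by rw [a3]; exact hb0)
      rw [a1, a2, a3] at h1
      have h2 := mul_le_mul_of_nonneg_right h1 (mul_nonneg hp0 hq0)
      calc a * ‖G.D h (G.ex x (σ • u))‖ * (b * ‖G.D h (G.ex x (τ • u))‖) *
            (s * (τ - σ) - (f a + f b) / 2)
          = a * b * (s * (τ - σ) - (f a + f b) / 2) *
            (‖G.D h (G.ex x (σ • u))‖ * ‖G.D h (G.ex x (τ • u))‖) := by ring
        _ ≤ _ := h2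
        _ = _ := by ring
  · -- one end inside of the support: crude bound
    have hone : (1 : ℝ≥0∞) ≤ (({y | h y ≠ 0}.indicator 1 x : ℝ≥0∞) +
          {y | h y ≠ 0}.indicator 1 (G.ex x (T • u))) := by
      by_cases h0 : h (G.ex x ((0 : ℝ) • u)) = 0
      · have hT0 : h (G.ex x (T • u)) ≠ 0 := fun h' => hcase ⟨h0, h'⟩
        refine le_trans ?_ le_add_self
        rw [indicator_of_mem (show G.ex x (T • u) ∈ {y | h y ≠ 0} from hT0)]
        simp
      · rw [zero_smul, G.ex_zero] at h0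
        refine le_trans ?_ le_self_add
        rw [indicator_of_mem (show x ∈ {y | h y ≠ 0} from h0)]
        simp
    have hL0 : 0 ≤ L₀ := by
      by_cases h0 : h (G.ex x ((0 : ℝ) • u)) = 0
      · have hT0 : h (G.ex x (T • u)) ≠ 0 := fun h' => hcase ⟨h0, h'⟩
        simpa using hL₀ x u hu T T hT0 hT0
      · simpa using hL₀ x u hu 0 0 h0 h0
    have hvol : volume.real ({t | h (G.ex x (t • u)) = 1} ∩ Ioo 0 T) ≤ L₀ := by
      have hd : Metric.ediam ({t | h (G.ex x (t • u)) = 1} ∩ Ioo 0 T) ≤ ENNReal.ofReal L₀ := by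
        refine Metric.ediam_le fun a ha b hb => ?_
        have h1 := hL₀ x u hu a b (by rw [ha.1]; exact one_ne_zero)
          (by rw [hb.1]; exact one_ne_zero)
        rw [edist_dist, Real.dist_eq]
        exact ENNReal.ofReal_le_ofReal h1
      have hv := (Real.volume_le_diam
        ({t | h (G.ex x (t • u)) = 1} ∩ Ioo 0 T)).trans hd
      exact ENNReal.toReal_le_of_le_ofReal hL0 hv
    calc ENNReal.ofReal (s * volume.real ({t | h (G.ex x (t • u)) = 1} ∩ Ioo 0 T))
        ≤ ENNReal.ofReal (s * L₀) := ENNReal.ofReal_le_ofReal (mul_le_mul_of_nonneg_left hvol hs)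
      _ = ENNReal.ofReal (s * L₀) * 1 := (mul_one _).symm
      _ ≤ ENNReal.ofReal (s * L₀) * (({y | h y ≠ 0}.indicator 1 x : ℝ≥0∞) +
          {y | h y ≠ 0}.indicator 1 (G.ex x (T • u))) := by gcongr
      _ ≤ _ := le_add_self

theorem tpg_window {h : E n → ℝ} (hh : ContDiff ℝ 1 h)
    (h01 : ∀ x, 0 ≤ h x ∧ h x ≤ 1) {κ : E n → E n → ℝ}
    (hκm : Measurable fun z : E n × E n => κ z.1 z.2) {s : ℝ} {f : ℝ → ℝ}
    (hs : 0 ≤ s) (hf : Continuous f) (hf0 : ∀ a ∈ Icc (0 : ℝ) 1, 0 ≤ f a)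
    (hκf : ∀ p q, p ≠ q → G.D h p ≠ 0 → G.D h q ≠ 0 → 0 < G.ang h p q → 0 < G.ang h q p →
      G.ang h p q * G.ang h q p *
          (s * ‖G.lg p q‖ - (f (G.ang h p q) + f (G.ang h q p)) / 2) ≤
        κ p q * (|(G.T p (G.lg p q)).det| * ‖G.lg p q‖ ^ (n - 1))) {L₀ : ℝ}
    (hL₀ : ∀ (x u : E n), ‖u‖ = 1 → ∀ s t, h (G.ex x (s • u)) ≠ 0 →
      h (G.ex x (t • u)) ≠ 0 → |s - t| ≤ L₀) {T : ℝ} (hT : 0 ≤ T)
    (x u : E n) (hu : ‖u‖ = 1) :
    ENNReal.ofReal s * tpiW G (fun z => {y | h y = 1}.indicator 1 z.1) 0 T (x, u) ≤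
      tpiW G (tpgG G κ h) 0 T (x, u) +
      (2⁻¹ * tpiW G (tpiPhi G f h 1) 0 T (x, u) +
        2⁻¹ * tpiW G (tpiPhi G f h (-1)) 0 T (x, u)) +
      ENNReal.ofReal (s * L₀) * (({y | h y ≠ 0}.indicator 1 x : ℝ≥0∞) +
        {y | h y ≠ 0}.indicator 1 (G.ex x (T • u))) := by
  have hcont : Continuous fun t : ℝ => h (G.ex x (t • u)) :=
    hh.continuous.comp (G.ex_smooth.continuous.comp
      (continuous_const.prodMk (continuous_id.smul continuous_const)))
  have hA : MeasurableSet {t : ℝ | h (G.ex x (t • u)) = 1} :=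
    (isClosed_singleton.preimage hcont).measurableSet
  have hlhs : ENNReal.ofReal s * tpiW G (fun z => {y | h y = 1}.indicator 1 z.1) 0 T (x, u) =
      ENNReal.ofReal (s * volume.real ({t | h (G.ex x (t • u)) = 1} ∩ Ioo 0 T)) := by
    rw [ENNReal.ofReal_mul hs]
    congr 1
    have h1 : tpiW G (fun z => {y | h y = 1}.indicator 1 z.1) 0 T (x, u) =
        ∫⁻ t in Ioo 0 T, {t : ℝ | h (G.ex x (t • u)) = 1}.indicator 1 t := by
      unfold tpiW
      apply lintegral_congr
      intro t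
      simp only [indicator_apply, Pi.one_apply]
      rfl
    have hfin : volume ({t : ℝ | h (G.ex x (t • u)) = 1} ∩ Ioo 0 T) ≠ ⊤ := by
      refine ne_top_of_le_ne_top ?_ (measure_mono inter_subset_right)
      simp
    rw [h1, lintegral_indicator_one hA, Measure.restrict_apply hA, ofReal_measureReal hfin]
  rw [hlhs]
  refine (tpg_ray_ineq G hh h01 hκm hs hf hf0 hκf hL₀ hu hT).trans ?_
  gcongr ?_ + ?_ + _
  · unfold tpiW
    apply le_of_eq
    apply lintegral_congr
    intro σ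
    exact tpg_gk_eq G κ h x u σ
  · refine ENNReal.ofReal_add_le.trans ?_
    rw [tpi_ofReal_half, tpi_ofReal_half]
    gcongr
    · refine (tpi_ofReal_integral_le ?_).trans (le_of_eq ?_)
      · intro t
        exact mul_nonneg (hf0 _ (tpi_clip_mem _)) (le_max_left _ _)
      · unfold tpiW
        apply lintegral_congr
        intro t
        rw [tpi_Phi_eq, one_mul]
    · refine (tpi_ofReal_integral_le ?_).trans (le_of_eq ?_)
      · intro t
        exact mul_nonneg (hf0 _ (tpi_clip_mem _)) (le_max_left _ _)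
      · unfold tpiW
        apply lintegral_congr
        intro t
        rw [tpi_Phi_eq, neg_one_mul]

/-- The two-point inequality, with a kernel depending on the points and with the Jacobian
`J = |det T| r^{n-1}` kept. PROOF: as `two_point`: in polar coordinates `pairInt2` is EQUAL to the
integral over `(x,u,r)` of `κ(x, ex x (r u)) J |D||D|`; on a line put `kJ(s,t) = κ(γ s, γ t) J`, which
is `≥ 0` and `≥ (s r - (f a+f b)/2) a b` for `a, b > 0`; then the same one-dimensional argument. -/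
theorem two_point_gen (hn : 2 ≤ n) {h : E n → ℝ} (hh : ContDiff ℝ 1 h) (hc : HasCompactSupport h)
    (h01 : ∀ x, 0 ≤ h x ∧ h x ≤ 1) {κ : E n → E n → ℝ}
    (hκm : Measurable fun z : E n × E n => κ z.1 z.2)
    (hκb : ∃ C, ∀ p ∈ tsupport h, ∀ q ∈ tsupport h, κ p q ≤ C)
    (hκ0 : ∀ p q, 0 ≤ κ p q) {s F : ℝ} {f : ℝ → ℝ}
    (hs : 0 ≤ s) (hf : Continuous f) (hf0 : ∀ a ∈ Icc (0 : ℝ) 1, 0 ≤ f a)
    (hκf : ∀ p q, p ≠ q → G.D h p ≠ 0 → G.D h q ≠ 0 → 0 < G.ang h p q → 0 < G.ang h q p →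
      G.ang h p q * G.ang h q p *
          (s * ‖G.lg p q‖ - (f (G.ang h p q) + f (G.ang h q p)) / 2) ≤
        κ p q * (|(G.T p (G.lg p q)).det| * ‖G.lg p q‖ ^ (n - 1)))
    (hF : ∀ e : E n, ‖e‖ = 1 →
      ∫ u : sphere (0 : E n) 1, f (max 0 (inner ℝ e (u : E n))) * max 0 (inner ℝ e (u : E n))
        ∂((volume : Measure (E n)).toSphere) ≤ F) :
    s * sig n * G.vol.real {x | h x = 1} - F * G.per h ≤ G.pairInt2 κ h := by
  have hn1 : 1 ≤ n := by omega
  obtain ⟨L₀, hL₀, hlen⟩ := exists_length G hc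
  -- `F ≥ 0`
  have hF0 : 0 ≤ F := by
    have he : ‖(EuclideanSpace.single (⟨0, by omega⟩ : Fin n) (1 : ℝ) : E n)‖ = 1 := by simp
    refine le_trans ?_ (hF _ he)
    apply integral_nonneg
    intro u
    have h1 : inner ℝ (EuclideanSpace.single (⟨0, by omega⟩ : Fin n) (1 : ℝ) : E n) (u : E n)
        ≤ 1 := by
      have := real_inner_le_norm
        (EuclideanSpace.single (⟨0, by omega⟩ : Fin n) (1 : ℝ) : E n) (u : E n)
      rw [he] at this
      simpa using this
    exact mul_nonneg (hf0 _ ⟨le_max_left _ _, max_le zero_le_one h1⟩) (le_max_left _ _)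
  have hper : 0 ≤ G.per h := integral_nonneg fun x => norm_nonneg _
  have hpair : 0 ≤ G.pairInt2 κ h := by
    unfold Geo.pairInt2
    exact integral_nonneg fun z => mul_nonneg (hκ0 _ _)
      (mul_nonneg (norm_nonneg _) (norm_nonneg _))
  have hsig : 0 ≤ sig n := measureReal_nonneg
  -- measurable sets
  have hA1 : MeasurableSet {x : E n | h x = 1} :=
    (isClosed_singleton.preimage hh.continuous).measurableSet
  have hA0 : MeasurableSet {x : E n | h x ≠ 0} :=
    (isOpen_ne.preimage hh.continuous).measurableSet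
  have hv1 : G.vol {x : E n | h x = 1} < ⊤ := tpi_meas_ind_lt_top G hc (by
    intro x hx hx0
    have hx1 : h x = 1 := hx
    rw [hx1] at hx0
    exact one_ne_zero hx0)
  have hv0 : G.vol {x : E n | h x ≠ 0} < ⊤ := tpi_meas_ind_lt_top G hc (fun x hx => hx)
  set F1 : E n → ℝ≥0∞ := {y | h y = 1}.indicator 1 with hF1
  set F0 : E n → ℝ≥0∞ := {y | h y ≠ 0}.indicator 1 with hF0'
  have hmF1 : Measurable F1 := measurable_one.indicator hA1
  have hmF0 : Measurable F0 := measurable_one.indicator hA0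
  have hmG := tpg_measurable_G G hκm hh
  have hmP := tpi_measurable_Phi G hf hh 1
  have hmM := tpi_measurable_Phi G hf hh (-1)
  -- values of the bundle integrals
  have hJ1 : tpiJ G (fun z => F1 z.1) =
      ENNReal.ofReal (sig n * G.vol.real {x | h x = 1}) := by
    rw [tpiJ_fst, hF1, lintegral_indicator_one hA1, ENNReal.ofReal_mul hsig, tpi_sig,
      ofReal_measureReal hv1.ne]
  have hJ0 : tpiJ G (fun z => F0 z.1) =
      ENNReal.ofReal (sig n * G.vol.real {x | h x ≠ 0}) := by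
    rw [tpiJ_fst, hF0', lintegral_indicator_one hA0, ENNReal.ofReal_mul hsig, tpi_sig,
      ofReal_measureReal hv0.ne]
  have hJG : tpiJ G (tpgG G κ h) ≤ ENNReal.ofReal (G.pairInt2 κ h) :=
    (tpg_pair G hn hh hc hκm hκb hκ0).le
  have hJP := tpi_J_Phi G hh hc hF0 hf hf0 hF (ε := 1) (by simp)
  have hJM := tpi_J_Phi G hh hc hF0 hf hf0 hF (ε := -1) (by simp)
  -- the limit
  have key : s * sig n * G.vol.real {x | h x = 1} ≤ G.pairInt2 κ h + F * G.per h := by
    apply tpi_real_limit (c := s * L₀ * (2 * (sig n * G.vol.real {x | h x ≠ 0})))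
    intro N hN
    obtain ⟨T, ⟨hT1, hT2⟩, hT3⟩ := tpi_exists_time G hn1 hmF0 hN
    have hT0 : 0 ≤ T := by linarith
    refine ⟨T, hT1, ?_⟩
    have hint := tpiJ_mono G
      (F := fun z => ENNReal.ofReal s * tpiW G (fun z => F1 z.1) 0 T z)
      (F' := fun z => (tpiW G (tpgG G κ h) 0 T z +
        (2⁻¹ * tpiW G (tpiPhi G f h 1) 0 T z + 2⁻¹ * tpiW G (tpiPhi G f h (-1)) 0 T z)) +
        ENNReal.ofReal (s * L₀) * (F0 z.1 + F0 (G.ex z.1 (T • z.2))))
      (fun x u hu => tpg_window G hh h01 hκm hs hf hf0 hκf hlen hT0 x u hu)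
    have hW1 := tpi_measurable_W G (F := fun z => F1 z.1) (hmF1.comp measurable_fst) 0 T
    have hWG := tpi_measurable_W G hmG 0 T
    have hWP := tpi_measurable_W G hmP 0 T
    have hWM := tpi_measurable_W G hmM 0 T
    have hB : Measurable fun z : E n × E n => F0 z.1 + F0 (G.ex z.1 (T • z.2)) := by
      apply (hmF0.comp measurable_fst).add
      apply hmF0.comp
      exact (G.ex_smooth.continuous.comp
        (continuous_fst.prodMk (continuous_snd.const_smul T))).measurable
    have hm2 : Measurable fun z : E n × E n => tpiW G (tpgG G κ h) 0 T z +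
        (2⁻¹ * tpiW G (tpiPhi G f h 1) 0 T z + 2⁻¹ * tpiW G (tpiPhi G f h (-1)) 0 T z) :=
      hWG.add ((hWP.const_mul _).add (hWM.const_mul _))
    have hm3 : Measurable fun z : E n × E n => 2⁻¹ * tpiW G (tpiPhi G f h 1) 0 T z :=
      hWP.const_mul _
    rw [tpiJ_const_mul G hW1, tpiJ_add G hm2,
      tpiJ_add G hWG, tpiJ_add G hm3, tpiJ_const_mul G hWP, tpiJ_const_mul G hWM,
      tpiJ_const_mul G hB, tpiJ_add G (F := fun z => F0 z.1) (hmF0.comp measurable_fst),
      tpiJ_W G hn1 (F := fun z => F1 z.1) (hmF1.comp measurable_fst) le_rfl hT0,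
      tpiJ_W G hn1 hmG le_rfl hT0,
      tpiJ_W G hn1 hmP le_rfl hT0, tpiJ_W G hn1 hmM le_rfl hT0, sub_zero] at hint
    have h2 : ENNReal.ofReal (T * (s * sig n * G.vol.real {x | h x = 1})) ≤
        ENNReal.ofReal (T * (G.pairInt2 κ h + F * G.per h) +
          s * L₀ * (2 * (sig n * G.vol.real {x | h x ≠ 0}))) := by
      calc ENNReal.ofReal (T * (s * sig n * G.vol.real {x | h x = 1}))
          = ENNReal.ofReal s * (ENNReal.ofReal T * tpiJ G (fun z => F1 z.1)) := by
            rw [hJ1, ← ENNReal.ofReal_mul hT0, ← ENNReal.ofReal_mul hs]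
            congr 1
            ring
        _ ≤ _ := hint
        _ ≤ ENNReal.ofReal T * ENNReal.ofReal (G.pairInt2 κ h) +
            (2⁻¹ * (ENNReal.ofReal T * ENNReal.ofReal (F * G.per h)) +
              2⁻¹ * (ENNReal.ofReal T * ENNReal.ofReal (F * G.per h))) +
            ENNReal.ofReal (s * L₀) * (ENNReal.ofReal (sig n * G.vol.real {x | h x ≠ 0}) +
              ENNReal.ofReal (sig n * G.vol.real {x | h x ≠ 0})) := by
            gcongr
            · exact hJ0.le
            · exact hT3.trans hJ0.le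
        _ = _ := by
            rw [← add_mul, ENNReal.inv_two_add_inv_two, one_mul,
              ← ENNReal.ofReal_mul hT0, ← ENNReal.ofReal_mul hT0, ← ENNReal.ofReal_add,
              ← ENNReal.ofReal_add, ← ENNReal.ofReal_mul, ← ENNReal.ofReal_add]
            · congr 1
              ring
            all_goals positivity
    have h3 : 0 ≤ T * (G.pairInt2 κ h + F * G.per h) +
          s * L₀ * (2 * (sig n * G.vol.real {x | h x ≠ 0})) := by
      positivity
    exact (ENNReal.ofReal_le_ofReal_iff h3).1 h2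
  linarith

end Vale.Agent.P219.TP
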