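import Vale.Agent.P219.TPR.CertR
import Vale.Agent.P219.TPR.TwoPointGen
import Vale.Agent.P219.TPR.NearMin

/-! # Auxiliary results for the equality case for a pair of boundary points -/

open MeasureTheory Set Metric Filter Topology
open scoped ENNReal ContDiff

namespace Vale.Agent.P219.TP

variable {n : ℕ} (G : Geo n)

/-- Cosine of the angle at `x` between `N x` and the direction of `y`. -/
noncomputable def rgpA (N : E n → E n) (x y : E n) : ℝ :=
  inner ℝ (G.lg x y) (N x) / ‖G.lg x y‖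

theorem rgp_ang {h : E n → ℝ} {N : E n → E n} {x : E n} (y : E n)
    (hN : G.D h x = ‖G.D h x‖ • N x) (hD : G.D h x ≠ 0) : G.ang h x y = rgpA G N x y := by
  unfold Geo.ang rgpA
  have h1 : ‖G.D h x‖ ≠ 0 := norm_ne_zero_iff.2 hD
  have h2 : inner ℝ (G.lg x y) (G.D h x) = ‖G.D h x‖ * inner ℝ (G.lg x y) (N x) := by
    conv_lhs => rw [hN]
    rw [inner_smul_right]
  rw [h2, mul_comm ‖G.lg x y‖, mul_div_mul_left _ _ h1]

theorem rgp_abs_le {N : E n → E n} {x : E n} (y : E n) (hN : ‖N x‖ = 1) :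
    |rgpA G N x y| ≤ 1 := by
  have h := abs_real_inner_div_norm_mul_norm_le_one (G.lg x y) (N x)
  rw [hN, mul_one] at h
  exact h

theorem rgp_lg_pos {p q : E n} (hpq : p ≠ q) : 0 < ‖G.lg p q‖ :=
  norm_pos_iff.2 fun h => hpq (G.lg_eq_zero.1 h)

theorem rgp_cont_A {N : E n → E n} {p q : E n} (hpq : p ≠ q) (hN : ContinuousAt N p) :
    ContinuousAt (fun z : E n × E n => rgpA G N z.1 z.2) (p, q) := by
  unfold rgpA
  have h1 : ContinuousAt (fun z : E n × E n => G.lg z.1 z.2) (p, q) :=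
    G.lg_smooth.continuous.continuousAt
  have h2 : ContinuousAt (fun z : E n × E n => N z.1) (p, q) :=
    ContinuousAt.comp (g := N) (f := Prod.fst) hN continuousAt_fst
  exact (h1.inner h2).div h1.norm (rgp_lg_pos G hpq).ne'

theorem rgp_cont_A' {N : E n → E n} {p q : E n} (hpq : p ≠ q) (hN : ContinuousAt N q) :
    ContinuousAt (fun z : E n × E n => rgpA G N z.2 z.1) (p, q) := by
  unfold rgpA
  have h1 : ContinuousAt (fun z : E n × E n => G.lg z.2 z.1) (p, q) :=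
    (G.lg_smooth.continuous.comp continuous_swap).continuousAt
  have h2 : ContinuousAt (fun z : E n × E n => N z.2) (p, q) :=
    ContinuousAt.comp (g := N) (f := Prod.snd) hN continuousAt_snd
  exact (h1.inner h2).div h1.norm (rgp_lg_pos G hpq.symm).ne'

theorem rgp_cont_J (p q : E n) :
    ContinuousAt (fun z : E n × E n => |(G.T z.1 (G.lg z.1 z.2)).det|) (p, q) := by
  have h1 : Continuous fun z : E n × E n => G.T z.1 (G.lg z.1 z.2) :=
    G.T_smooth.continuous.comp (continuous_fst.prodMk G.lg_smooth.continuous)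
  exact (ContinuousLinearMap.continuous_det.comp h1).abs.continuousAt

/-- Strict inequality at the pair if the conclusion fails. -/
theorem rgp_strict (C : CertR n) {R : ℝ} (hR : 0 < R) {N : E n → E n} {p q : E n}
    (hpq : p ≠ q) (hp1 : ‖N p‖ = 1) (hq1 : ‖N q‖ = 1)
    (hcon : ¬ (2 * R * inner ℝ (G.lg p q) (N p) = ‖G.lg p q‖ ^ 2 ∧
      2 * R * inner ℝ (G.lg q p) (N q) = ‖G.lg p q‖ ^ 2 ∧
      |(G.T p (G.lg p q)).det| = 1)) :
    max (rgpA G N p q) 0 * max (rgpA G N q p) 0 * (C.s * (‖G.lg p q‖ / R) -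
        (C.f (rgpA G N p q) + C.f (rgpA G N q p)) / 2) <
      C.K (‖G.lg p q‖ / R) (rgpA G N p q) (rgpA G N q p) *
        (|(G.T p (G.lg p q)).det| * (‖G.lg p q‖ / R) ^ (n - 1)) := by
  have hl := rgp_lg_pos G hpq
  have hl' : ‖G.lg q p‖ = ‖G.lg p q‖ := G.norm_lg_comm q p
  have hJ : 1 ≤ |(G.T p (G.lg p q)).det| := G.one_le_J _ _
  have ha := rgp_abs_le G q hp1
  have hb := rgp_abs_le G p hq1
  have haE : inner ℝ (G.lg p q) (N p) = rgpA G N p q * ‖G.lg p q‖ := by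
    unfold rgpA
    field_simp
  have hbE : inner ℝ (G.lg q p) (N q) = rgpA G N q p * ‖G.lg p q‖ := by
    unfold rgpA
    rw [hl']
    field_simp
  rw [haE, hbE] at hcon
  generalize rgpA G N p q = a at *
  generalize rgpA G N q p = b at *
  generalize |(G.T p (G.lg p q)).det| = J at *
  generalize ‖G.lg p q‖ = l at *
  have hr : 0 < l / R := by positivity
  have hK := C.K_pos (l / R) a b hr ha hb
  have hJ0 : 0 < J := by linarith
  have hrm : 0 < (l / R) ^ (n - 1) := by positivity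
  have hpos : 0 < C.K (l / R) a b * (J * (l / R) ^ (n - 1)) := by positivity
  by_cases ha0 : a ≤ 0
  · rw [max_eq_right ha0, zero_mul, zero_mul]
    exact hpos
  by_cases hb0 : b ≤ 0
  · rw [max_eq_right hb0, mul_zero, zero_mul]
    exact hpos
  rw [not_le] at ha0 hb0
  rw [max_eq_left ha0.le, max_eq_left hb0.le]
  have ha1 := (abs_le.1 ha).2
  have hb1 := (abs_le.1 hb).2
  have h1 := C.K_PI (l / R) a b hr ha0 ha1 hb0 hb1
  have h2 : C.K (l / R) a b * (J * (l / R) ^ (n - 1)) =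
      J * (C.K (l / R) a b * (l / R) ^ (n - 1)) := by ring
  rw [h2]
  have h3 : 0 < C.K (l / R) a b * (l / R) ^ (n - 1) := by positivity
  rcases h1.lt_or_eq with h4 | h4
  · nlinarith
  · have h5 := C.K_eq (l / R) a b hr ha0 ha1 hb0 hb1 h4.symm
    have h6 : J ≠ 1 := by
      intro hJ1
      apply hcon
      refine ⟨?_, ?_, hJ1⟩
      · have := h5.1
        rw [div_eq_iff hR.ne'] at this
        calc 2 * R * (a * l) = (2 * a * R) * l := by ring
          _ = l ^ 2 := by rw [← this]; ring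
      · have := h5.2
        rw [div_eq_iff hR.ne'] at this
        calc 2 * R * (b * l) = (2 * b * R) * l := by ring
          _ = l ^ 2 := by rw [← this]; ring
    have h7 : 1 < J := lt_of_le_of_ne hJ (Ne.symm h6)
    rw [h4]
    nlinarith

/-- The strict inequality persists near the pair. -/
theorem rgp_local (C : CertR n) {R : ℝ} (hR : 0 < R) {N : E n → E n} {p q : E n}
    (hpq : p ≠ q) (hNp : ContinuousAt N p) (hNq : ContinuousAt N q) (hp1 : ‖N p‖ = 1)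
    (hq1 : ‖N q‖ = 1)
    (hcon : ¬ (2 * R * inner ℝ (G.lg p q) (N p) = ‖G.lg p q‖ ^ 2 ∧
      2 * R * inner ℝ (G.lg q p) (N q) = ‖G.lg p q‖ ^ 2 ∧
      |(G.T p (G.lg p q)).det| = 1)) :
    ∃ c > 0, ∃ r₀ > 0, ∀ᶠ z : (E n × E n) × ℝ in 𝓝 ((p, q), R),
      r₀ ≤ ‖G.lg z.1.1 z.1.2‖ / z.2 ∧
      c ≤ C.K (‖G.lg z.1.1 z.1.2‖ / z.2) (rgpA G N z.1.1 z.1.2) (rgpA G N z.1.2 z.1.1) ∧
      max (rgpA G N z.1.1 z.1.2) 0 * max (rgpA G N z.1.2 z.1.1) 0 *
        (C.s * (‖G.lg z.1.1 z.1.2‖ / z.2) -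
          (C.f (rgpA G N z.1.1 z.1.2) + C.f (rgpA G N z.1.2 z.1.1)) / 2) ≤
      (C.K (‖G.lg z.1.1 z.1.2‖ / z.2) (rgpA G N z.1.1 z.1.2) (rgpA G N z.1.2 z.1.1) - c) *
        (|(G.T z.1.1 (G.lg z.1.1 z.1.2)).det| * (‖G.lg z.1.1 z.1.2‖ / z.2) ^ (n - 1)) := by
  have hs := rgp_strict G C hR hpq hp1 hq1 hcon
  have hl := rgp_lg_pos G hpq
  have hr : 0 < ‖G.lg p q‖ / R := by positivity
  have hJ : 1 ≤ |(G.T p (G.lg p q)).det| := G.one_le_J _ _
  have hK := C.K_pos (‖G.lg p q‖ / R) (rgpA G N p q) (rgpA G N q p) hr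
    (rgp_abs_le G q hp1) (rgp_abs_le G p hq1)
  have cr : ContinuousAt (fun z : (E n × E n) × ℝ => ‖G.lg z.1.1 z.1.2‖ / z.2) ((p, q), R) := by
    have h1 : Continuous fun z : (E n × E n) × ℝ => ‖G.lg z.1.1 z.1.2‖ :=
      (G.lg_smooth.continuous.comp continuous_fst).norm
    exact h1.continuousAt.div continuous_snd.continuousAt hR.ne'
  have ca : ContinuousAt (fun z : (E n × E n) × ℝ => rgpA G N z.1.1 z.1.2) ((p, q), R) :=
    ContinuousAt.comp (g := fun z : E n × E n => rgpA G N z.1 z.2) (f := Prod.fst)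
      (rgp_cont_A G hpq hNp) continuousAt_fst
  have cb : ContinuousAt (fun z : (E n × E n) × ℝ => rgpA G N z.1.2 z.1.1) ((p, q), R) :=
    ContinuousAt.comp (g := fun z : E n × E n => rgpA G N z.2 z.1) (f := Prod.fst)
      (rgp_cont_A' G hpq hNq) continuousAt_fst
  have cJ : ContinuousAt (fun z : (E n × E n) × ℝ => |(G.T z.1.1 (G.lg z.1.1 z.1.2)).det|)
      ((p, q), R) :=
    ContinuousAt.comp (g := fun z : E n × E n => |(G.T z.1 (G.lg z.1 z.2)).det|) (f := Prod.fst)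
      (rgp_cont_J G p q) continuousAt_fst
  have cK : ContinuousAt (fun z : (E n × E n) × ℝ => C.K (‖G.lg z.1.1 z.1.2‖ / z.2)
      (rgpA G N z.1.1 z.1.2) (rgpA G N z.1.2 z.1.1)) ((p, q), R) := by
    have h1 : ContinuousAt (fun w : ℝ × ℝ × ℝ => C.K w.1 w.2.1 w.2.2)
        (‖G.lg p q‖ / R, rgpA G N p q, rgpA G N q p) :=
      C.K_cont.continuousAt ((isOpen_lt continuous_const continuous_fst).mem_nhds hr)
    exact ContinuousAt.comp (g := fun w : ℝ × ℝ × ℝ => C.K w.1 w.2.1 w.2.2)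
      (f := fun z : (E n × E n) × ℝ => (‖G.lg z.1.1 z.1.2‖ / z.2, rgpA G N z.1.1 z.1.2,
        rgpA G N z.1.2 z.1.1)) h1 (cr.prodMk (ca.prodMk cb))
  have cD : ContinuousAt (fun z : (E n × E n) × ℝ => |(G.T z.1.1 (G.lg z.1.1 z.1.2)).det| *
      (‖G.lg z.1.1 z.1.2‖ / z.2) ^ (n - 1)) ((p, q), R) := cJ.mul (cr.pow _)
  have cL : ContinuousAt (fun z : (E n × E n) × ℝ =>
      max (rgpA G N z.1.1 z.1.2) 0 * max (rgpA G N z.1.2 z.1.1) 0 *
        (C.s * (‖G.lg z.1.1 z.1.2‖ / z.2) -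
          (C.f (rgpA G N z.1.1 z.1.2) + C.f (rgpA G N z.1.2 z.1.1)) / 2)) ((p, q), R) := by
    have f1 : ContinuousAt (fun z : (E n × E n) × ℝ => C.f (rgpA G N z.1.1 z.1.2))
        ((p, q), R) :=
      ContinuousAt.comp (g := C.f) (f := fun z : (E n × E n) × ℝ => rgpA G N z.1.1 z.1.2)
        C.f_cont.continuousAt ca
    have f2 : ContinuousAt (fun z : (E n × E n) × ℝ => C.f (rgpA G N z.1.2 z.1.1))
        ((p, q), R) :=
      ContinuousAt.comp (g := C.f) (f := fun z : (E n × E n) × ℝ => rgpA G N z.1.2 z.1.1)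
        C.f_cont.continuousAt cb
    exact ((ca.max continuousAt_const).mul (cb.max continuousAt_const)).mul
      ((continuousAt_const.mul cr).sub ((f1.add f2).div_const 2))
  have hD0 : 0 < |(G.T p (G.lg p q)).det| * (‖G.lg p q‖ / R) ^ (n - 1) := by
    have : 0 < |(G.T p (G.lg p q)).det| := by linarith
    positivity
  obtain ⟨K0, hK0⟩ : ∃ K0, K0 = C.K (‖G.lg p q‖ / R) (rgpA G N p q) (rgpA G N q p) := ⟨_, rfl⟩
  obtain ⟨D0, hDd⟩ : ∃ D0, D0 = |(G.T p (G.lg p q)).det| * (‖G.lg p q‖ / R) ^ (n - 1) :=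
    ⟨_, rfl⟩
  obtain ⟨L0, hL0⟩ : ∃ L0, L0 = max (rgpA G N p q) 0 * max (rgpA G N q p) 0 *
      (C.s * (‖G.lg p q‖ / R) - (C.f (rgpA G N p q) + C.f (rgpA G N q p)) / 2) := ⟨_, rfl⟩
  rw [← hK0, ← hDd, ← hL0] at hs
  rw [← hK0] at hK
  rw [← hDd] at hD0
  have hg : 0 < K0 * D0 - L0 := by linarith
  obtain ⟨c, hc⟩ : ∃ c, c = min (K0 / 2) ((K0 * D0 - L0) / (2 * D0)) := ⟨_, rfl⟩
  have hc0 : 0 < c := by rw [hc]; positivity
  have hc1 : c < K0 := by
    have : c ≤ K0 / 2 := hc ▸ min_le_left _ _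
    linarith
  have hc2 : L0 < (K0 - c) * D0 := by
    have h1 : c ≤ (K0 * D0 - L0) / (2 * D0) := hc ▸ min_le_right _ _
    rw [le_div_iff₀ (by positivity)] at h1
    nlinarith
  refine ⟨c, hc0, ‖G.lg p q‖ / R / 2, by positivity, ?_⟩
  have e1 := Filter.Tendsto.eventually_const_lt (u := ‖G.lg p q‖ / R / 2)
    (v := ‖G.lg p q‖ / R) (by linarith) cr
  have e2 := Filter.Tendsto.eventually_const_lt (u := c)
    (v := C.K (‖G.lg p q‖ / R) (rgpA G N p q) (rgpA G N q p)) (by rw [← hK0]; exact hc1) cK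
  have c3 := ((cK.sub (continuousAt_const (y := c))).mul cD).sub cL
  have e3 := Filter.Tendsto.eventually_const_lt (u := 0) (v := (K0 - c) * D0 - L0)
    (by linarith) (by rw [hK0, hDd, hL0]; exact c3)
  filter_upwards [e1, e2, e3] with z h1 h2 h3
  exact ⟨h1.le, h2.le, (sub_pos.1 h3).le⟩

/-- The modified kernel. -/
noncomputable def rgpK (Φ : ℝ × ℝ → ℝ) (lam R c : ℝ) (S : Set (E n × E n)) (h : E n → ℝ)
    (x y : E n) : ℝ :=
  ker (n - 1) Φ lam (‖G.lg x y‖ / R) (G.ang h x y) (G.ang h y x) - S.indicator (fun _ => c) (x, y)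

theorem rgpK_mem {Φ : ℝ × ℝ → ℝ} {lam R c : ℝ} {S : Set (E n × E n)} {h : E n → ℝ}
    {x y : E n} (hxy : (x, y) ∈ S) : rgpK G Φ lam R c S h x y =
      ker (n - 1) Φ lam (‖G.lg x y‖ / R) (G.ang h x y) (G.ang h y x) - c := by
  unfold rgpK
  rw [indicator_of_mem hxy]

theorem rgpK_notMem {Φ : ℝ × ℝ → ℝ} {lam R c : ℝ} {S : Set (E n × E n)} {h : E n → ℝ}
    {x y : E n} (hxy : (x, y) ∉ S) : rgpK G Φ lam R c S h x y =
      ker (n - 1) Φ lam (‖G.lg x y‖ / R) (G.ang h x y) (G.ang h y x) := by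
  unfold rgpK
  rw [indicator_of_notMem hxy, sub_zero]

theorem rgpK_measurable {Φ : ℝ × ℝ → ℝ} {δ : ℝ} (hδ : 0 < δ)
    (hΦ : ContDiffOn ℝ ∞ Φ {p | -δ < p.1}) (lam R c : ℝ) {S : Set (E n × E n)}
    (hS : MeasurableSet S) {h : E n → ℝ} (hh : ContDiff ℝ 1 h) :
    Measurable fun z : E n × E n => rgpK G Φ lam R c S h z.1 z.2 := by
  have h1 := measurable_ang G hh
  have h2 : Measurable fun z : E n × E n => G.ang h z.2 z.1 := by
    have h3 := h1.comp measurable_swap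
    exact h3
  have h3 : Measurable fun z : E n × E n => ‖G.lg z.1 z.2‖ :=
    G.lg_smooth.continuous.norm.measurable
  have h4 : Measurable fun z : E n × E n => (‖G.lg z.1 z.2‖, G.ang h z.1 z.2, G.ang h z.2 z.1) :=
    h3.prodMk (h1.prodMk h2)
  have h5 := (continuous_ker hδ hΦ (n - 1) lam R).measurable.comp h4
  have h6 : Measurable fun z : E n × E n => S.indicator (fun _ => c) (z.1, z.2) := by
    have h7 : Measurable (S.indicator (fun _ : E n × E n => c)) :=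
      (measurable_const (a := c)).indicator hS
    exact h7
  exact h5.sub h6

/-- The open set of pairs. -/
def rgpS (h : E n → ℝ) (U V : Set (E n)) : Set (E n × E n) :=
  (U ∩ {x | G.D h x ≠ 0}) ×ˢ (V ∩ {x | G.D h x ≠ 0})

theorem rgpS_measurable {h : E n → ℝ} (hh : ContDiff ℝ 1 h) {U V : Set (E n)} (hU : IsOpen U)
    (hV : IsOpen V) : MeasurableSet (rgpS G h U V) := by
  have hDc : Continuous (G.D h) := sob_continuous_D G hh
  have hDo : IsOpen {x | G.D h x ≠ 0} := isOpen_ne.preimage hDc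
  exact ((hU.inter hDo).prod (hV.inter hDo)).measurableSet

theorem rgp_split {Φ : ℝ × ℝ → ℝ} (lam R c : ℝ) (h : E n → ℝ) (U V : Set (E n))
    (z : E n × E n) :
    rgpK G Φ lam R c (rgpS G h U V) h z.1 z.2 * (‖G.D h z.1‖ * ‖G.D h z.2‖) =
      ker (n - 1) Φ lam (‖G.lg z.1 z.2‖ / R) (G.ang h z.1 z.2) (G.ang h z.2 z.1) *
        (‖G.D h z.1‖ * ‖G.D h z.2‖) - c * (U.indicator (fun y => ‖G.D h y‖) z.1 *
        V.indicator (fun y => ‖G.D h y‖) z.2) := by
  obtain ⟨x, y⟩ := z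
  simp only
  by_cases hxy : (x, y) ∈ rgpS G h U V
  · rw [rgpK_mem G hxy, indicator_of_mem hxy.1.1, indicator_of_mem hxy.2.1]
    ring
  · rw [rgpK_notMem G hxy]
    have : U.indicator (fun y => ‖G.D h y‖) x * V.indicator (fun y => ‖G.D h y‖) y = 0 := by
      unfold rgpS at hxy
      rw [mem_prod, not_and_or] at hxy
      rcases hxy with hx | hy
      · by_cases hxU : x ∈ U
        · have hx0 : G.D h x = 0 := by
            by_contra hne
            exact hx ⟨hxU, hne⟩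
          rw [indicator_of_mem hxU, hx0, norm_zero, zero_mul]
        · rw [indicator_of_notMem hxU, zero_mul]
      · by_cases hyV : y ∈ V
        · have hy0 : G.D h y = 0 := by
            by_contra hne
            exact hy ⟨hyV, hne⟩
          rw [indicator_of_mem hyV, hy0, norm_zero, mul_zero]
        · rw [indicator_of_notMem hyV, mul_zero]
    rw [this, mul_zero, sub_zero]

theorem rgp_pairInt2 {Φ : ℝ × ℝ → ℝ} {δ : ℝ} (hδ : 0 < δ)
    (hΦ : ContDiffOn ℝ ∞ Φ {p | -δ < p.1}) (lam R c : ℝ) {h : E n → ℝ} (hh : ContDiff ℝ 1 h)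
    (hcc : HasCompactSupport h) {U V : Set (E n)} (hU : IsOpen U) (hV : IsOpen V) :
    G.pairInt2 (rgpK G Φ lam R c (rgpS G h U V) h) h =
      G.pairInt (fun r a b => ker (n - 1) Φ lam (r / R) a b) h -
        c * ((∫ y in U, ‖G.D h y‖ ∂G.vol) * ∫ y in V, ‖G.D h y‖ ∂G.vol) := by
  have hkc := continuous_ker hδ hΦ (n - 1) lam R
  have hkb := bounded_of_continuous (κ := fun r a b => ker (n - 1) Φ lam (r / R) a b) hkc
  have i1 : Integrable (fun z : E n × E n => ker (n - 1) Φ lam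
      (‖G.lg z.1 z.2‖ / R) (G.ang h z.1 z.2) (G.ang h z.2 z.1) *
      (‖G.D h z.1‖ * ‖G.D h z.2‖)) (G.vol.prod G.vol) :=
    integrable_pair G hh hcc (κ := fun r a b => ker (n - 1) Φ lam (r / R) a b)
      hkc.measurable hkb
  have i2 : Integrable (U.indicator fun y => ‖G.D h y‖) G.vol :=
    (integrable_D G hh hcc).indicator hU.measurableSet
  have i3 : Integrable (V.indicator fun y => ‖G.D h y‖) G.vol :=
    (integrable_D G hh hcc).indicator hV.measurableSet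
  have i4 : Integrable (fun z : E n × E n => U.indicator (fun y => ‖G.D h y‖) z.1 *
      V.indicator (fun y => ‖G.D h y‖) z.2) (G.vol.prod G.vol) := i2.mul_prod i3
  unfold Geo.pairInt2
  rw [integral_congr_ae (Filter.Eventually.of_forall (rgp_split G lam R c h U V)),
    integral_sub i1 (i4.const_mul c), integral_const_mul,
    integral_prod_mul (U.indicator fun y => ‖G.D h y‖) (V.indicator fun y => ‖G.D h y‖),
    integral_indicator hU.measurableSet, integral_indicator hV.measurableSet]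
  rfl

/-- Pointwise inequality, in numbers. -/
theorem rgp_num {s ε K k c J ρ fa fb a b : ℝ} (ha : 0 < a) (hb : 0 < b) (hε : 0 < ε)
    (hJ : 0 ≤ J) (hρ : 0 ≤ ρ) (hKk : K ≤ k)
    (h4 : a * b * (s - (fa + fb) / 2) ≤ (K - c) * (J * ρ)) :
    a * b * (s - (fa + fb) / 2 - ε) ≤ (k - c) * (J * ρ) := by
  have h6 : (K - c) * (J * ρ) ≤ (k - c) * (J * ρ) := by
    have : 0 ≤ J * ρ := by positivity
    gcongr
  have h7 : 0 ≤ a * b * ε := by positivity
  have h8 : a * b * (s - (fa + fb) / 2 - ε) = a * b * (s - (fa + fb) / 2) - a * b * ε := by ring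
  rw [h8]
  linarith

theorem rgp_num2 {s ε k J ρ fa fb a b : ℝ} (hJ : 1 ≤ J) (hρ : 0 ≤ ρ) (hk : 0 ≤ k)
    (h4 : a * b * (s - (fa + fb) / 2 - ε) ≤ k * ρ) :
    a * b * (s - (fa + fb) / 2 - ε) ≤ k * (J * ρ) := by
  refine h4.trans ?_
  calc k * ρ = k * (1 * ρ) := by rw [one_mul]
    _ ≤ _ := by gcongr

theorem rgp_num3 {m : ℕ} {s ε κ J l R fa fb a b : ℝ} (hR : 0 < R)
    (h : a * b * (s * (l / R) - (fa + fb) / 2 - ε) ≤ κ * (J * (l / R) ^ m)) :
    a * b * (R ^ m * (s / R) * l - (R ^ m * (fa + ε) + R ^ m * (fb + ε)) / 2) ≤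
      κ * (J * l ^ m) := by
  have h0 : 0 < R ^ m := by positivity
  have h1 : l ^ m = R ^ m * (l / R) ^ m := by
    rw [div_pow]; field_simp
  calc a * b * (R ^ m * (s / R) * l - (R ^ m * (fa + ε) + R ^ m * (fb + ε)) / 2)
      = R ^ m * (a * b * (s * (l / R) - (fa + fb) / 2 - ε)) := by ring
    _ ≤ R ^ m * (κ * (J * (l / R) ^ m)) := by gcongr
    _ = κ * (J * l ^ m) := by rw [h1]; ring

/-- The two-point inequality with the gain from a pair of open sets. -/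
theorem rgp_step (hn : 2 ≤ n) (C : CertR n) {ε r₀ c : ℝ} (hε : 0 < ε)
    {Φ : ℝ × ℝ → ℝ} {δ : ℝ} (hδ : 0 < δ) (hΦ : ContDiffOn ℝ ∞ Φ {p | -δ < p.1})
    (hK0 : ∀ r a b : ℝ, 0 ≤ r → |a| ≤ 1 → |b| ≤ 1 → 0 ≤ ker (n - 1) Φ (C.lam + ε) r a b)
    (hKP : ∀ r a b : ℝ, 0 < r → 0 ≤ a → a ≤ 1 → 0 ≤ b → b ≤ 1 →
      a * b * (C.s * r - (C.f a + C.f b) / 2 - ε) ≤
        ker (n - 1) Φ (C.lam + ε) r a b * r ^ (n - 1))
    (hKK : ∀ r a b : ℝ, r₀ ≤ r → |a| ≤ 1 → |b| ≤ 1 →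
      C.K r a b ≤ ker (n - 1) Φ (C.lam + ε) r a b)
    {o : E n} {ρ₀ R : ℝ} (hR : 0 < R) {h : E n → ℝ} (hcls : G.Cls o ρ₀ h)
    {U V : Set (E n)} (hU : IsOpen U) (hV : IsOpen V)
    (hloc : ∀ x ∈ U, ∀ y ∈ V, G.D h x ≠ 0 → G.D h y ≠ 0 → r₀ ≤ ‖G.lg x y‖ / R ∧
      c ≤ C.K (‖G.lg x y‖ / R) (G.ang h x y) (G.ang h y x) ∧
      max (G.ang h x y) 0 * max (G.ang h y x) 0 *
        (C.s * (‖G.lg x y‖ / R) - (C.f (G.ang h x y) + C.f (G.ang h y x)) / 2) ≤
      (C.K (‖G.lg x y‖ / R) (G.ang h x y) (G.ang h y x) - c) *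
        (|(G.T x (G.lg x y)).det| * (‖G.lg x y‖ / R) ^ (n - 1))) :
    R ^ (n - 1) * (C.s / R) * sig n * G.vol.real {x | h x = 1} -
      R ^ (n - 1) * ((C.F + ε) * sig n) * G.per h +
      c * ((∫ y in U, ‖G.D h y‖ ∂G.vol) * ∫ y in V, ‖G.D h y‖ ∂G.vol) ≤
      G.pairInt (fun r a b => ker (n - 1) Φ (C.lam + ε) (r / R) a b) h := by
  have hcc : HasCompactSupport h := Cls.compact G hcls
  have hkc := continuous_ker hδ hΦ (n - 1) (C.lam + ε) R
  have hkb := bounded_of_continuous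
      (κ := fun r a b => ker (n - 1) Φ (C.lam + ε) (r / R) a b) hkc
  have hRm : 0 < R ^ (n - 1) := by positivity
  have hgen := two_point_gen G hn hcls.smooth hcc (fun x => ⟨hcls.nonneg x, hcls.le_one x⟩)
    (κ := rgpK G Φ (C.lam + ε) R c (rgpS G h U V) h)
    (s := R ^ (n - 1) * (C.s / R)) (F := R ^ (n - 1) * ((C.F + ε) * sig n))
    (f := fun a => R ^ (n - 1) * (C.f a + ε))
    (rgpK_measurable G hδ hΦ _ R c (rgpS_measurable G hcls.smooth hU hV) hcls.smooth)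
    ?_ ?_ ?_ ?_ ?_ ?_ ?_
  · rw [rgp_pairInt2 G hδ hΦ _ R c hcls.smooth hcc hU hV] at hgen
    linarith
  · -- boundedness
    obtain ⟨B, hB⟩ := hkb (2 * ρ₀)
    refine ⟨B + |c|, fun x hx y hy => ?_⟩
    have h1 := hB ‖G.lg x y‖ (G.ang h x y) (G.ang h y x) (norm_nonneg _)
      (lg_le_two G (Cls.tsupport_sub G hcls hx) (Cls.tsupport_sub G hcls hy))
      (abs_ang_le G h _ _) (abs_ang_le G h _ _)
    have h2 := le_abs_self (ker (n - 1) Φ (C.lam + ε) (‖G.lg x y‖ / R) (G.ang h x y)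
      (G.ang h y x))
    have h3 := neg_abs_le c
    have h4 := abs_nonneg c
    by_cases hxy : (x, y) ∈ rgpS G h U V
    · rw [rgpK_mem G hxy]; linarith
    · rw [rgpK_notMem G hxy]; linarith
  · -- positivity
    intro x y
    by_cases hxy : (x, y) ∈ rgpS G h U V
    · rw [rgpK_mem G hxy]
      obtain ⟨h1, h2, _⟩ := hloc x hxy.1.1 y hxy.2.1 hxy.1.2 hxy.2.2
      have h3 := hKK _ _ _ h1 (abs_ang_le G h x y) (abs_ang_le G h y x)
      linarith
    · rw [rgpK_notMem G hxy]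
      exact hK0 _ _ _ (by positivity) (abs_ang_le G h x y) (abs_ang_le G h y x)
  · have := C.s_nonneg
    positivity
  · exact continuous_const.mul (C.f_cont.add continuous_const)
  · intro a ha
    have := C.f_nonneg a ha
    positivity
  · -- the pointwise inequality
    intro x y hxy hDx hDy hax hay
    have hl := rgp_lg_pos G hxy
    have hr : 0 < ‖G.lg x y‖ / R := by positivity
    have hax1 := (abs_le.1 (abs_ang_le G h x y)).2
    have hay1 := (abs_le.1 (abs_ang_le G h y x)).2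
    have hJ : 1 ≤ |(G.T x (G.lg x y)).det| := G.one_le_J _ _
    refine rgp_num3 hR ?_
    have h0 := hK0 (‖G.lg x y‖ / R) (G.ang h x y) (G.ang h y x) hr.le
      (abs_ang_le G h x y) (abs_ang_le G h y x)
    have h1 := hKP (‖G.lg x y‖ / R) (G.ang h x y) (G.ang h y x) hr hax.le hax1 hay.le hay1
    have hrm : 0 ≤ (‖G.lg x y‖ / R) ^ (n - 1) := by positivity
    by_cases hS' : (x, y) ∈ rgpS G h U V
    · rw [rgpK_mem G hS']
      obtain ⟨h2, h3, h4⟩ := hloc x hS'.1.1 y hS'.2.1 hS'.1.2 hS'.2.2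
      have h5 := hKK _ _ _ h2 (abs_ang_le G h x y) (abs_ang_le G h y x)
      rw [max_eq_left hax.le, max_eq_left hay.le] at h4
      exact rgp_num hax hay hε (by linarith) hrm h5 h4
    · rw [rgpK_notMem G hS']
      exact rgp_num2 hJ hrm h0 h1
  · intro e he
    exact sphere_F_le C.toCert hε hR he

end Vale.Agent.P219.TP
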