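import Vale.Agent.P219.TP.Defs

/-! # Certificates with the strictness needed for the equality case -/

open MeasureTheory Set Metric
open scoped ENNReal ContDiff

namespace Vale.Agent.P219.TP

/-- Certificate with strictness away from the pairs of points of the unit sphere. `K` is the exact
kernel, approximated from above by smooth ones away from `r = 0`. -/
structure CertR (n : ℕ) extends Cert n where
  K : ℝ → ℝ → ℝ → ℝ
  K_cont : ContinuousOn (fun z : ℝ × ℝ × ℝ => K z.1 z.2.1 z.2.2) {z | 0 < z.1}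
  /-- the inequality for pairs facing each other -/
  K_PI : ∀ r a b : ℝ, 0 < r → 0 < a → a ≤ 1 → 0 < b → b ≤ 1 →
    a * b * (s * r - (f a + f b) / 2) ≤ K r a b * r ^ (n - 1)
  /-- equality only for the chords of the unit sphere -/
  K_eq : ∀ r a b : ℝ, 0 < r → 0 < a → a ≤ 1 → 0 < b → b ≤ 1 →
    K r a b * r ^ (n - 1) = a * b * (s * r - (f a + f b) / 2) → r = 2 * a ∧ r = 2 * b
  K_pos : ∀ r a b : ℝ, 0 < r → |a| ≤ 1 → |b| ≤ 1 → 0 < K r a b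
  approxR : ∀ ε > 0, ∀ r₀ > 0, ∃ Φ : ℝ × ℝ → ℝ, ∃ δ > 0, ContDiffOn ℝ ∞ Φ {p | -δ < p.1} ∧
    (∀ p : ℝ × ℝ, 0 ≤ p.1 → 0 ≤ Φ p) ∧
    (∀ r a b : ℝ, 0 ≤ r → |a| ≤ 1 → |b| ≤ 1 → 0 ≤ ker (n - 1) Φ (lam + ε) r a b) ∧
    (∀ r a b : ℝ, 0 < r → 0 ≤ a → a ≤ 1 → 0 ≤ b → b ≤ 1 →
      a * b * (s * r - (f a + f b) / 2 - ε) ≤ ker (n - 1) Φ (lam + ε) r a b * r ^ (n - 1)) ∧
    ∀ r a b : ℝ, r₀ ≤ r → |a| ≤ 1 → |b| ≤ 1 → K r a b ≤ ker (n - 1) Φ (lam + ε) r a b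

end Vale.Agent.P219.TP
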