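import Vale.Agent.P219.TPR.CertR
import Vale.Agent.P219.TP.CertTwelve

set_option linter.all false

/-! # The certificate with strictness in dimension 12 -/

open MeasureTheory Set Metric Filter Topology
open scoped ENNReal ContDiff

namespace Vale.Agent.P219.TP

namespace P12

open P11 (ww)

/-- `m⁷ N(1/m, a)` -/
noncomputable def Nm (m a : ℝ) : ℝ := 301 + 3596 * m - 4755 * m ^ 2 - 6252
    * m * a ^ 2 - 5595 * m ^ 3 - 3102 * m ^ 2 * a ^ 2 + 12464 * m ^ 4 + 1615 * m * a ^ 4 + 31383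
    * m ^ 3 * a ^ 2 + 3696 * m ^ 5 + 11000 * m ^ 2 * a ^ 4 - 15271 * m ^ 4 * a ^ 2 - 9377 * m ^
    3 * a ^ 4 + 44121 * m ^ 5 * a ^ 2 + 5775 * m ^ 7 + 37289 * m ^ 4 * a ^ 4 - 74784 * m ^ 6 * a
    ^ 2 - 8092 * m ^ 3 * a ^ 6 - 250127 * m ^ 5 * a ^ 4 - 56650 * m ^ 4 * a ^ 6 + 226648 * m ^ 6
    * a ^ 4 + 217320 * m ^ 5 * a ^ 6 - 13452 * m ^ 7 * a ^ 4 - 155976 * m ^ 6 * a ^ 6 + 8964 * m
    ^ 7 * a ^ 6

/-- `m⁷ Q(1/m, a)` -/
noncomputable def Qm (m a : ℝ) : ℝ := 12504 * m + 6204 * m ^ 2 - 6460 * m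
    * a ^ 2 - 62766 * m ^ 3 - 44000 * m ^ 2 * a ^ 2 + 30542 * m ^ 4 + 37508 * m ^ 3 * a ^ 2 -
    88242 * m ^ 5 - 149156 * m ^ 4 * a ^ 2 + 149568 * m ^ 6 + 48552 * m ^ 3 * a ^ 4 + 1000508 *
    m ^ 5 * a ^ 2 + 339900 * m ^ 4 * a ^ 4 - 906592 * m ^ 6 * a ^ 2 - 1303920 * m ^ 5 * a ^ 4 +
    53808 * m ^ 7 * a ^ 2 + 935856 * m ^ 6 * a ^ 4 - 53784 * m ^ 7 * a ^ 4

/-- `8 N - r ∂N/∂r` -/
noncomputable def NRm (m a : ℝ) : ℝ := 301 + 7192 * m - 14265 * m ^ 2 -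
    12504 * m * a ^ 2 - 22380 * m ^ 3 - 9306 * m ^ 2 * a ^ 2 + 62320 * m ^ 4 + 3230 * m * a ^ 4
    + 125532 * m ^ 3 * a ^ 2 + 22176 * m ^ 5 + 33000 * m ^ 2 * a ^ 4 - 76355 * m ^ 4 * a ^ 2 -
    37508 * m ^ 3 * a ^ 4 + 264726 * m ^ 5 * a ^ 2 + 46200 * m ^ 7 + 186445 * m ^ 4 * a ^ 4 -
    523488 * m ^ 6 * a ^ 2 - 32368 * m ^ 3 * a ^ 6 - 1500762 * m ^ 5 * a ^ 4 - 283250 * m ^ 4 *
    a ^ 6 + 1586536 * m ^ 6 * a ^ 4 + 1303920 * m ^ 5 * a ^ 6 - 107616 * m ^ 7 * a ^ 4 - 1091832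
    * m ^ 6 * a ^ 6 + 71712 * m ^ 7 * a ^ 6

theorem Nm_eq {r : ℝ} (hr : 0 < r) (a : ℝ) : N r a = r ^ 7 * Nm (1 / r) a := by
  unfold N Nm
  field_simp
  ring

theorem Qm_eq {r : ℝ} (hr : 0 < r) (a : ℝ) : Q r a = r ^ 7 * Qm (1 / r) a := by
  unfold Q Qm
  field_simp
  ring

theorem NRm_eq {r : ℝ} (hr : 0 < r) (a : ℝ) : NR r a = r ^ 7 * NRm (1 / r) a := by
  unfold NR NRm
  field_simp
  ring

/-- The kernel in the variables `m = 1 / r`, `a`, `b`. -/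
noncomputable def Hk (m a b : ℝ) : ℝ :=
  3502 + 1 / 2 * ((m * (11 * Nm m a - NRm m a * (1 - b ^ 2) - |a| * Qm m a * |b| * ww a b) -
      11 * b * Nm m a) +
    (m * (11 * Nm m b - NRm m b * (1 - a ^ 2) - |b| * Qm m b * |a| * ww a b) - 11 * a * Nm m b))

theorem Hk_eq {ρ a b : ℝ} (hρ : 0 < ρ) : kk ρ a b (ww a b) / ρ ^ 8 = Hk (1 / ρ) a b := by
  unfold kk Hk
  rw [Nm_eq hρ, Nm_eq hρ, Qm_eq hρ, Qm_eq hρ, NRm_eq hρ, NRm_eq hρ]
  generalize Nm (1 / ρ) a = n1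
  generalize Nm (1 / ρ) b = n2
  generalize Qm (1 / ρ) a = n3
  generalize Qm (1 / ρ) b = n4
  generalize NRm (1 / ρ) a = n5
  generalize NRm (1 / ρ) b = n6
  field_simp

theorem Hk_unif {U ε : ℝ} (hε : 0 < ε) : ∃ δ > 0, ∀ u q a b : ℝ, 0 ≤ u → u ≤ U → 0 ≤ q →
    q ≤ 1 → 1 - q < δ → |a| ≤ 1 → |b| ≤ 1 → Hk u a b < Hk (q * u) (q * a) (q * b) + ε := by
  have hC : IsCompact (Icc (0 : ℝ) U ×ˢ (Icc (0 : ℝ) 1 ×ˢ (Icc (-1 : ℝ) 1 ×ˢ Icc (-1 : ℝ) 1))) :=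
    isCompact_Icc.prod (isCompact_Icc.prod (isCompact_Icc.prod isCompact_Icc))
  have hcont : Continuous fun z : ℝ × ℝ × ℝ × ℝ =>
      Hk (z.2.1 * z.1) (z.2.1 * z.2.2.1) (z.2.1 * z.2.2.2) := by
    unfold Hk ww Nm Qm NRm
    fun_prop
  have h := Metric.uniformContinuousOn_iff.1
    (hC.uniformContinuousOn_of_continuous hcont.continuousOn) ε hε
  obtain ⟨δ, hδ, h⟩ := h
  refine ⟨δ, hδ, fun u v a b hu hu1 hv hv1 hvδ ha hb => ?_⟩
  have hab := abs_le.1 ha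
  have hbb := abs_le.1 hb
  have h1 := h (u, v, a, b) ⟨⟨hu, hu1⟩, ⟨hv, hv1⟩, ⟨hab.1, hab.2⟩, ⟨hbb.1, hbb.2⟩⟩
    (u, 1, a, b) ⟨⟨hu, hu1⟩, ⟨zero_le_one, le_rfl⟩, ⟨hab.1, hab.2⟩, ⟨hbb.1, hbb.2⟩⟩ (by
      rw [Prod.dist_eq, Prod.dist_eq, Prod.dist_eq]
      simp only [dist_self]
      rw [Real.dist_eq, abs_sub_comm, abs_of_nonneg (by linarith : (0 : ℝ) ≤ 1 - v)]
      simp [hδ, hvδ])
  rw [Real.dist_eq, abs_lt] at h1
  simp only [one_mul] at h1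
  linarith [h1.1]

end P12

/-- The strict certificate in dimension 12. -/
noncomputable def certRTwelve : CertR 12 where
  toCert := certTwelve
  K := fun r a b => P12.kk r a b (P11.ww a b) / r ^ 8
  K_cont := by
    have hc : Continuous fun z : ℝ × ℝ × ℝ =>
        P12.kk z.1 z.2.1 z.2.2 (P11.ww z.2.1 z.2.2) := by
      unfold P12.kk P11.ww P12.N P12.Q P12.NR
      fun_prop
    exact hc.continuousOn.div (by fun_prop) fun z hz => pow_ne_zero 8 (ne_of_gt hz)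
  K_PI r a b hr ha ha1 hb hb1 := by
    have h := P12.p12_nonneg hr ha.le ha1 hb.le hb1
    have e : P12.kk r a b (P11.ww a b) / r ^ 8 * r ^ (12 - 1) =
        r ^ 3 * P12.k12 r a b (P11.ww a b) := by
      rw [P12.kk_of_nonneg ha.le hb.le]
      generalize P12.k12 r a b (P11.ww a b) = x
      norm_num
      field_simp
    rw [e]
    unfold P12.p12 at h
    show a * b * (207900 * r - (P12.f a + P12.f b) / 2) ≤ _
    linarith
  K_eq r a b hr ha ha1 hb hb1 h := by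
    have e : P12.kk r a b (P11.ww a b) / r ^ 8 * r ^ (12 - 1) =
        r ^ 3 * P12.k12 r a b (P11.ww a b) := by
      rw [P12.kk_of_nonneg ha.le hb.le]
      generalize P12.k12 r a b (P11.ww a b) = x
      norm_num
      field_simp
    rw [e] at h
    have h' : r ^ 3 * P12.k12 r a b (P11.ww a b) =
        a * b * (207900 * r - (P12.f a + P12.f b) / 2) := h
    refine P12.p12_eq_zero hr ha.le ha1 hb.le hb1 ?_
    unfold P12.p12
    rw [h']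
    ring
  K_pos r a b hr ha hb := div_pos (P12.kk_pos hr ha hb) (by positivity)
  approxR ε hε r₀ hr₀ := by
    obtain ⟨δ, hδ, hG⟩ := P12.Hk_unif (U := 1 / r₀) hε
    obtain ⟨η, hηd⟩ : ∃ η, η = min (ε / 1351350) (r₀ * (min δ 1 / 2)) := ⟨_, rfl⟩
    have hm : 0 < min δ 1 := lt_min hδ one_pos
    have hη : 0 < η := by
      rw [hηd]
      exact lt_min (by positivity) (by positivity)
    have hη1 : η ≤ ε / 1351350 := hηd ▸ min_le_left _ _
    have hη2 : η ≤ r₀ * (min δ 1 / 2) := hηd ▸ min_le_right _ _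
    refine ⟨P12.Phi η, η ^ 2, by positivity, P12.Phi_contDiff, ?_, ?_, ?_, ?_⟩
    · intro p hp
      exact P12.Phi_nonneg hη hp
    · intro r a b hr ha hb
      exact P12.ker_nonneg (lam := 3502 + ε) hη (by linarith) hr ha hb
    · intro r a b hr ha ha1 hb hb1
      have h := P12.pi_ker hη (lam := 3502 + ε) (by linarith) hr ha ha1 hb hb1
      refine le_trans (mul_le_mul_of_nonneg_left ?_ (mul_nonneg ha hb)) h
      show 207900 * r - (P12.f a + P12.f b) / 2 - ε ≤ 207900 * r - (P12.f a + P12.f b) / 2 -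
        13 / 2 * 207900 * η
      linarith
    · intro r a b hr ha hb
      have hr0 : 0 < r := lt_of_lt_of_le hr₀ hr
      obtain ⟨ρ, q, hρ, hρ2, hq, hq0, hq1, -⟩ := P8.exists_rho hη hr0.le
      have h1 := P12.ker_ge hη hr0.le ha hb hρ hρ2 hq hq0 hq1 (lam := 3502) le_rfl
      have h2 : P12.kk ρ (q * a) (q * b) (P11.ww (q * a) (q * b)) / ρ ^ 8 ≤
          ker 11 (P12.Phi η) 3502 r a b := by
        rw [div_le_iff₀ (by positivity)]
        exact h1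
      rw [P12.Hk_eq hρ] at h2
      have hq' : q ≠ 0 := by
        rintro rfl
        rw [zero_mul] at hq
        linarith
      have hρr : 1 / ρ = q * (1 / r) := by
        rw [hq]
        field_simp
      rw [hρr] at h2
      have h3 : ker 11 (P12.Phi η) (3502 + ε) r a b = ker 11 (P12.Phi η) 3502 r a b + ε := by
        unfold ker ker0
        ring
      have h4 : 1 - q < δ := by
        have e1 : (1 - q ^ 2) * ρ ^ 2 = η ^ 2 := by
          have : r ^ 2 = q ^ 2 * ρ ^ 2 := by rw [hq]; ring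
          nlinarith
        have e2 : η ^ 2 < δ * ρ ^ 2 := by
          have a1 : η ^ 2 ≤ (r₀ * (min δ 1 / 2)) ^ 2 := pow_le_pow_left₀ hη.le hη2 2
          have a2 : (r₀ * (min δ 1 / 2)) ^ 2 = r₀ ^ 2 * (min δ 1 * min δ 1 / 4) := by ring
          have a3 : min δ 1 * min δ 1 ≤ δ * 1 :=
            mul_le_mul (min_le_left _ _) (min_le_right _ _) hm.le hδ.le
          have a4 : r₀ ^ 2 ≤ ρ ^ 2 := by
            rw [hρ2]
            have : r₀ ^ 2 ≤ r ^ 2 := pow_le_pow_left₀ hr₀.le hr 2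
            nlinarith [sq_nonneg η]
          have a5 : r₀ ^ 2 * (min δ 1 * min δ 1 / 4) ≤ r₀ ^ 2 * (δ / 4) :=
            mul_le_mul_of_nonneg_left (by linarith) (sq_nonneg _)
          have a6 : 0 < r₀ ^ 2 := by positivity
          nlinarith [mul_pos hδ a6, mul_le_mul_of_nonneg_left a4 hδ.le]
        have e3 : 0 < ρ ^ 2 := by positivity
        rw [← e1] at e2
        have e4 : 1 - q ^ 2 < δ := lt_of_mul_lt_mul_right e2 e3.le
        nlinarith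
      have h5 := hG (1 / r) q a b (by positivity)
        (one_div_le_one_div_of_le hr₀ hr) hq0 hq1 h4 ha hb
      show P12.kk r a b (P11.ww a b) / r ^ 8 ≤ ker 11 (P12.Phi η) (3502 + ε) r a b
      rw [h3, P12.Hk_eq hr0]
      linarith

end Vale.Agent.P219.TP
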