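import Vale.Agent.P219.TPR.CertR
import Vale.Agent.P219.TPR.TwoPointGen
import Vale.Agent.P219.TPR.NearMin
import Vale.Agent.P219.TPR.RigPairAux

/-! # Equality case: conclusion for a pair of boundary points -/

open MeasureTheory Set Metric Filter Topology
open scoped ENNReal ContDiff

namespace Vale.Agent.P219.TP

variable {n : ℕ} (G : Geo n)

/-- Arithmetic of the limit. -/
theorem rgp_arith (hn : 2 ≤ n) (C : CertR n) {R A0 ε e t : ℝ} (hR : 0 < R) (hA0 : 0 < A0)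
    (hA : A0 = sig n * R ^ (n - 1)) (ht : 0 < t) (hε : ε = t / (8 * A0 ^ 2))
    (he : e = t / (4 * A0))
    (h : R ^ (n - 1) * (C.s / R) * sig n * (Geo.om n * R ^ n - 0) -
      R ^ (n - 1) * ((C.F + ε) * sig n) * A0 + t ≤ ((C.lam + ε) * A0 + e) * A0) : False := by
  have hn0 : (0 : ℝ) < n := by positivity
  have hsig : sig n = n * Geo.om n := sig_eq (by omega)
  have h2 : C.s / R * (Geo.om n * R ^ n) = (C.F + C.lam) * A0 := by
    have h3 : C.F + C.lam = C.s / n := by have := C.balance; linarith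
    rw [h3, hA, hsig]
    have : R ^ n = R ^ (n - 1) * R := by
      rw [← pow_succ]; congr 1; omega
    rw [this]
    field_simp
  have h4 : R ^ (n - 1) * (C.s / R) * sig n * (Geo.om n * R ^ n - 0) =
      A0 * ((C.F + C.lam) * A0) := by
    rw [← h2, hA]; ring
  have h5 : R ^ (n - 1) * ((C.F + ε) * sig n) * A0 = (C.F + ε) * A0 * A0 := by
    rw [hA]; ring
  have h6 : ε * A0 ^ 2 = t / 8 := by rw [hε]; field_simp
  have h7 : e * A0 = t / 4 := by rw [he]; field_simp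
  rw [h4, h5] at h
  nlinarith

/-- Equality case. `h k` is a sequence of functions approximating the indicator function of a
domain with the volume and the boundary area of the Euclidean ball of radius `R`; near `p` and `q`
the gradients of the `h k` have the common direction `N`. PROOF: let `a = ⟨lg p q, N p⟩/|lg p q|`,
`b` the same at `q`, `r = |lg p q|/R`, `J = |det T p (lg p q)| ≥ 1`. Suppose the conclusion fails;
then (K_pos, K_eq, K_PI and `K J r^m ≥ K r^m`) there is `c > 0` with `K r a b > c` and, if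
`a, b > 0`, `(K r a b - c) J r^m > a b (s r - (f a + f b)/2)`, also near `(p,q)`. Fix a small `ε > 0`
and `Φ` from approxR with `r₀ = r/2`; use two_point_gen for
`κ = ker (Φ, λ + ε) (‖lg x y‖/R_k) (ang x y) (ang y x) - c 1_{U×V}(x,y)`, near_min,
`R_k = (vp (h k)/ω)^{1/n} → R` and (F + λ) = s/n:
`c ∫_U |D h| ∫_V |D h| ≤ C ε + o(1)`, `C` independent of `ε`. This contradicts the lower bounds
`hlp`, `hlq` when `ε` is small. (`f ≥ 0` on `[0,1]`, scaling by `R` as in two_point_scaled.) -/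
theorem rig_pair (hn : 2 ≤ n) (C : CertR n) {o : E n} {ρ₀ : ℝ} (hρ₀ : 0 < ρ₀) {R : ℝ}
    (hR : 0 < R) {h : ℕ → E n → ℝ} (hcls : ∀ k, G.Cls o ρ₀ (h k))
    (hper : ∀ e > 0, ∀ᶠ k in atTop, G.per (h k) ≤ sig n * R ^ (n - 1) + e)
    (hlay : ∀ e > 0, ∀ᶠ k in atTop, G.vol.real {x | 0 < h k x ∧ h k x < 1} < e)
    (hvp : Tendsto (fun k => G.vp (h k)) atTop (𝓝 (Geo.om n * R ^ n)))
    {N : E n → E n} {p q : E n} (hpq : p ≠ q) (hNp : ContinuousAt N p) (hNq : ContinuousAt N q)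
    (hN : ∀ x ∈ ({p, q} : Set (E n)), ∀ᶠ y in 𝓝 x, ‖N y‖ = 1 ∧
      ∀ k, G.D (h k) y = ‖G.D (h k) y‖ • N y)
    (hlow : ∀ x ∈ ({p, q} : Set (E n)), ∀ U ∈ 𝓝 x, ∃ c > 0, ∀ᶠ k in atTop,
      c ≤ ∫ y in U, ‖G.D (h k) y‖ ∂G.vol) :
    2 * R * inner ℝ (G.lg p q) (N p) = ‖G.lg p q‖ ^ 2 ∧
      2 * R * inner ℝ (G.lg q p) (N q) = ‖G.lg p q‖ ^ 2 ∧
      |(G.T p (G.lg p q)).det| = 1 := by
  by_contra hcon
  have hn1 : 1 ≤ n := by omega
  have hn0 : (0 : ℝ) < n := by positivity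
  have hom : 0 < Geo.om n := om_pos hn1
  have hsigp : 0 < sig n := sig_pos hn1
  have hsig : sig n = n * Geo.om n := sig_eq hn1
  have hp := hN p (by simp)
  have hq := hN q (by simp)
  obtain ⟨c, hc, r₀, hr₀, hloc⟩ := rgp_local G C hR hpq hNp hNq hp.self_of_nhds.1
    hq.self_of_nhds.1 hcon
  rw [nhds_prod_eq, nhds_prod_eq] at hloc
  obtain ⟨Z, hZ, W, hW, hZW⟩ := mem_prod_iff.1 hloc
  obtain ⟨U₁, hU₁, V₁, hV₁, hUV⟩ := mem_prod_iff.1 hZ
  obtain ⟨U, hUsub, hUo, hpU⟩ := _root_.mem_nhds_iff.1 (inter_mem hU₁ hp)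
  obtain ⟨V, hVsub, hVo, hqV⟩ := _root_.mem_nhds_iff.1 (inter_mem hV₁ hq)
  obtain ⟨A, hA, hAe⟩ := hlow p (by simp) U (hUo.mem_nhds hpU)
  obtain ⟨B, hB, hBe⟩ := hlow q (by simp) V (hVo.mem_nhds hqV)
  -- the radii
  obtain ⟨Rk, hRkd⟩ : ∃ Rk : ℕ → ℝ, ∀ k, Rk k = (G.vp (h k) / Geo.om n) ^ (1 / (n : ℝ)) :=
    ⟨_, fun _ => rfl⟩
  have hRk : Tendsto Rk atTop (𝓝 R) := by
    have h1 : Tendsto (fun k => G.vp (h k) / Geo.om n) atTop
        (𝓝 (Geo.om n * R ^ n / Geo.om n)) := hvp.div_const _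
    have h2 := h1.rpow_const (p := 1 / (n : ℝ)) (Or.inr (by positivity))
    have h3 : (Geo.om n * R ^ n / Geo.om n) ^ (1 / (n : ℝ)) = R := by
      rw [mul_div_cancel_left₀ _ hom.ne', ← Real.rpow_natCast, ← Real.rpow_mul hR.le,
        mul_one_div_cancel hn0.ne', Real.rpow_one]
    rw [h3] at h2
    refine h2.congr fun k => (hRkd k).symm
  have hvpos : ∀ᶠ k in atTop, 0 < G.vp (h k) := hvp.eventually_const_lt (by positivity)
  obtain ⟨A0, hA0⟩ : ∃ A0, A0 = sig n * R ^ (n - 1) := ⟨_, rfl⟩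
  have hA0p : 0 < A0 := by rw [hA0]; positivity
  have hT1 : Tendsto (fun k => sig n * Rk k ^ (n - 1)) atTop (𝓝 A0) := by
    rw [hA0]
    exact (hRk.pow (n - 1)).const_mul (sig n)
  have hdefe : ∀ᶠ k in atTop, G.def' (h k) = G.per (h k) - sig n * Rk k ^ (n - 1) := by
    filter_upwards [hvpos] with k hk
    obtain ⟨h1, h2, h3⟩ := model_scale hn hk (hRkd k)
    unfold Geo.def'
    rw [h3, ← hsig]
  have hPlow : ∀ᶠ k in atTop, sig n * Rk k ^ (n - 1) ≤ G.per (h k) := by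
    filter_upwards [hdefe] with k hk
    have h4 := def_nonneg_of_cert G hn C.toCert o hρ₀ (hcls k)
    linarith
  have hP : Tendsto (fun k => G.per (h k)) atTop (𝓝 A0) := by
    rw [tendsto_order]
    constructor
    · intro a ha
      filter_upwards [hT1.eventually_const_lt ha, hPlow] with k h1 h2
      exact h1.trans_le h2
    · intro a ha
      filter_upwards [hper ((a - A0) / 2) (by linarith)] with k hk
      rw [← hA0] at hk
      linarith
  have hdef : Tendsto (fun k => G.def' (h k)) atTop (𝓝 0) := by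
    have h1 := hP.sub hT1
    rw [sub_self] at h1
    exact h1.congr' (hdefe.mono fun k hk => hk.symm)
  have hlay' : Tendsto (fun k => G.vol.real {x | 0 < h k x ∧ h k x < 1}) atTop (𝓝 0) := by
    rw [tendsto_order]
    constructor
    · intro a ha
      exact Filter.Eventually.of_forall fun k => ha.trans_le measureReal_nonneg
    · intro a ha
      exact hlay a ha
  -- constants
  obtain ⟨ε, hε⟩ : ∃ ε, ε = c * (A * B) / (8 * A0 ^ 2) := ⟨_, rfl⟩
  obtain ⟨e, he⟩ : ∃ e, e = c * (A * B) / (4 * A0) := ⟨_, rfl⟩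
  have hcAB : 0 < c * (A * B) := by positivity
  have hε0 : 0 < ε := by rw [hε]; positivity
  have he0 : 0 < e := by rw [he]; positivity
  obtain ⟨Φ, δ, hδ, hΦ, hΦ0, hK0, hKP, hKK⟩ := C.approxR ε hε0 r₀ hr₀
  obtain ⟨η, hη, hmin⟩ := near_min G hn o hρ₀
    (fun g hg => def_nonneg_of_cert G hn C.toCert o hρ₀ hg) hδ hΦ hΦ0 (C.lam + ε)
    (R₀ := R / 2) (R₁ := 2 * R) (by positivity) e he0
  have hev : ∀ᶠ k in atTop, Rk k ^ (n - 1) * (C.s / Rk k) * sig n *
      (G.vp (h k) - G.vol.real {x | 0 < h k x ∧ h k x < 1}) -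
      Rk k ^ (n - 1) * ((C.F + ε) * sig n) * G.per (h k) + c * (A * B) ≤
      ((C.lam + ε) * G.per (h k) + e) * G.per (h k) := by
    filter_upwards [hvpos, hAe, hBe, hRk.eventually hW, hRk.eventually_const_lt
      (show R / 2 < R by linarith), hRk.eventually_lt_const (show R < 2 * R by linarith),
      hdef.eventually_lt_const hη, hlay'.eventually_lt_const hη] with k h1 h2 h3 h4 h5 h6 h7 h8
    obtain ⟨hRp, hRn, _⟩ := model_scale hn h1 (hRkd k)
    have h9 := hmin (h k) (Rk k) (hcls k) h7 h8 h5.le h6.le hRn.symm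
    have h10 := rgp_step G hn C (c := c) hε0 hδ hΦ hK0 hKP hKK hRp (hcls k) hUo hVo ?_
    · have h11 := vp_le_split G hn (hcls k)
      have h12 : 0 ≤ Rk k ^ (n - 1) * (C.s / Rk k) * sig n := by
        have := C.s_nonneg
        positivity
      have h13 : Rk k ^ (n - 1) * (C.s / Rk k) * sig n *
          (G.vp (h k) - G.vol.real {x | 0 < h k x ∧ h k x < 1}) ≤
          Rk k ^ (n - 1) * (C.s / Rk k) * sig n * G.vol.real {x | h k x = 1} := by
        refine mul_le_mul_of_nonneg_left ?_ h12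
        linarith
      have h14 : A * B ≤ (∫ y in U, ‖G.D (h k) y‖ ∂G.vol) * ∫ y in V, ‖G.D (h k) y‖ ∂G.vol := by
        have := hA.le.trans h2
        gcongr
      have h15 : c * (A * B) ≤ c * ((∫ y in U, ‖G.D (h k) y‖ ∂G.vol) *
          ∫ y in V, ‖G.D (h k) y‖ ∂G.vol) := by gcongr
      linarith
    · intro x hx y hy hDx hDy
      have hx' := hUsub hx
      have hy' := hVsub hy
      have hz : ((x, y), Rk k) ∈ {z : (E n × E n) × ℝ | _} :=
        hZW (show ((x, y), Rk k) ∈ Z ×ˢ W from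
          ⟨hUV (show (x, y) ∈ U₁ ×ˢ V₁ from ⟨hx'.1, hy'.1⟩), h4⟩)
      have e1 := rgp_ang G y (hx'.2.2 k) hDx
      have e2 := rgp_ang G x (hy'.2.2 k) hDy
      rw [e1, e2]
      exact hz
  -- the limit
  have hL : Tendsto (fun k => Rk k ^ (n - 1) * (C.s / Rk k) * sig n *
      (G.vp (h k) - G.vol.real {x | 0 < h k x ∧ h k x < 1}) -
      Rk k ^ (n - 1) * ((C.F + ε) * sig n) * G.per (h k) + c * (A * B)) atTop
      (𝓝 (R ^ (n - 1) * (C.s / R) * sig n * (Geo.om n * R ^ n - 0) -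
      R ^ (n - 1) * ((C.F + ε) * sig n) * A0 + c * (A * B))) :=
    ((((((hRk.pow (n - 1)).mul (tendsto_const_nhds.div hRk hR.ne')).mul_const (sig n)).mul
      (hvp.sub hlay')).sub (((hRk.pow (n - 1)).mul_const ((C.F + ε) * sig n)).mul hP))).add_const _
  have hRt : Tendsto (fun k => ((C.lam + ε) * G.per (h k) + e) * G.per (h k)) atTop
      (𝓝 (((C.lam + ε) * A0 + e) * A0)) := ((hP.const_mul _).add_const e).mul hP
  have hfin := le_of_tendsto_of_tendsto hL hRt hev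
  exact rgp_arith hn C hR hA0p hA0 hcAB hε he hfin

end Vale.Agent.P219.TP
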